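import Claimed.Agent.R316.S9.Ctx

/-!
# Row 316, Section 9, package BOOK: Lemma 9.5 (forward degree control), bookkeeping part

Invariant for `P_k = Gacc G k`, `j = jj k`:
* `k` regular: `deg (P_k)_i ≤ w k i`;
* `k` bad: there is `u` with `j0 < u ≤ j`, all of `[u, j]` bad, `u - 1` regular and
  `pdeg P_k ≤ Dst^(j - u) * lam (u - 1) * Q_u`.

Transitions: regular → regular (`h1`), regular → bad (`h2` with `B = lam j * Q_(j+1)`, by `W1` and
`rate_reg`), bad → bad (`h3`), bad → regular = reset: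
`Dst^(v-u) Q_u ≤ (b0/2) Q_(v-N)` (`bad_full` and `Par.hM1`), `lam (u-1) ≤ lam v`, and
`lam v (b0/2) Q_(v-N) ≤ lam v (μ - θ_v) ≤ w` (`rate_reg`, `Late.sq_ge`).
At a macro start `k` with `Q_j ≤ 3 e^h S_j`: regular: `pdeg ≤ lam j Q_(j+1) ≤ lam j e^M Q_j`;
bad: `Dst^(j-u) Q_u ≤ Dst^(3N+1) Q_j` (`bad_prefix`).
-/

set_option autoImplicit false
open MvPolynomial

namespace Claimed.Agent.R316.S9

variable {n d : ℕ}

/-- exponentiating a logarithmic inequality. -/
theorem book_exp_le {D : ℕ} (hD : 1 ≤ D) {m : ℕ} {a b c : ℝ} (ha : 0 < a) (hb : 0 < b) (hc : 0 < c)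
    (h : (m : ℝ) * Real.log D + Real.log a + Real.log c ≤ Real.log b) :
    (D : ℝ) ^ m * a * c ≤ b := by
  have hD0 : (0 : ℝ) < (D : ℝ) := by exact_mod_cast hD
  have hp : 0 < (D : ℝ) ^ m := pow_pos hD0 m
  rw [← Real.log_le_log_iff (by positivity) hb, Real.log_mul (by positivity) hc.ne',
    Real.log_mul hp.ne' ha.ne', Real.log_pow]
  exact h

/-- a real bound of all components bounds the degree. -/
theorem book_pdeg_le {P : PMap n} {B : ℝ} (hB : 0 ≤ B) (h : ∀ i, ((P i).totalDegree : ℝ) ≤ B) :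
    (pdeg P : ℝ) ≤ B := by
  have h1 : pdeg P ≤ ⌊B⌋₊ := pdeg_le_iff.mpr fun i => Nat.le_floor (h i)
  calc (pdeg P : ℝ) ≤ (⌊B⌋₊ : ℝ) := by exact_mod_cast h1
    _ ≤ B := Nat.floor_le hB

theorem book_le_pdeg (P : PMap n) (i : Fin n) : (P i).totalDegree ≤ pdeg P :=
  pdeg_le_iff.mp le_rfl i

namespace Ctx

variable {I : S9Input n d} {h : ℝ} {Dst p c : ℕ} {Cv : ℝ} (C : Ctx I h Dst p c Cv)

theorem book_lam : Monotone C.P.lam ∧ ∀ j, 0 < C.P.lam j ∧
    C.P.lam j ≤ 2 / (C.P.b * I.c0) * Real.exp (2 * (2 / C.P.b)) := by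
  have hb := C.P.b_pos
  have hc0 := I.hc0
  have hL0 : 0 < 2 / (C.P.b * I.c0) := by positivity
  have hlamB := lamS_bounds (K0 := 2 / C.P.b) (L0 := 2 / (C.P.b * I.c0)) (by positivity) hL0
  exact ⟨hlamB.1, fun j => ⟨lt_of_lt_of_le hL0 (hlamB.2 j).1, (hlamB.2 j).2⟩⟩

theorem book_theta_nonneg (j : ℕ) : 0 ≤ θs I h j := by
  have := Qs_pos I h j
  unfold θs
  positivity

theorem book_theta_le (k : ℕ) : θs I h (C.jj k) ≤ C.P.b / 2 * Qs I h (C.jj k) := by
  have hb := C.P.b_pos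
  have hj : (0 : ℝ) < (C.jj k : ℝ) := by exact_mod_cast C.ctx_jj_pos k
  have h1 := (C.lateJ k).sq_ge
  have hQ := Qs_pos I h (C.jj k)
  unfold θs
  rw [div_le_iff₀ (by positivity)]
  rw [div_le_iff₀ hb] at h1
  nlinarith

/-- on a regular step the weights are at most `lam j * Q (j+1)`. -/
theorem book_w_le (X : RateData I C.s) {w : ℕ → Fin n → ℝ} (hw : C.Weights X w) {k : ℕ}
    (hk : C.reg k) (i : Fin n) : w k i ≤ C.P.lam (C.jj k) * Qs I h (C.jj k + 1) := by
  refine (hw.W1 k i).2.trans ?_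
  refine mul_le_mul_of_nonneg_left ?_ (C.book_lam.2 _).1.le
  have h1 := (C.rate_reg X hk i).2.1
  have h2 := book_theta_nonneg (I := I) (h := h) (C.jj k)
  linarith

/-- on a regular step the weights are at least `lam j * (b0 / 2) * Q (j - N)`. -/
theorem book_le_w (X : RateData I C.s) {w : ℕ → Fin n → ℝ} (hw : C.Weights X w) {k : ℕ}
    (hk : C.reg k) (i : Fin n) :
    C.P.lam (C.jj k) * (I.b0 / 2 * Qs I h (C.jj k - C.P.N)) ≤ w k i := by
  refine le_trans ?_ (hw.W1 k i).1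
  refine mul_le_mul_of_nonneg_left ?_ (C.book_lam.2 _).1.le
  obtain ⟨h1, -, h3⟩ := C.rate_reg X hk i
  have h4 := C.book_theta_le k
  have h5 : Qs I h (C.jj k) ≤ Qs I h (C.jj k + 1) := Qs_mono I C.hh (Nat.le_succ _)
  have h6 : C.P.b / 2 * Qs I h (C.jj k) ≤ I.b0 / 2 * Qs I h (C.jj k - C.P.N) := by
    unfold Par.b
    have e1 : Real.exp (-C.P.M) * Qs I h (C.jj k) ≤ Qs I h (C.jj k - C.P.N) := by
      rw [Real.exp_neg, inv_mul_le_iff₀ (Real.exp_pos _)]
      exact h5.trans h3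
    have := mul_le_mul_of_nonneg_left e1 (by have := I.hb0; positivity : 0 ≤ I.b0 / 2)
    calc I.b0 * Real.exp (-C.P.M) / 2 * Qs I h (C.jj k)
        = I.b0 / 2 * (Real.exp (-C.P.M) * Qs I h (C.jj k)) := by ring
      _ ≤ _ := this
  linarith

theorem book_log_two_div : 0 ≤ Real.log (2 / I.b0) := by
  apply Real.log_nonneg
  rw [le_div_iff₀ I.hb0]
  have := I.hb0'
  linarith

theorem book_logD_le : Real.log Dst ≤ C.P.M / (3 * C.P.N + 1) := by
  have h1 := C.P.hM1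
  have h2 : 0 ≤ Real.log (2 / I.b0) / (2 * C.P.N + 1) :=
    div_nonneg (book_log_two_div (I := I)) (by positivity)
  linarith

/-- the reset inequality. -/
theorem book_reset (hDst : 1 ≤ Dst) {u v : ℕ} (hu1 : 1 ≤ u) (huv : u < v)
    (hbad : ∀ i, u ≤ i → i < v → C.P.bad i) (hu : ¬ C.P.bad (u - 1)) (hv : ¬ C.P.bad v) :
    (Dst : ℝ) ^ (v - u) * Qs I h u ≤ I.b0 / 2 * Qs I h (v - C.P.N) := by
  obtain ⟨hlen, hgrow⟩ := bad_full (Qs_mono I C.hh) (Qs_pos I h) C.P.hM0 hu1 huv hbad hu hv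
  have hb0 := I.hb0
  have key : (Dst : ℝ) ^ (v - u) * Qs I h u * (2 / I.b0) ≤ Qs I h (v - C.P.N) := by
    apply book_exp_le hDst (Qs_pos I h u) (Qs_pos I h _) (by positivity)
    have hcast : ((v - u : ℕ) : ℝ) = (v : ℝ) - u := by rw [Nat.cast_sub huv.le]
    rw [hcast]
    have hlen' : (2 * (C.P.N : ℝ) + 1) ≤ (v : ℝ) - u := by
      have : ((u + 2 * C.P.N + 1 : ℕ) : ℝ) ≤ (v : ℝ) := by exact_mod_cast hlen
      push_cast at this
      linarith
    have hpos : (0 : ℝ) < 2 * (C.P.N : ℝ) + 1 := by positivity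
    have h1 := mul_le_mul_of_nonneg_right C.P.hM1 (by linarith : (0 : ℝ) ≤ (v : ℝ) - u)
    have h2 : Real.log (2 / I.b0) ≤ Real.log (2 / I.b0) / (2 * C.P.N + 1) * ((v : ℝ) - u) := by
      rw [div_mul_eq_mul_div, le_div_iff₀ hpos]
      exact mul_le_mul_of_nonneg_left hlen' (book_log_two_div (I := I))
    nlinarith
  have : (Dst : ℝ) ^ (v - u) * Qs I h u * (2 / I.b0) * (I.b0 / 2)
      ≤ Qs I h (v - C.P.N) * (I.b0 / 2) := mul_le_mul_of_nonneg_right key (by positivity)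
  calc (Dst : ℝ) ^ (v - u) * Qs I h u
      = (Dst : ℝ) ^ (v - u) * Qs I h u * (2 / I.b0) * (I.b0 / 2) := by field_simp
    _ ≤ Qs I h (v - C.P.N) * (I.b0 / 2) := this
    _ = _ := by ring

/-- growth along a bad prefix. -/
theorem book_prefix (hDst : 1 ≤ Dst) {u j : ℕ} (huj : u ≤ j)
    (hbad : ∀ i, u ≤ i → i < j → C.P.bad i) :
    (Dst : ℝ) ^ (j - u) * Qs I h u ≤ Real.exp C.P.M * Qs I h j := by
  have hgrow := bad_prefix (Qs_mono I C.hh) (Qs_pos I h) C.P.hM0 huj hbad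
  have key : (Dst : ℝ) ^ (j - u) * Qs I h u * Real.exp (-C.P.M) ≤ Qs I h j := by
    apply book_exp_le hDst (Qs_pos I h u) (Qs_pos I h _) (Real.exp_pos _)
    have hcast : ((j - u : ℕ) : ℝ) = (j : ℝ) - u := by rw [Nat.cast_sub huj]
    rw [hcast, Real.log_exp]
    have hnn : (0 : ℝ) ≤ (j : ℝ) - u := by
      have : (u : ℝ) ≤ (j : ℝ) := by exact_mod_cast huj
      linarith
    have h1 := mul_le_mul_of_nonneg_right C.book_logD_le hnn
    have hpos : (0 : ℝ) < 3 * (C.P.N : ℝ) + 1 := by positivity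
    have h2 : C.P.M / (3 * C.P.N + 1) * (((j : ℝ) - u) - (3 * C.P.N + 1))
        = C.P.M / (3 * C.P.N + 1) * ((j : ℝ) - u) - C.P.M := by
      field_simp
    rw [h2] at hgrow
    linarith
  have := mul_le_mul_of_nonneg_left key (Real.exp_pos C.P.M).le
  calc (Dst : ℝ) ^ (j - u) * Qs I h u
      = Real.exp C.P.M * ((Dst : ℝ) ^ (j - u) * Qs I h u * Real.exp (-C.P.M)) := by
        rw [Real.exp_neg]
        field_simp
    _ ≤ _ := this

end Ctx

/-- **BOOK**: forward degree control. -/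
theorem degacc_bound {I : S9Input n d} {h : ℝ} {Dst p c : ℕ} {Cv : ℝ} (C : Ctx I h Dst p c Cv)
    (hDst : 1 ≤ Dst) (X : RateData I C.s) (w : ℕ → Fin n → ℝ) (hw : C.Weights X w) (G : ℕ → PMap n)
    (h1 : ∀ k, C.reg k → C.reg (k + 1) → ∀ P : PMap n, (∀ i, ((P i).totalDegree : ℝ) ≤ w k i) →
        ∀ i, ((comp (G k) P i).totalDegree : ℝ) ≤ w (k + 1) i)
    (h2 : ∀ k, C.reg k → ∀ (P : PMap n) (B : ℝ), (∀ i, ((P i).totalDegree : ℝ) ≤ w k i) →
        (∀ i, w k i ≤ B) → ∀ i, ((comp (G k) P i).totalDegree : ℝ) ≤ B)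
    (h3 : ∀ k, pdeg (G k) ≤ Dst) :
    ∃ D : ℝ, ∀ K : ℕ, ∃ k, K ≤ k ∧ (pdeg (Gacc G k) : ℝ) ≤ D * C.s k := by
  have hD0 : (0 : ℝ) < (Dst : ℝ) := by exact_mod_cast hDst
  obtain ⟨hlamM, hlamB⟩ := C.book_lam
  have hstepdeg : ∀ k, (pdeg (Gacc G (k + 1)) : ℝ) ≤ Dst * pdeg (Gacc G k) := by
    intro k
    have e1 : pdeg (Gacc G (k + 1)) ≤ pdeg (G k) * pdeg (Gacc G k) := pdeg_comp_le _ _
    have e2 : pdeg (G k) * pdeg (Gacc G k) ≤ Dst * pdeg (Gacc G k) :=
      Nat.mul_le_mul_right _ (h3 k)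
    exact_mod_cast e1.trans e2
  -- the invariant
  have inv : ∀ k, (C.reg k → ∀ i, ((Gacc G k i).totalDegree : ℝ) ≤ w k i) ∧
      (¬ C.reg k → ∃ u, C.j0 < u ∧ u ≤ C.jj k ∧ (∀ i, u ≤ i → i ≤ C.jj k → C.P.bad i) ∧
        ¬ C.P.bad (u - 1) ∧
        (pdeg (Gacc G k) : ℝ) ≤ (Dst : ℝ) ^ (C.jj k - u) * C.P.lam (u - 1) * Qs I h u) := by
    intro k
    induction k with
    | zero =>
      have hr : C.reg 0 := C.hreg0
      refine ⟨fun _ i => ?_, fun hc => absurd hr hc⟩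
      have e1 : (Gacc G 0 i).totalDegree = 1 := by
        show (MvPolynomial.X i : MP n).totalDegree = 1
        exact totalDegree_X i
      rw [e1]
      exact_mod_cast hw.W4 0 hr i
    | succ k ih =>
      obtain ⟨ihr, ihb⟩ := ih
      by_cases hk : C.reg k
      · -- from a regular step
        refine ⟨fun hk1 => h1 k hk hk1 _ (ihr hk), fun hk1 => ?_⟩
        have hj : C.jj (k + 1) = C.jj k + 1 := by
          rcases C.jj_succ k with hj | ⟨hj, -⟩
          · exact absurd (show C.reg (k + 1) by unfold Ctx.reg; rw [hj]; exact hk) hk1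
          · exact hj
        refine ⟨C.jj k + 1, ?_, hj.ge, ?_, ?_, ?_⟩
        · have : C.j0 ≤ C.jj k := le_gj k
          omega
        · intro i hi1 hi2
          have : i = C.jj (k + 1) := by omega
          rw [this]
          exact not_not.mp hk1
        · rw [Nat.add_sub_cancel]
          exact hk
        · rw [hj, Nat.sub_self, pow_zero, one_mul, Nat.add_sub_cancel]
          apply book_pdeg_le
          · exact mul_nonneg (hlamB _).1.le (Qs_pos I h _).le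
          · exact h2 k hk _ _ (ihr hk) (fun i => C.book_w_le X hw hk i)
      · -- from a bad step
        obtain ⟨u, hu0, huj, hbad, hureg, hdeg⟩ := ihb hk
        obtain ⟨-, hj, -⟩ := C.step_bad hk
        have hdeg1 : (pdeg (Gacc G (k + 1)) : ℝ)
            ≤ (Dst : ℝ) ^ (C.jj (k + 1) - u) * C.P.lam (u - 1) * Qs I h u := by
          have e1 : C.jj (k + 1) - u = (C.jj k - u) + 1 := by omega
          rw [e1, pow_succ]
          calc (pdeg (Gacc G (k + 1)) : ℝ) ≤ Dst * pdeg (Gacc G k) := hstepdeg k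
            _ ≤ Dst * ((Dst : ℝ) ^ (C.jj k - u) * C.P.lam (u - 1) * Qs I h u) :=
              mul_le_mul_of_nonneg_left hdeg hD0.le
            _ = _ := by ring
        refine ⟨fun hk1 i => ?_, fun hk1 => ?_⟩
        · -- reset
          have hres := C.book_reset hDst (u := u) (v := C.jj (k + 1)) (by omega) (by omega)
            (fun i hi1 hi2 => hbad i hi1 (by omega)) hureg hk1
          have e1 : ((Gacc G (k + 1) i).totalDegree : ℝ) ≤ pdeg (Gacc G (k + 1)) := by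
            exact_mod_cast book_le_pdeg _ i
          have e2 : C.P.lam (u - 1) ≤ C.P.lam (C.jj (k + 1)) := hlamM (by omega)
          have hQu := Qs_pos I h u
          calc ((Gacc G (k + 1) i).totalDegree : ℝ)
              ≤ (Dst : ℝ) ^ (C.jj (k + 1) - u) * C.P.lam (u - 1) * Qs I h u := e1.trans hdeg1
            _ = C.P.lam (u - 1) * ((Dst : ℝ) ^ (C.jj (k + 1) - u) * Qs I h u) := by ring
            _ ≤ C.P.lam (C.jj (k + 1)) * (I.b0 / 2 * Qs I h (C.jj (k + 1) - C.P.N)) :=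
              mul_le_mul e2 hres (by positivity) (hlamB _).1.le
            _ ≤ w (k + 1) i := C.book_le_w X hw hk1 i
        · refine ⟨u, hu0, by omega, ?_, hureg, hdeg1⟩
          intro i hi1 hi2
          by_cases hi : i ≤ C.jj k
          · exact hbad i hi1 hi
          · have : i = C.jj (k + 1) := by omega
            rw [this]
            exact not_not.mp hk1
  -- the conclusion
  set Lm : ℝ := 2 / (C.P.b * I.c0) * Real.exp (2 * (2 / C.P.b)) with hLm
  refine ⟨Lm * (Real.exp C.P.M * (3 * Real.exp h)), fun K => ?_⟩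
  obtain ⟨j, hjK, hgood⟩ := exists_good_macro I C.hh (C.j0 + K)
  obtain ⟨k, hk1, hk2, hk3⟩ := exists_macro_start (bad := C.P.bad) (j0 := C.j0) C.hh j (by omega)
  have hjj : C.jj k = j := hk2
  have hs : C.s k = Sm h j := hk3
  refine ⟨k, by omega, ?_⟩
  rw [hs]
  have hSm := Sm_pos h j
  have hQj := Qs_pos I h j
  have hE := Real.exp_pos C.P.M
  have hfin : ∀ (l : ℕ) (A : ℝ), 0 ≤ A → A ≤ Real.exp C.P.M * Qs I h j →
      C.P.lam l * A ≤ Lm * (Real.exp C.P.M * (3 * Real.exp h)) * Sm h j := by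
    intro l A hA0 hA
    have e1 : A ≤ Real.exp C.P.M * (3 * Real.exp h) * Sm h j := by
      calc A ≤ Real.exp C.P.M * Qs I h j := hA
        _ ≤ Real.exp C.P.M * (3 * Real.exp h * Sm h j) := mul_le_mul_of_nonneg_left hgood hE.le
        _ = _ := by ring
    calc C.P.lam l * A ≤ Lm * (Real.exp C.P.M * (3 * Real.exp h) * Sm h j) :=
          mul_le_mul (hlamB l).2 e1 hA0 ((hlamB l).1.le.trans (hlamB l).2)
      _ = _ := by ring
  by_cases hk : C.reg k
  · have hb : (pdeg (Gacc G k) : ℝ) ≤ C.P.lam (C.jj k) * Qs I h (C.jj k + 1) := by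
      apply book_pdeg_le
      · exact mul_nonneg (hlamB _).1.le (Qs_pos I h _).le
      · exact fun i => ((inv k).1 hk i).trans (C.book_w_le X hw hk i)
    refine hb.trans ?_
    apply hfin _ _ (Qs_pos I h _).le
    have i0 : Fin n := ⟨0, C.hn⟩
    obtain ⟨-, -, e3⟩ := C.rate_reg X hk i0
    rw [hjj] at e3 ⊢
    exact e3.trans (mul_le_mul_of_nonneg_left (Qs_mono I C.hh (Nat.sub_le _ _)) hE.le)
  · obtain ⟨u, hu0, huj, hbad, hureg, hdeg⟩ := (inv k).2 hk
    rw [hjj] at huj hbad hdeg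
    have hpre := C.book_prefix hDst huj (fun i hi1 hi2 => hbad i hi1 hi2.le)
    calc (pdeg (Gacc G k) : ℝ) ≤ (Dst : ℝ) ^ (j - u) * C.P.lam (u - 1) * Qs I h u := hdeg
      _ = C.P.lam (u - 1) * ((Dst : ℝ) ^ (j - u) * Qs I h u) := by ring
      _ ≤ _ := hfin _ _ (by have := Qs_pos I h u; positivity) hpre

end Claimed.Agent.R316.S9
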