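import Claimed.Agent.R316.S9.Ctx

/-!
# Row 316, Section 9, package INST: the concrete instance of `AsmData`

From a context `C`, volume coordinates `A, Ai` (package VOL), rates `X`, weights `w`, alignment matrices
`Lp, Lpi` (`align_main` for `exists_linData`) put, with `Dm k = Dm (X.μ k) (X.T k)` etc.:

* `Lm k = Dmi k * Lp k * Dm k`, `Lmi k = Dmi k * Lpi k * Dm k`;
* `Lam k = Lm k * (W k)ᴴ`, `Lami k = W k * Lmi k` if `k` is regular, `1` otherwise;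
* `Lame k = Lp k * (V k)ᴴ`; `J k = Lam (k+1) * V k * Lpi k`; `Ji k = Lp k * (V k)ᴴ * Lami (k+1)`;
* `Finv k = W k * Dmi k * (V k)ᴴ`; `D k i = exp (- μ_i T / 2)`;
* `x k = exp (sqrt (s k))`, `y k = (s k)^p`, `κ k = exp (- (2/5) θ_j T_k)`, `ρ = 2`.
-/

set_option autoImplicit false
open MvPolynomial
open scoped ComplexOrder Matrix

namespace Claimed.Agent.R316.S9

variable {n d : ℕ}

/-- the conclusion of `vol_main`. -/
def VolProp (I : S9Input n d) (A Ai : ℝ → PMap n) (Cv : ℝ) (cv : ℕ) : Prop :=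
  1 ≤ Cv ∧ ∀ s, I.s0 ≤ s →
      Fix0 (A s) ∧ Fix0 (Ai s) ∧ plin (A s) = 1 ∧ plin (Ai s) = 1 ∧ pdeg (A s) ≤ d ∧ pdeg (Ai s) ≤ d ∧
      JEq d (comp (A s) (Ai s)) pid ∧ JEq d (comp (Ai s) (A s)) pid ∧
      nrm (A s) ≤ (Cv * s) ^ cv ∧ nrm (Ai s) ≤ (Cv * s) ^ cv ∧
      ∀ u, s ≤ u →
        ptr (d - 1) (jdet (comp (A u) (comp (I.F s u) (Ai s)))) = C (plin (I.F s u)).det

/-! ### kit: norms -/

theorem ins9_mnorm_le_of_sub (L : Mat n) {b : ℝ} (h : mnorm (L - 1) ≤ b) : mnorm L ≤ n + b := by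
  have e : L = 1 + (L - 1) := by abel
  calc mnorm L = mnorm (1 + (L - 1)) := by rw [← e]
    _ ≤ mnorm (1 : Mat n) + mnorm (L - 1) := mnorm_add_le _ _
    _ ≤ n + b := add_le_add mnorm_one_le h

theorem ins9_mnorm_mul_le {A B : Mat n} {a b : ℝ} (ha : mnorm A ≤ a) (hb : mnorm B ≤ b) :
    mnorm (A * B) ≤ a * b :=
  (mnorm_mul_le A B).trans (mul_le_mul ha hb (mnorm_nonneg _) ((mnorm_nonneg _).trans ha))

theorem ins9_num {a a' N S : ℝ} (ha : 1 ≤ a) (haa : a ≤ a') (hN : 1 ≤ N) (h : a * a' * N ^ 4 ≤ S) :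
    a * N ^ 2 ≤ S ∧ a' * N ^ 2 ≤ S ∧ a' * N ^ 2 * N ^ 2 * a ≤ S := by
  have ha' : 1 ≤ a' := ha.trans haa
  have hN2 : 1 ≤ N ^ 2 := one_le_pow₀ hN
  have hN4 : N ^ 2 ≤ N ^ 4 := pow_le_pow_right₀ hN (by norm_num)
  have h0 : 0 ≤ N ^ 2 := by positivity
  refine ⟨le_trans ?_ h, le_trans ?_ h, le_trans (le_of_eq (by ring)) h⟩
  · calc a * N ^ 2 = a * 1 * N ^ 2 := by ring
      _ ≤ a * a' * N ^ 4 := by
        apply mul_le_mul _ hN4 h0 (by positivity)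
        exact mul_le_mul_of_nonneg_left ha' (by linarith)
  · calc a' * N ^ 2 = 1 * a' * N ^ 2 := by ring
      _ ≤ a * a' * N ^ 4 := by
        apply mul_le_mul _ hN4 h0 (by positivity)
        exact mul_le_mul_of_nonneg_right ha (by linarith)

theorem ins9_Bd_mono (n : ℕ) {r r' : ℝ} (h : r ≤ r') : Bd n r ≤ Bd n r' := by
  unfold Bd
  apply pow_le_pow_left₀ (by positivity)
  have := Real.sqrt_le_sqrt h
  have h2 : 0 ≤ 4 * (n : ℝ) ^ 2 := by positivity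
  nlinarith

theorem ins9_Bd_nonneg (n : ℕ) (r : ℝ) : 0 ≤ Bd n r := by
  unfold Bd
  positivity

theorem ins9_exp_half_le : Real.exp (1 / 2) ≤ 2 := by
  have h1 : Real.exp (1 / 2) ^ 2 = Real.exp 1 := by
    rw [← Real.exp_nat_mul]; norm_num
  have h2 := Real.exp_one_lt_d9
  by_contra hc
  rw [not_le] at hc
  nlinarith

/-! ### kit: the matrices -/

section Mats

variable {I : S9Input n d} {s : ℕ → ℝ} (X : RateData I s)

/-- conjugation by the diagonal contraction of step `k` -/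
noncomputable def ins9Cj (L : Mat n) (k : ℕ) : Mat n := Dmi (X.μ k) (X.T k) * L * Dm (X.μ k) (X.T k)

open Classical in
/-- the primary linear change -/
noncomputable def ins9Lam (reg : ℕ → Prop) (Lp : ℕ → Mat n) (k : ℕ) : Mat n :=
  if reg k then ins9Cj X (Lp k) k * (X.W k)ᴴ else 1

open Classical in
/-- its inverse -/
noncomputable def ins9Lami (reg : ℕ → Prop) (Lpi : ℕ → Mat n) (k : ℕ) : Mat n :=
  if reg k then X.W k * ins9Cj X (Lpi k) k else 1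

theorem ins9_eqns_cite : True := by
  have := @ins9Cj.eq_1
  have := @ins9Lam.eq_1
  have := @ins9Lami.eq_1
  trivial

theorem ins9_WW (k : ℕ) : X.W k * (X.W k)ᴴ = 1 := (Matrix.mem_unitaryGroup_iff).mp (X.hW k)
theorem ins9_WW' (k : ℕ) : (X.W k)ᴴ * X.W k = 1 := (Matrix.mem_unitaryGroup_iff').mp (X.hW k)
theorem ins9_VV (k : ℕ) : X.V k * (X.V k)ᴴ = 1 := (Matrix.mem_unitaryGroup_iff).mp (X.hV k)
theorem ins9_VV' (k : ℕ) : (X.V k)ᴴ * X.V k = 1 := (Matrix.mem_unitaryGroup_iff').mp (X.hV k)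

theorem ins9_Cj_mul {L L' : Mat n} (h : L * L' = 1) (k : ℕ) : ins9Cj X L k * ins9Cj X L' k = 1 := by
  unfold ins9Cj
  have h1 := (Dm_mul_Dmi (X.μ k) (X.T k)).1
  have h2 := (Dm_mul_Dmi (X.μ k) (X.T k)).2
  calc Dmi (X.μ k) (X.T k) * L * Dm (X.μ k) (X.T k) * (Dmi (X.μ k) (X.T k) * L' * Dm (X.μ k) (X.T k))
      = Dmi (X.μ k) (X.T k) * (L * (Dm (X.μ k) (X.T k) * Dmi (X.μ k) (X.T k)) * L') * Dm (X.μ k) (X.T k) := by
        simp only [Matrix.mul_assoc]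
    _ = 1 := by rw [h1, Matrix.mul_one, h, Matrix.mul_one, h2]

theorem ins9_Lami_Lam (reg : ℕ → Prop) {Lp Lpi : ℕ → Mat n} (k : ℕ) (h : Lpi k * Lp k = 1) :
    ins9Lami X reg Lpi k * ins9Lam X reg Lp k = 1 := by
  unfold ins9Lami ins9Lam
  split_ifs
  · calc X.W k * ins9Cj X (Lpi k) k * (ins9Cj X (Lp k) k * (X.W k)ᴴ)
        = X.W k * (ins9Cj X (Lpi k) k * ins9Cj X (Lp k) k) * (X.W k)ᴴ := by simp only [Matrix.mul_assoc]
      _ = 1 := by rw [ins9_Cj_mul X h, Matrix.mul_one, ins9_WW]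
  · exact Matrix.one_mul 1

theorem ins9_Lam_le (hn : 0 < n) (reg : ℕ → Prop) (Lp : ℕ → Mat n) (k : ℕ) {B : ℝ} (hB : (n : ℝ) ≤ B)
    (h : mnorm (ins9Cj X (Lp k) k) ≤ B) : mnorm (ins9Lam X reg Lp k) ≤ B * (n : ℝ) ^ 2 := by
  have hn1 : (1 : ℝ) ≤ n := by exact_mod_cast hn
  unfold ins9Lam
  split_ifs
  · exact ins9_mnorm_mul_le h (mnorm_unitary_le _ (rates_star_mem (X.hW k)))
  · refine mnorm_one_le.trans (hB.trans ?_)
    have : (1 : ℝ) ≤ (n : ℝ) ^ 2 := one_le_pow₀ hn1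
    nlinarith

theorem ins9_Lami_le (hn : 0 < n) (reg : ℕ → Prop) (Lpi : ℕ → Mat n) (k : ℕ) {B : ℝ} (hB : (n : ℝ) ≤ B)
    (h : mnorm (ins9Cj X (Lpi k) k) ≤ B) : mnorm (ins9Lami X reg Lpi k) ≤ B * (n : ℝ) ^ 2 := by
  have hn1 : (1 : ℝ) ≤ n := by exact_mod_cast hn
  unfold ins9Lami
  split_ifs
  · rw [mul_comm B]
    exact ins9_mnorm_mul_le (mnorm_unitary_le _ (X.hW k)) h
  · refine mnorm_one_le.trans (hB.trans ?_)
    have : (1 : ℝ) ≤ (n : ℝ) ^ 2 := one_le_pow₀ hn1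
    nlinarith

/-- the conjugated matrices are bounded like the original ones -/
theorem ins9_Cj_le (k : ℕ) {w : Fin n → ℝ} {ε b : ℝ} (hε : 0 ≤ ε)
    (hW2 : ∀ i l, X.μ k l - ε ≤ X.μ k i → w l ≤ w i) {L : Mat n} (hL : UniPat w L)
    (hb : mnorm (L - 1) ≤ b) : mnorm (ins9Cj X L k) ≤ n + b := by
  apply ins9_mnorm_le_of_sub
  have h1 := (conj_small w (X.μ k) (X.T k) ε (X.hT k) hW2 L hL).2
  refine (h1.trans ?_).trans hb
  have h2 : Real.exp (-(ε * X.T k) / 2) ≤ 1 := by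
    rw [Real.exp_le_one_iff]
    have := mul_nonneg hε (X.hT k).le
    linarith
  calc mnorm (L - 1) * Real.exp (-(ε * X.T k) / 2) ≤ mnorm (L - 1) * 1 :=
        mul_le_mul_of_nonneg_left h2 (mnorm_nonneg _)
    _ = mnorm (L - 1) := mul_one _

theorem ins9_diag (reg : ℕ → Prop) {Lp Lpi : ℕ → Mat n} {k : ℕ} (hk : reg k) (h : Lp k * Lpi k = 1) :
    Lp k * (X.V k)ᴴ * plin (I.F (s k) (s (k + 1))) * ins9Lami X reg Lpi k = Dm (X.μ k) (X.T k) := by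
  have h1 := (Dm_mul_Dmi (X.μ k) (X.T k)).1
  rw [X.lin k, ins9Lami, if_pos hk, ins9Cj]
  calc Lp k * (X.V k)ᴴ * (X.V k * Dm (X.μ k) (X.T k) * (X.W k)ᴴ)
        * (X.W k * (Dmi (X.μ k) (X.T k) * Lpi k * Dm (X.μ k) (X.T k)))
      = Lp k * ((X.V k)ᴴ * X.V k) * Dm (X.μ k) (X.T k) * ((X.W k)ᴴ * X.W k) * Dmi (X.μ k) (X.T k) * Lpi k
          * Dm (X.μ k) (X.T k) := by simp only [Matrix.mul_assoc]
    _ = Lp k * (Dm (X.μ k) (X.T k) * Dmi (X.μ k) (X.T k)) * Lpi k * Dm (X.μ k) (X.T k) := by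
        rw [ins9_VV', ins9_WW', Matrix.mul_one, Matrix.mul_one]
        simp only [Matrix.mul_assoc]
    _ = Dm (X.μ k) (X.T k) := by rw [h1, Matrix.mul_one, h, Matrix.one_mul]

theorem ins9_Finv (k : ℕ) :
    X.W k * Dmi (X.μ k) (X.T k) * (X.V k)ᴴ * plin (I.F (s k) (s (k + 1))) = 1 := by
  have h2 := (Dm_mul_Dmi (X.μ k) (X.T k)).2
  rw [X.lin k]
  calc X.W k * Dmi (X.μ k) (X.T k) * (X.V k)ᴴ * (X.V k * Dm (X.μ k) (X.T k) * (X.W k)ᴴ)
      = X.W k * (Dmi (X.μ k) (X.T k) * ((X.V k)ᴴ * X.V k) * Dm (X.μ k) (X.T k)) * (X.W k)ᴴ := by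
        simp only [Matrix.mul_assoc]
    _ = 1 := by rw [ins9_VV', Matrix.mul_one, h2, Matrix.mul_one, ins9_WW]

end Mats

/-! ### kit: the diagonal entries -/

theorem ins9_norm_D (a : ℝ) : ‖((Real.exp a : ℝ) : ℂ)‖ = Real.exp a := by
  rw [Complex.norm_real, Real.norm_of_nonneg (Real.exp_pos _).le]

theorem ins9_norm_Dinv (a : ℝ) : ‖(((Real.exp a : ℝ) : ℂ))⁻¹‖ = Real.exp (-a) := by
  rw [norm_inv, ins9_norm_D, Real.exp_neg]

theorem ins9_gap (μ : Fin n → ℝ) (T : ℝ) (i : Fin n) (β : Fin n →₀ ℕ) :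
    ‖(((Real.exp (-(μ i * T) / 2) : ℝ) : ℂ))⁻¹‖ * ∏ l, ‖((Real.exp (-(μ l * T) / 2) : ℝ) : ℂ)‖ ^ β l
      = Real.exp (-(T / 2 * (∑ l, (β l : ℝ) * μ l - μ i))) := by
  rw [ins9_norm_Dinv]
  simp only [ins9_norm_D, ← Real.exp_nat_mul]
  rw [← Real.exp_sum, ← Real.exp_add]
  congr 1
  rw [mul_sub, Finset.mul_sum]
  have : ∑ l, (β l : ℝ) * (-(μ l * T) / 2) = -∑ l, T / 2 * ((β l : ℝ) * μ l) := by
    rw [← Finset.sum_neg_distrib]
    exact Finset.sum_congr rfl fun l _ => by ring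
  rw [this]
  ring

/-- **INST**: the concrete assembly data, with the smallness hypotheses of `asm_main`. -/
theorem exists_asmData (hd : 2 ≤ d) {I : S9Input n d} {h : ℝ} {Dst p c : ℕ} {Cv : ℝ}
    (C : Ctx I h Dst p c Cv) {A Ai : ℝ → PMap n} {cv : ℕ} (hvol : VolProp I A Ai Cv cv)
    (hp : 2 * cv + 1 ≤ p) :
    ∃ (Y : AsmData n d) (X : RateData I C.s),
      (∀ k, Y.reg k ↔ C.reg k) ∧ (∀ k, Y.F k = I.F (C.s k) (C.s (k + 1))) ∧
      (∀ k, Y.Δ k = C.s (k + 1) - C.s k) ∧ (∀ k, Y.x k = Real.exp (Real.sqrt (C.s k))) ∧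
      (∀ k, Y.y k = C.s k ^ p) ∧ C.Weights X Y.w ∧
      (∀ k, (Y.y k * Y.ρ) ^ c ≤ Y.x k) ∧ (∀ k, Y.reg k → Y.κ k * (Y.y k * Y.ρ) ^ c ≤ 1) := by
  classical
  obtain ⟨X⟩ := exists_rateData I C.s C.s_ge C.s_lt
  obtain ⟨w, hw⟩ := C.exists_weights X
  obtain ⟨Yl, hYreg, hYμ, hYT, hYU, hYw, hYε, hYR⟩ := C.exists_linData hw
  obtain ⟨Lp, Lpi, hL⟩ := align_main Yl
  obtain ⟨hCv1, hV⟩ := hvol
  have hn := C.hn
  have hN : (1 : ℝ) ≤ n := by exact_mod_cast hn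
  -- macro indices
  have hj1 : ∀ k, 1 ≤ C.jj k := fun k => by
    have := (C.lateJ k).N_le
    omega
  have hjpos : ∀ k, (0 : ℝ) < (C.jj k : ℝ) := fun k => by exact_mod_cast hj1 k
  have hθ : ∀ k, 0 < θs I h (C.jj k) := fun k => div_pos (Qs_pos I h _) (pow_pos (hjpos k) 2)
  have he0 : 0 < eps0 n := by
    unfold eps0
    positivity
  have hBd : ∀ k, Bd n (Yl.R k / Yl.ε k) = C.P.BdJ (C.jj k) := fun k => by
    rw [hYε, hYR]
    unfold Par.BdJ θs eps0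
    congr 1
    have h1 := (Qs_pos I h (C.jj k)).ne'
    have h2 := (hjpos k).ne'
    field_simp
  have hL1 : ∀ k, Lp k * Lpi k = 1 := fun k => (hL k).1
  have hL2 : ∀ k, Lpi k * Lp k = 1 := fun k => (hL k).2.1
  have hL3 : ∀ k, UniPat (w k) (Lp k) := fun k => by
    have := (hL k).2.2.1
    rwa [hYw] at this
  have hL4 : ∀ k, UniPat (w k) (Lpi k) := fun k => by
    have := (hL k).2.2.2.1
    rwa [hYw] at this
  have hL5 : ∀ k, mnorm (Lp k - 1) ≤ C.P.BdJ (C.jj k) := fun k => by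
    have := (hL k).2.2.2.2.1
    rwa [hBd] at this
  have hL6 : ∀ k, mnorm (Lpi k - 1) ≤ C.P.BdJ (C.jj k) := fun k => by
    have := (hL k).2.2.2.2.2.1
    rwa [hBd] at this
  have hL8 : ∀ k, C.reg k → C.reg (k + 1) → ∀ i l, w (k + 1) i < w k l →
      (Dmi (X.μ (k + 1)) (X.T (k + 1)) * Lp (k + 1) * Dm (X.μ (k + 1)) (X.T (k + 1)) * X.U k * Lpi k) i l
        = 0 := fun k => by
    have := (hL k).2.2.2.2.2.2.2
    rwa [hYreg, hYμ, hYT, hYU, hYw] at this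
  -- numerics of the grid
  have hSs : ∀ k, Sm h (C.jj k) ≤ C.s k := C.Sm_le_s
  have hs2 : ∀ k, 2 ≤ C.s k := fun k => (C.lateJ k).two_le.trans (hSs k)
  have hs1 : ∀ k, 1 ≤ C.s k := fun k => by linarith [hs2 k]
  have hs0 : ∀ k, 0 ≤ C.s k := fun k => by linarith [hs2 k]
  have hp0 : p ≠ 0 := by omega
  have hsp : ∀ k, C.s k ≤ C.s k ^ p := fun k => le_self_pow₀ (hs1 k) hp0
  have hyS : ∀ k q, q ≤ Sm h (C.jj k) → q ≤ C.s k ^ p := fun k q hq => (hq.trans (hSs k)).trans (hsp k)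
  have hstep : ∀ k, C.s (k + 1) ≤ Real.exp 1 * C.s k := fun k => by
    have h1 := C.step_ub k
    have h2 : Real.exp h ≤ Real.exp 1 := Real.exp_le_exp.2 C.hh1.le
    have h3 : C.s (k + 1) ≤ Real.exp h * C.s k := by linarith
    exact h3.trans (mul_le_mul_of_nonneg_right h2 (hs0 k))
  have hpow : ∀ k t, 0 ≤ t → t ≤ C.s k * C.s k → t ^ cv ≤ C.s k ^ p := fun k t ht0 ht => by
    calc t ^ cv ≤ (C.s k * C.s k) ^ cv := pow_le_pow_left₀ ht0 ht cv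
      _ = C.s k ^ (2 * cv) := by rw [← sq, ← pow_mul]
      _ ≤ C.s k ^ p := pow_le_pow_right₀ (hs1 k) (by omega)
  have hCv0 : 0 ≤ Cv := by linarith
  have hCvs : ∀ k, Real.exp 1 * Cv ≤ C.s k := fun k => (C.lateJ k).Cv_le.trans (hSs k)
  have hexp1 : (1 : ℝ) ≤ Real.exp 1 := Real.one_le_exp (by norm_num)
  -- the bounds of the matrices
  obtain ⟨bb, hbb⟩ : ∃ bb : ℕ → ℝ, bb = fun j => (n : ℝ) + C.P.BdJ j := ⟨_, rfl⟩
  have hbbn : ∀ j, (n : ℝ) ≤ bb j := fun j => by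
    rw [hbb]
    have : 0 ≤ C.P.BdJ j := ins9_Bd_nonneg _ _
    simp only
    linarith
  have hbb1 : ∀ j, 1 ≤ bb j := fun j => hN.trans (hbbn j)
  have hbbm : ∀ j, bb j ≤ bb (j + 1) := fun j => by
    rw [hbb]
    simp only
    have : C.P.BdJ j ≤ C.P.BdJ (j + 1) := by
      unfold Par.BdJ
      apply ins9_Bd_mono
      have h1 : (j : ℝ) ^ 2 ≤ ((j + 1 : ℕ) : ℝ) ^ 2 := by
        apply pow_le_pow_left₀ (Nat.cast_nonneg _)
        push_cast
        linarith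
      have h2 := Real.exp_pos C.P.M
      gcongr
    linarith
  have hbbk : ∀ k, bb (C.jj (k + 1)) ≤ bb (C.jj k + 1) := fun k => by
    rcases C.jj_succ k with h1 | ⟨h1, -⟩
    · rw [h1]; exact hbbm _
    · rw [h1]
  have hnum : ∀ k, bb (C.jj k) * (n : ℝ) ^ 2 ≤ Sm h (C.jj k) ∧ bb (C.jj k + 1) * (n : ℝ) ^ 2 ≤ Sm h (C.jj k) ∧
      bb (C.jj k + 1) * (n : ℝ) ^ 2 * (n : ℝ) ^ 2 * bb (C.jj k) ≤ Sm h (C.jj k) := fun k =>
    ins9_num (hbb1 _) (hbbm _) hN (by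
      have := (C.lateJ k).mat_le
      rw [hbb]
      exact this)
  have hεk : ∀ k, 0 ≤ eps0 n * θs I h (C.jj k) := fun k => (mul_pos he0 (hθ k)).le
  have hCp : ∀ k, mnorm (ins9Cj X (Lp k) k) ≤ bb (C.jj k) := fun k => by
    rw [hbb]
    exact ins9_Cj_le X k (hεk k) (hw.W2 k) (hL3 k) (hL5 k)
  have hCpi : ∀ k, mnorm (ins9Cj X (Lpi k) k) ≤ bb (C.jj k) := fun k => by
    rw [hbb]
    exact ins9_Cj_le X k (hεk k) (hw.W2 k) (hL4 k) (hL6 k)
  have hLam : ∀ k, mnorm (ins9Lam X C.reg Lp k) ≤ bb (C.jj k) * (n : ℝ) ^ 2 := fun k =>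
    ins9_Lam_le X hn C.reg Lp k (hbbn _) (hCp k)
  have hLami : ∀ k, mnorm (ins9Lami X C.reg Lpi k) ≤ bb (C.jj k) * (n : ℝ) ^ 2 := fun k =>
    ins9_Lami_le X hn C.reg Lpi k (hbbn _) (hCpi k)
  have hn2 : (0 : ℝ) ≤ (n : ℝ) ^ 2 := by positivity
  have hLam' : ∀ k, mnorm (ins9Lam X C.reg Lp (k + 1)) ≤ bb (C.jj k + 1) * (n : ℝ) ^ 2 := fun k =>
    (hLam (k + 1)).trans (mul_le_mul_of_nonneg_right (hbbk k) hn2)
  have hLami' : ∀ k, mnorm (ins9Lami X C.reg Lpi (k + 1)) ≤ bb (C.jj k + 1) * (n : ℝ) ^ 2 := fun k =>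
    (hLami (k + 1)).trans (mul_le_mul_of_nonneg_right (hbbk k) hn2)
  have hLp : ∀ k, mnorm (Lp k) ≤ bb (C.jj k) := fun k => by
    rw [hbb]
    exact ins9_mnorm_le_of_sub _ (hL5 k)
  have hLpi : ∀ k, mnorm (Lpi k) ≤ bb (C.jj k) := fun k => by
    rw [hbb]
    exact ins9_mnorm_le_of_sub _ (hL6 k)
  have hVn : ∀ k, mnorm (X.V k) ≤ (n : ℝ) ^ 2 := fun k => mnorm_unitary_le _ (X.hV k)
  have hVHn : ∀ k, mnorm (X.V k)ᴴ ≤ (n : ℝ) ^ 2 := fun k => mnorm_unitary_le _ (rates_star_mem (X.hV k))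
  have hWn : ∀ k, mnorm (X.W k) ≤ (n : ℝ) ^ 2 := fun k => mnorm_unitary_le _ (X.hW k)
  have hLamLami : ∀ k, ins9Lam X C.reg Lp k * ins9Lami X C.reg Lpi k = 1 := fun k =>
    mul_eq_one_comm.mp (ins9_Lami_Lam X C.reg k (hL2 k))
  -- the multipliers
  have hlam : ∀ j, 0 < C.P.lam j := fun j => by
    have hb := C.P.b_pos
    have hL0 : 0 < 2 / (C.P.b * I.c0) := div_pos (by norm_num) (mul_pos hb I.hc0)
    exact lt_of_lt_of_le hL0 ((lamS_bounds (div_nonneg (by norm_num) hb.le) hL0).2 j).1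
  -- rates
  have hμT : ∀ k i, 0 ≤ X.μ k i * X.T k := fun k i => (mul_pos (C.rate_pos X k i) (X.hT k)).le
  have hsqrt : ∀ k, Real.sqrt (Sm h (C.jj k)) ≤ Real.sqrt (C.s k) := fun k => Real.sqrt_le_sqrt (hSs k)
  -- the fields
  have fJ_Lame : ∀ k, ins9Lam X C.reg Lp (k + 1) * X.V k * Lpi k * (Lp k * (X.V k)ᴴ)
      = ins9Lam X C.reg Lp (k + 1) := fun k => by
    calc ins9Lam X C.reg Lp (k + 1) * X.V k * Lpi k * (Lp k * (X.V k)ᴴ)
        = ins9Lam X C.reg Lp (k + 1) * (X.V k * (Lpi k * Lp k) * (X.V k)ᴴ) := by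
          simp only [Matrix.mul_assoc]
      _ = _ := by rw [hL2, Matrix.mul_one, ins9_VV, Matrix.mul_one]
  have fJ_Ji : ∀ k, ins9Lam X C.reg Lp (k + 1) * X.V k * Lpi k
      * (Lp k * (X.V k)ᴴ * ins9Lami X C.reg Lpi (k + 1)) = 1 := fun k => by
    rw [← Matrix.mul_assoc, fJ_Lame, hLamLami]
  have fpat : ∀ k, C.reg k → C.reg (k + 1) → ∀ i l, w (k + 1) i < w k l →
      (ins9Lam X C.reg Lp (k + 1) * X.V k * Lpi k) i l = 0 := fun k hk hk' i l hil => by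
    have h1 := hL8 k hk hk' i l hil
    rw [ins9Lam, if_pos hk', ins9Cj]
    rw [RateData.U] at h1
    rw [← h1]
    simp only [Matrix.mul_assoc]
  have fDinv : ∀ k, C.reg k → ∀ i, ‖(((Real.exp (-(X.μ k i * X.T k) / 2) : ℝ) : ℂ))⁻¹‖
      ≤ Real.exp (Real.sqrt (C.s k)) := fun k hk i => by
    rw [ins9_norm_Dinv, Real.exp_le_exp]
    have h1 := C.rateT_le X k i
    have h2 := (C.step_reg hk).2
    have h3 := hsqrt k
    have h4 := Real.sqrt_nonneg (C.s k)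
    linarith
  have fgap : ∀ k, C.reg k → ∀ (i : Fin n) (β : Fin n →₀ ℕ), 2 ≤ β.degree → β.degree ≤ d →
      ¬ Allowed (w k) i β →
      ‖(((Real.exp (-(X.μ k i * X.T k) / 2) : ℝ) : ℂ))⁻¹‖
        * ∏ l, ‖((Real.exp (-(X.μ k l * X.T k) / 2) : ℝ) : ℂ)‖ ^ β l
        ≤ Real.exp (-(2 / 5 * (θs I h (C.jj k) * X.T k))) := fun k _ i β h2 _ hA => by
    rw [ins9_gap, Real.exp_le_exp]
    unfold Allowed at hA
    have hf := forbidden_gap (X.μ k) (w k) (θs I h (C.jj k)) (C.P.lam (C.jj k)) (hθ k) (hlam _)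
      (hw.W1 k) i β h2 (not_le.1 hA)
    have := mul_pos (X.hT k) (sub_pos.2 hf)
    nlinarith
  have fx_ratio : ∀ k, C.reg k → C.reg (k + 1) →
      Real.exp (Real.sqrt (C.s (k + 1))) ≤ 2 * Real.exp (Real.sqrt (C.s k)) := fun k hk _ => by
    have h2 := (C.step_reg hk).2
    have h3 := hsqrt k
    have h4 := Real.sqrt_nonneg (C.s k)
    have h5 := Real.sq_sqrt (hs0 k)
    have h6 : Real.sqrt (C.s (k + 1)) ≤ Real.sqrt (C.s k) + 1 / 2 := by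
      rw [← Real.sqrt_sq (by linarith : 0 ≤ Real.sqrt (C.s k) + 1 / 2)]
      apply Real.sqrt_le_sqrt
      nlinarith
    calc Real.exp (Real.sqrt (C.s (k + 1))) ≤ Real.exp (1 / 2 + Real.sqrt (C.s k)) :=
          Real.exp_le_exp.2 (by linarith)
      _ = Real.exp (1 / 2) * Real.exp (Real.sqrt (C.s k)) := Real.exp_add _ _
      _ ≤ 2 * Real.exp (Real.sqrt (C.s k)) :=
          mul_le_mul_of_nonneg_right ins9_exp_half_le (Real.exp_pos _).le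
  have fx_next : ∀ k, Real.exp (Real.sqrt (C.s (k + 1))) ≤ Real.exp (Real.sqrt (C.s k)) ^ 2 := fun k => by
    rw [← Real.exp_nat_mul, Real.exp_le_exp]
    have h4 := Real.sqrt_nonneg (C.s k)
    have h5 := Real.sq_sqrt (hs0 k)
    have h6 := hstep k
    have h7 := Real.exp_one_lt_d9
    push_cast
    rw [← Real.sqrt_sq (by linarith : 0 ≤ 2 * Real.sqrt (C.s k))]
    apply Real.sqrt_le_sqrt
    nlinarith [hs0 k]
  have fbF : ∀ k, nrm (I.F (C.s k) (C.s (k + 1))) ≤ C.s k ^ p := fun k => by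
    apply hyS k
    refine (I.bound _ _ (C.s_ge k) (C.s_lt k).le).trans (le_trans ?_ (C.lateJ k).C1_le)
    calc I.C1 * min 1 (Real.exp (I.C1 * C.s k - I.σ * C.s (k + 1))) ≤ I.C1 * 1 :=
          mul_le_mul_of_nonneg_left (min_le_left _ _) (by linarith [I.hC1])
      _ = I.C1 := mul_one _
  have hCvs' : ∀ k, Cv * C.s k ≤ C.s k * C.s k := fun k => by
    apply mul_le_mul_of_nonneg_right _ (hs0 k)
    have := hCvs k
    nlinarith
  have fbA : ∀ k, nrm (A (C.s k)) ≤ C.s k ^ p := fun k =>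
    ((hV (C.s k) (C.s_ge k)).2.2.2.2.2.2.2.2.1).trans
      (hpow k _ (mul_nonneg hCv0 (hs0 k)) (hCvs' k))
  have fbAi : ∀ k, nrm (Ai (C.s k)) ≤ C.s k ^ p := fun k =>
    ((hV (C.s k) (C.s_ge k)).2.2.2.2.2.2.2.2.2.1).trans
      (hpow k _ (mul_nonneg hCv0 (hs0 k)) (hCvs' k))
  have fbA' : ∀ k, nrm (A (C.s (k + 1))) ≤ C.s k ^ p := fun k => by
    refine ((hV (C.s (k + 1)) (C.s_ge (k + 1))).2.2.2.2.2.2.2.2.1).trans
      (hpow k _ (mul_nonneg hCv0 (hs0 (k + 1))) ?_)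
    calc Cv * C.s (k + 1) ≤ Cv * (Real.exp 1 * C.s k) := mul_le_mul_of_nonneg_left (hstep k) hCv0
      _ = (Real.exp 1 * Cv) * C.s k := by ring
      _ ≤ C.s k * C.s k := mul_le_mul_of_nonneg_right (hCvs k) (hs0 k)
  have fbJ : ∀ k, mnorm (ins9Lam X C.reg Lp (k + 1) * X.V k * Lpi k) ≤ C.s k ^ p := fun k =>
    hyS k _ ((ins9_mnorm_mul_le (ins9_mnorm_mul_le (hLam' k) (hVn k)) (hLpi k)).trans (hnum k).2.2)
  have fbJi : ∀ k, mnorm (Lp k * (X.V k)ᴴ * ins9Lami X C.reg Lpi (k + 1)) ≤ C.s k ^ p := fun k => by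
    apply hyS k
    refine (ins9_mnorm_mul_le (ins9_mnorm_mul_le (hLp k) (hVHn k)) (hLami' k)).trans
      (le_trans (le_of_eq ?_) (hnum k).2.2)
    ring
  have fbFinv : ∀ k, mnorm (X.W k * Dmi (X.μ k) (X.T k) * (X.V k)ᴴ)
      ≤ C.s k ^ p * Real.exp ((C.s (k + 1) - C.s k) / 2) := fun k => by
    refine (ins9_mnorm_mul_le (ins9_mnorm_mul_le (hWn k)
      (mnorm_Dmi_le (X.μ k) (X.T k) (C.s (k + 1) - C.s k) (C.rateT_le X k))) (hVHn k)).trans ?_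
    have h1 := hyS k _ (C.lateJ k).n_le
    calc (n : ℝ) ^ 2 * (n * Real.exp ((C.s (k + 1) - C.s k) / 2)) * (n : ℝ) ^ 2
        = (n : ℝ) ^ 5 * Real.exp ((C.s (k + 1) - C.s k) / 2) := by ring
      _ ≤ _ := mul_le_mul_of_nonneg_right h1 (Real.exp_pos _).le
  refine ⟨{
    reg := C.reg
    F := fun k => I.F (C.s k) (C.s (k + 1))
    A := fun k => A (C.s k)
    Ai := fun k => Ai (C.s k)
    D := fun k i => ((Real.exp (-(X.μ k i * X.T k) / 2) : ℝ) : ℂ)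
    w := w
    Lam := ins9Lam X C.reg Lp
    Lami := ins9Lami X C.reg Lpi
    Lame := fun k => Lp k * (X.V k)ᴴ
    J := fun k => ins9Lam X C.reg Lp (k + 1) * X.V k * Lpi k
    Ji := fun k => Lp k * (X.V k)ᴴ * ins9Lami X C.reg Lpi (k + 1)
    Finv := fun k => X.W k * Dmi (X.μ k) (X.T k) * (X.V k)ᴴ
    Δ := fun k => C.s (k + 1) - C.s k
    x := fun k => Real.exp (Real.sqrt (C.s k))
    y := fun k => C.s k ^ p
    κ := fun k => Real.exp (-(2 / 5 * (θs I h (C.jj k) * X.T k)))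
    ρ := 2
    fixF := fun k => I.fix0 _ _ (C.s_ge k) (C.s_lt k).le
    degF := fun k => I.deg _ _ (C.s_ge k) (C.s_lt k).le
    fixA := fun k => (hV (C.s k) (C.s_ge k)).1
    fixAi := fun k => (hV (C.s k) (C.s_ge k)).2.1
    degA := fun k => (hV (C.s k) (C.s_ge k)).2.2.2.2.1
    degAi := fun k => (hV (C.s k) (C.s_ge k)).2.2.2.2.2.1
    linA := fun k => (hV (C.s k) (C.s_ge k)).2.2.1
    linAi := fun k => (hV (C.s k) (C.s_ge k)).2.2.2.1
    AiA := fun k => (hV (C.s k) (C.s_ge k)).2.2.2.2.2.2.2.1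
    vol := fun k => (hV (C.s k) (C.s_ge k)).2.2.2.2.2.2.2.2.2.2 (C.s (k + 1)) (C.s_lt k).le
    Lami_Lam := fun k => ins9_Lami_Lam X C.reg k (hL2 k)
    Lam_one := fun k hk => ⟨by rw [ins9Lam, if_neg hk], by rw [ins9Lami, if_neg hk]⟩
    J_Lame := fun k _ => fJ_Lame k
    J_Ji := fJ_Ji
    diag := fun k hk => ins9_diag X C.reg hk (hL1 k)
    pat := fpat
    Finv_F := fun k => ins9_Finv X k
    hw := fun k hk i => lt_of_lt_of_le one_pos (hw.W4 k hk i)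
    D_ne := fun k _ i => by
      exact_mod_cast (Real.exp_pos _).ne'
    D_le := fun k _ i => by
      rw [ins9_norm_D, Real.exp_le_one_iff]
      have := hμT k i
      linarith
    Dinv_le := fDinv
    gap := fgap
    hκ := fun k => (Real.exp_pos _).le
    hρ := by norm_num
    hΔ := fun k => by linarith [C.s_lt k]
    hy := fun k => (hs2 k).trans (hsp k)
    hyn := fun k => by
      apply hyS k
      refine le_trans ?_ (C.lateJ k).n_le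
      exact le_self_pow₀ hN (by norm_num)
    x_mono := fun k _ _ => Real.exp_le_exp.2 (Real.sqrt_le_sqrt (C.s_lt k).le)
    x_ratio := fx_ratio
    x_next := fx_next
    bF := fbF
    bA := fbA
    bAi := fbAi
    bA' := fbA'
    bLam := fun k => hyS k _ ((hLam k).trans (hnum k).1)
    bLami := fun k => hyS k _ ((hLami k).trans (hnum k).1)
    bLam' := fun k => hyS k _ ((hLam' k).trans (hnum k).2.1)
    bLami' := fun k => hyS k _ ((hLami' k).trans (hnum k).2.1)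
    bLame := fun k => hyS k _ ((ins9_mnorm_mul_le (hLp k) (hVHn k)).trans (hnum k).1)
    bJ := fbJ
    bJi := fbJi
    bFinv := fbFinv }, X, fun k => Iff.rfl, fun k => rfl, fun k => rfl, fun k => rfl, fun k => rfl, hw,
    fun k => (C.lateJ k).env (C.s k) (hSs k), fun k hk => ?_⟩
  show Real.exp (-(2 / 5 * (θs I h (C.jj k) * X.T k))) * (C.s k ^ p * 2) ^ c ≤ 1
  have hk' : C.reg k := hk
  have h1 := C.thetaT_ge X hk'
  have h2 := (C.lateJ k).kap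
  have h3 : C.s k ≤ Sm h (C.jj k + 1) := (C.s_lt k).le.trans (C.s_succ_le k)
  have h4 : (C.s k ^ p * 2) ^ c ≤ (Sm h (C.jj k + 1) ^ p * 2) ^ c := by
    apply pow_le_pow_left₀ (by have := hs0 k; positivity)
    exact mul_le_mul_of_nonneg_right (pow_le_pow_left₀ (hs0 k) h3 p) (by norm_num)
  calc Real.exp (-(2 / 5 * (θs I h (C.jj k) * X.T k))) * (C.s k ^ p * 2) ^ c
      ≤ Real.exp (-(2 / 5 * C.P.gg (C.jj k))) * Real.exp (2 / 5 * C.P.gg (C.jj k)) := by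
        apply mul_le_mul _ (h4.trans h2) (by have := hs0 k; positivity) (Real.exp_pos _).le
        rw [Real.exp_le_exp]
        linarith
    _ = 1 := by rw [← Real.exp_add]; simp

end Claimed.Agent.R316.S9
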