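import Claimed.Agent.R316.S9.Diff

/-!
# Row 316, Section 9, package JET (5): inverse jets and scaling

* `inv_jet` : a jet fixing `0` with invertible linear part has a two sided inverse jet, with
  polynomial coefficient bounds.
  Proof: reduce to `plin P = 1` (compose with `ofMat B`), write `P = pid - ν`, iterate
  `Q_{r+1} = ptrunc d (pid + ν ∘ Q_r)`, `Q_0 = pid`; by induction `JEq (r+1) (comp P Q_r) pid`.
  This gives right inverses; a right inverse `Q` of `P` has itself a right inverse `P'`, and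
  `P ≡ P ∘ Q ∘ P' ≡ P'`.
* `scl t P = t⁻¹ P (t z)`.
-/

set_option autoImplicit false
open MvPolynomial

namespace Claimed.Agent.R316.S9

variable {n : ℕ}

/-! ### auxiliary lemmas -/

theorem ivj_ordGe_two_iff {f : MP n} :
    OrdGe 2 f ↔ coeff 0 f = 0 ∧ ∀ l, coeff (Finsupp.single l 1) f = 0 := by
  constructor
  · intro h
    exact ⟨h 0 (by simp), fun l => h _ (by simp)⟩
  · rintro ⟨h0, h1⟩ m hm
    rcases Nat.lt_or_ge m.degree 1 with h | h
    · have : m = 0 := by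
        rw [Nat.lt_one_iff, Finsupp.degree_eq_zero_iff] at h; exact h
      rw [this, h0]
    · obtain ⟨l, rfl⟩ := (degree_eq_one_iff' m).mp (by omega)
      exact h1 l

theorem ivj_ordGe_ptr {k : ℕ} {f : MP n} (h : OrdGe k f) (d : ℕ) : OrdGe k (ptr d f) := fun m hm => by
  rw [coeff_ptr]
  split_ifs
  · exact h m hm
  · rfl

theorem ivj_sub_ptr_ordGe (d : ℕ) (f : MP n) : OrdGe (d + 1) (f - ptr d f) := by
  have : ptr d f = ptr d (ptr d f) := by rw [ptr_ptr, min_self]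
  exact ptr_eq_iff.mp this

theorem ivj_ptr_X {d : ℕ} (hd : 1 ≤ d) (i : Fin n) : ptr d (X i : MP n) = X i :=
  ptr_eq_self (by rw [totalDegree_X]; exact hd)

/-- the iteration `Q_{r+1} = ptrunc d (pid + ν ∘ Q_r)` -/
noncomputable def ivjIter (d : ℕ) (ν : PMap n) : ℕ → PMap n
  | 0 => pid
  | r + 1 => ptrunc d (pid + comp ν (ivjIter d ν r))

/-- the exponents of the bounds of the iteration -/
def ivjExp (n d a : ℕ) : ℕ → ℕ
  | 0 => n
  | r + 1 => n + a + ivjExp n d a r * d + 1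

theorem ivj_eqns_cite : True := by
  have := @ivjIter.eq_1
  have := @ivjIter.eq_2
  have := @ivjExp.eq_1
  have := @ivjExp.eq_2
  trivial

theorem ivj_iter_succ_apply (d : ℕ) (ν : PMap n) (r : ℕ) (i : Fin n) :
    ivjIter d ν (r + 1) i = ptr d (X i + bind₁ (ivjIter d ν r) (ν i)) := rfl

theorem ivj_iter_fix0 (d : ℕ) {ν : PMap n} (hν : Fix0 ν) (r : ℕ) : Fix0 (ivjIter d ν r) := by
  induction r with
  | zero => exact fix0_pid
  | succ r ih =>
    refine Fix0.ptrunc (fun i => ?_) d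
    show coeff 0 ((pid : PMap n) i + comp ν (ivjIter d ν r) i) = 0
    rw [coeff_add, fix0_pid i, (hν.comp ih) i, add_zero]

theorem ivj_iter_pdeg {d : ℕ} (hd : 1 ≤ d) (ν : PMap n) (r : ℕ) : pdeg (ivjIter d ν r) ≤ d := by
  cases r with
  | zero => exact pdeg_pid_le.trans hd
  | succ r => exact pdeg_ptrunc_le d _

theorem ivj_iter_diff {d : ℕ} (hd : 1 ≤ d) {ν : PMap n} (hν : ∀ i, OrdGe 2 (ν i)) (r : ℕ) :
    ∀ i, OrdGe (r + 2) (ivjIter d ν (r + 1) i - ivjIter d ν r i) := by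
  have hν0 : Fix0 ν := fun i => (ivj_ordGe_two_iff.1 (hν i)).1
  induction r with
  | zero =>
    intro i
    rw [ivj_iter_succ_apply]
    have e : ptr d (X i + bind₁ (ivjIter d ν 0) (ν i)) - ivjIter d ν 0 i = ptr d (ν i) := by
      have h1 : bind₁ (ivjIter d ν 0) (ν i) = ν i := congrFun (comp_pid ν) i
      have h2 : ivjIter d ν 0 i = X i := rfl
      rw [h1, h2, ptr_add, ivj_ptr_X hd]
      ring
    rw [e]
    exact ivj_ordGe_ptr (hν i) d
  | succ r ih =>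
    intro i
    rw [ivj_iter_succ_apply, ivj_iter_succ_apply d ν r, ← ptr_sub]
    have e : X i + bind₁ (ivjIter d ν (r + 1)) (ν i) - (X i + bind₁ (ivjIter d ν r) (ν i))
        = bind₁ (ivjIter d ν (r + 1)) (ν i) - bind₁ (ivjIter d ν r) (ν i) := by ring
    rw [e]
    refine ivj_ordGe_ptr ?_ d
    have := bind₁_sub_ordGe' (a := 1) (b := r + 2) (ivj_iter_fix0 d hν0 (r + 1)) (ivj_iter_fix0 d hν0 r)
      ih (hν i)
    exact this.mono (by omega)

theorem ivj_iter_jeq {d : ℕ} (hd : 1 ≤ d) {ν : PMap n} (hν : ∀ i, OrdGe 2 (ν i)) :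
    JEq d (comp (pid - ν) (ivjIter d ν d)) pid := by
  rw [jeq_iff]
  intro i
  have e : comp (pid - ν) (ivjIter d ν d) i - (pid : PMap n) i
      = (ivjIter d ν d i - ivjIter d ν (d + 1) i)
        - ((X i + bind₁ (ivjIter d ν d) (ν i)) - ptr d (X i + bind₁ (ivjIter d ν d) (ν i))) := by
    rw [ivj_iter_succ_apply]
    have h1 : comp (pid - ν) (ivjIter d ν d) i = ivjIter d ν d i - bind₁ (ivjIter d ν d) (ν i) := by
      show bind₁ (ivjIter d ν d) ((X i : MP n) - ν i) = _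
      rw [map_sub, bind₁_X_right]
    have h2 : (pid : PMap n) i = X i := rfl
    rw [h1, h2]
    ring
  rw [e]
  refine OrdGe.sub ?_ (ivj_sub_ptr_ordGe d _)
  have h3 := (ivj_iter_diff hd hν d i).neg
  rw [neg_sub] at h3
  exact h3.mono (by omega)

theorem ivj_nat_le_pow {y : ℝ} (hy : 2 ≤ y) (n : ℕ) : (n : ℝ) ≤ y ^ n := by
  have h1 : (n : ℝ) ≤ 2 ^ n := by exact_mod_cast (Nat.lt_two_pow_self (n := n)).le
  exact h1.trans (pow_le_pow_left₀ (by norm_num) hy n)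

theorem ivj_iter_nrm {d : ℕ} {y : ℝ} (hy : 2 ≤ y) {a : ℕ} {ν : PMap n} (hν : nrm ν ≤ y ^ a)
    (hdeg : pdeg ν ≤ d) (r : ℕ) : nrm (ivjIter d ν r) ≤ y ^ ivjExp n d a r := by
  have hy1 : 1 ≤ y := by linarith
  induction r with
  | zero =>
    show nrm (pid : PMap n) ≤ y ^ n
    rw [nrm_pid]
    exact ivj_nat_le_pow hy n
  | succ r ih =>
    show nrm (ptrunc d (pid + comp ν (ivjIter d ν r))) ≤ y ^ (n + a + ivjExp n d a r * d + 1)
    refine (nrm_ptrunc_le d _).trans ((nrm_add_le _ _).trans ?_)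
    refine add_le_pow_succ hy ?_ ?_
    · rw [nrm_pid]
      exact le_pow_of_le_pow hy1 (ivj_nat_le_pow hy n) (by omega)
    · exact le_pow_of_le_pow hy1 (nrm_comp_le_pow hy1 hν ih hdeg) (by omega)

theorem ivj_pdeg_sub_le {d : ℕ} {P Q : PMap n} (hP : pdeg P ≤ d) (hQ : pdeg Q ≤ d) : pdeg (P - Q) ≤ d :=
  pdeg_le_iff.mpr fun i => (totalDegree_sub _ _).trans
    (max_le ((totalDegree_le_pdeg P i).trans hP) ((totalDegree_le_pdeg Q i).trans hQ))

/-- right inverse jets with polynomial bounds -/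
theorem ivj_right (n d : ℕ) (hd : 1 ≤ d) : ∃ c : ℕ, ∀ (P : PMap n) (B : Mat n), Fix0 P → B * plin P = 1 →
    ∃ Q : PMap n, Fix0 Q ∧ pdeg Q ≤ d ∧ plin Q = B ∧ JEq d (comp P Q) pid ∧
      nrm Q ≤ (2 + nrm P + mnorm B) ^ c := by
  refine ⟨ivjExp n d (n + 3) d + 1 * d, fun P B hP hB => ?_⟩
  obtain ⟨y, hydef⟩ : ∃ y, y = 2 + nrm P + mnorm B := ⟨_, rfl⟩
  rw [← hydef]
  have hy : 2 ≤ y := by
    have := nrm_nonneg P
    have := mnorm_nonneg B
    linarith
  have hy1 : 1 ≤ y := by linarith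
  have hAB : plin P * B = 1 := mul_eq_one_comm.1 hB
  -- the normalised map
  obtain ⟨P0, hP0⟩ : ∃ P0, P0 = ptrunc d P := ⟨_, rfl⟩
  obtain ⟨P1, hP1⟩ : ∃ P1, P1 = comp (ofMat B) P0 := ⟨_, rfl⟩
  obtain ⟨ν, hνdef⟩ : ∃ ν : PMap n, ν = pid - P1 := ⟨_, rfl⟩
  have hP0fix : Fix0 P0 := hP0 ▸ hP.ptrunc d
  have hP0deg : pdeg P0 ≤ d := hP0 ▸ pdeg_ptrunc_le d P
  have hP0lin : plin P0 = plin P := hP0 ▸ plin_ptrunc hd P
  have hP0nrm : nrm P0 ≤ y ^ 1 := by
    rw [pow_one, hP0]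
    have := nrm_ptrunc_le d P
    have := mnorm_nonneg B
    linarith
  have hP0jeq : JEq d P0 P := hP0 ▸ jeq_ptrunc d P
  have hP1fix : Fix0 P1 := hP1 ▸ (fix0_ofMat B).comp hP0fix
  have hP1deg : pdeg P1 ≤ d := by
    rw [hP1]
    refine (pdeg_comp_le _ _).trans ?_
    calc pdeg (ofMat B) * pdeg P0 ≤ 1 * d := Nat.mul_le_mul (pdeg_ofMat_le B) hP0deg
      _ = d := one_mul d
  have hP1lin : plin P1 = 1 := by
    rw [hP1, plin_comp _ hP0fix, plin_ofMat, hP0lin, hB]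
  have hBn : nrm (ofMat B) ≤ y ^ 1 := nrm_ofMat_le_pow (by
    have := nrm_nonneg P
    linarith)
  have hP1nrm : nrm P1 ≤ y ^ (1 + 1 * 1) := by
    rw [hP1]
    exact nrm_comp_le_pow hy1 hBn hP0nrm (pdeg_ofMat_le B)
  have hν2 : ∀ i, OrdGe 2 (ν i) := by
    intro i
    rw [ivj_ordGe_two_iff]
    refine ⟨?_, fun l => ?_⟩
    · rw [hνdef]
      show coeff 0 ((pid : PMap n) i - P1 i) = 0
      rw [coeff_sub, fix0_pid i, hP1fix i, sub_zero]
    · rw [hνdef]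
      show coeff (Finsupp.single l 1) ((pid : PMap n) i - P1 i) = 0
      rw [coeff_sub]
      have h1 : coeff (Finsupp.single l 1) ((pid : PMap n) i) = plin (pid : PMap n) i l := rfl
      have h2 : coeff (Finsupp.single l 1) (P1 i) = plin P1 i l := rfl
      rw [h1, h2, plin_pid, hP1lin, sub_self]
  have hνdeg : pdeg ν ≤ d := hνdef ▸ ivj_pdeg_sub_le (pdeg_pid_le.trans hd) hP1deg
  have hνnrm : nrm ν ≤ y ^ (n + 3) := by
    rw [hνdef]
    refine (nrm_sub_le _ _).trans ?_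
    refine add_le_pow_succ (p := n + 2) hy ?_ ?_
    · rw [nrm_pid]
      exact le_pow_of_le_pow hy1 (ivj_nat_le_pow hy n) (by omega)
    · exact le_pow_of_le_pow hy1 hP1nrm (by omega)
  have hν0 : Fix0 ν := fun i => (ivj_ordGe_two_iff.1 (hν2 i)).1
  obtain ⟨R, hR⟩ : ∃ R, R = ivjIter d ν d := ⟨_, rfl⟩
  have hRfix : Fix0 R := hR ▸ ivj_iter_fix0 d hν0 d
  have hRdeg : pdeg R ≤ d := hR ▸ ivj_iter_pdeg hd ν d
  have hRnrm : nrm R ≤ y ^ ivjExp n d (n + 3) d := hR ▸ ivj_iter_nrm hy hνnrm hνdeg d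
  have hP1eq : P1 = pid - ν := by rw [hνdef]; abel
  have hRjeq : JEq d (comp P1 R) pid := by
    rw [hP1eq, hR]
    exact ivj_iter_jeq hd hν2
  have hRlin : plin R = 1 := by
    have h1 := hRjeq.plin hd
    rw [plin_comp _ hRfix, hP1lin, one_mul, plin_pid] at h1
    exact h1
  refine ⟨comp R (ofMat B), hRfix.comp (fix0_ofMat B), ?_, ?_, ?_, ?_⟩
  · refine (pdeg_comp_le _ _).trans ?_
    calc pdeg R * pdeg (ofMat B) ≤ d * 1 := Nat.mul_le_mul hRdeg (pdeg_ofMat_le B)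
      _ = d := mul_one d
  · rw [plin_comp _ (fix0_ofMat B), hRlin, one_mul, plin_ofMat]
  · -- `P ∘ R ∘ B ≡ P0 ∘ R ∘ B = A ∘ P1 ∘ R ∘ B ≡ A ∘ B = pid`
    have hfix : Fix0 (comp R (ofMat B)) := hRfix.comp (fix0_ofMat B)
    have h1 : JEq d (comp P (comp R (ofMat B))) (comp P0 (comp R (ofMat B))) :=
      (hP0jeq.symm).comp_left hfix
    have h2 : P0 = comp (ofMat (plin P)) P1 := by
      rw [hP1, ofMat_comp_cancel hAB]
    have h3 : comp P0 (comp R (ofMat B)) = comp (ofMat (plin P)) (comp (comp P1 R) (ofMat B)) := by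
      rw [h2, comp_assoc, comp_assoc]
    have h4 : JEq d (comp (ofMat (plin P)) (comp (comp P1 R) (ofMat B)))
        (comp (ofMat (plin P)) (comp pid (ofMat B))) :=
      JEq.comp_right _ (hRjeq.comp_left (fix0_ofMat B))
    have h5 : comp (ofMat (plin P)) (comp pid (ofMat B)) = pid := by
      rw [pid_comp, ofMat_mul, hAB, ofMat_one]
    rw [h3] at h1
    rw [h5] at h4
    exact h1.trans h4
  · exact nrm_comp_le_pow hy1 hRnrm hBn hRdeg

/-- INVJET. -/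
theorem inv_jet (n d : ℕ) (hd : 1 ≤ d) : ∃ c : ℕ, ∀ (P : PMap n) (B : Mat n), Fix0 P → B * plin P = 1 →
    ∃ Q : PMap n, Fix0 Q ∧ pdeg Q ≤ d ∧ plin Q = B ∧ JEq d (comp P Q) pid ∧ JEq d (comp Q P) pid ∧
      nrm Q ≤ (2 + nrm P + mnorm B) ^ c := by
  obtain ⟨c, hc⟩ := ivj_right n d hd
  refine ⟨c, fun P B hP hB => ?_⟩
  obtain ⟨Q, hQfix, hQdeg, hQlin, hQj, hQn⟩ := hc P B hP hB
  have hAB : plin P * plin Q = 1 := by rw [hQlin]; exact mul_eq_one_comm.1 hB
  obtain ⟨P', hP'fix, -, -, hP'j, -⟩ := hc Q (plin P) hQfix hAB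
  refine ⟨Q, hQfix, hQdeg, hQlin, hQj, ?_, hQn⟩
  -- `P ≡ P ∘ (Q ∘ P') = (P ∘ Q) ∘ P' ≡ P'`
  have h1 : JEq d (comp P (comp Q P')) (comp P pid) := JEq.comp_right P hP'j
  have h2 : JEq d (comp (comp P Q) P') (comp pid P') := hQj.comp_left hP'fix
  rw [comp_pid] at h1
  rw [pid_comp, comp_assoc] at h2
  have h3 : JEq d P P' := h1.symm.trans h2
  exact (JEq.comp_right Q h3).trans hP'j

/-- conjugation by the scalar `t`: `scl t P = t⁻¹ P (t z)`. -/
noncomputable def scl (t : ℂ) (P : PMap n) : PMap n :=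
  comp (ofMat (t⁻¹ • (1 : Mat n))) (comp P (ofMat (t • (1 : Mat n))))

theorem ivj_ofMat_smul_one (t : ℂ) : ofMat (t • (1 : Mat n)) = fun i => C t * X i := by
  classical
  funext i
  simp only [ofMat, Matrix.smul_apply, Matrix.one_apply, smul_eq_mul]
  rw [Finset.sum_eq_single i]
  · simp
  · intro j _ hj; simp [Ne.symm hj]
  · simp

theorem ivj_scl_apply (t : ℂ) (P : PMap n) (i : Fin n) :
    scl t P i = C t⁻¹ * bind₁ (fun j => C t * X j) (P i) := by
  classical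
  unfold scl
  rw [comp_ofMat_apply, ivj_ofMat_smul_one]
  simp only [Matrix.smul_apply, Matrix.one_apply, smul_eq_mul]
  rw [Finset.sum_eq_single i]
  · simp [comp]
  · intro j _ hj; simp [Ne.symm hj]
  · simp

/-- SCL-1 -/
theorem coeff_scl (t : ℂ) (P : PMap n) (i : Fin n) (m : Fin n →₀ ℕ) :
    coeff m (scl t P i) = t⁻¹ * t ^ m.degree * coeff m (P i) := by
  rw [ivj_scl_apply, coeff_C_mul, coeff_bind₁_diag (fun _ => t), Finset.prod_pow_eq_pow_sum,
    ← Finsupp.degree_eq_sum, mul_assoc]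

/-- SCL-2 -/
theorem scl_comp {t : ℂ} (ht : t ≠ 0) (P Q : PMap n) : scl t (comp P Q) = comp (scl t P) (scl t Q) := by
  have h : (t • (1 : Mat n)) * (t⁻¹ • (1 : Mat n)) = 1 := by
    rw [Matrix.smul_mul, Matrix.mul_smul, mul_one, smul_smul, mul_inv_cancel₀ ht, one_smul]
  unfold scl
  have e : comp (ofMat (t • (1 : Mat n))) (comp (ofMat (t⁻¹ • (1 : Mat n))) (comp Q (ofMat (t • (1 : Mat n)))))
      = comp Q (ofMat (t • (1 : Mat n))) := ofMat_comp_cancel h _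
  rw [comp_assoc P, comp_assoc (ofMat (t⁻¹ • (1 : Mat n))), comp_assoc P, e]

/-- SCL-3 -/
theorem scl_ptrunc (t : ℂ) (d : ℕ) (P : PMap n) : scl t (ptrunc d P) = ptrunc d (scl t P) := by
  funext i
  ext m
  show coeff m (scl t (ptrunc d P) i) = coeff m (ptr d (scl t P i))
  rw [coeff_scl, coeff_ptr, coeff_scl]
  show _ * coeff m (ptr d (P i)) = _
  rw [coeff_ptr]
  split_ifs <;> simp

/-- SCL-4 -/
theorem scl_ofMat {t : ℂ} (ht : t ≠ 0) (A : Mat n) : scl t (ofMat A) = ofMat A := by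
  unfold scl
  rw [ofMat_mul, ofMat_mul, Matrix.mul_smul, Matrix.smul_mul, mul_one, one_mul, smul_smul,
    inv_mul_cancel₀ ht, one_smul]

/-- SCL-5 -/
theorem scl_scl {t u : ℂ} (P : PMap n) : scl t (scl u P) = scl (t * u) P := by
  funext i
  ext m
  rw [coeff_scl, coeff_scl, coeff_scl, mul_inv, mul_pow]
  ring

/-- SCL-6 -/
theorem scl_one (P : PMap n) : scl 1 P = P := by
  funext i
  ext m
  rw [coeff_scl]
  simp

end Claimed.Agent.R316.S9
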