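import Claimed.Agent.R316.Pack028

/-!
# Row 316, Section 9, package TRI: triangular polynomial automorphisms

Paper: dynamics.tex, "Each `g_k` is a triangular polynomial automorphism ...".
`g i = D i * z_i + γ i`, where `γ i` only involves variables of weight strictly smaller than `w i`.

Inverse: iterate `Y ↦ (fun i => C (D i)⁻¹ * (X i - bind₁ Y (γ i)))` `n` times starting from `0`;
with `rank i = card {l | w l < w i}` the coordinates of rank `< r` are stable after `r` steps (both for
`comp g Y = pid` and for `comp Y g = pid`).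
Jacobian: `Matrix.BlockTriangular` for `b = w` (blocks are diagonal), or reorder.
-/

set_option autoImplicit false
open MvPolynomial

namespace Claimed.Agent.R316.S9

variable {n : ℕ}

/-- the terms of `γ i` only involve variables of strictly smaller weight. -/
def TriSupp (w : Fin n → ℝ) (γ : PMap n) : Prop :=
  ∀ i m, coeff m (γ i) ≠ 0 → ∀ l, m l ≠ 0 → w l < w i

/-- the triangular map with diagonal part `D` and lower part `γ`. -/
noncomputable def triMap (D : Fin n → ℂ) (γ : PMap n) : PMap n := fun i => C (D i) * X i + γ i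

/-! ### auxiliary lemmas -/

/-- the rank of a coordinate -/
noncomputable def triRank (w : Fin n → ℝ) (i : Fin n) : ℕ := (Finset.univ.filter fun l => w l < w i).card

/-- one step of the iteration -/
noncomputable def triStep (D : Fin n → ℂ) (γ : PMap n) (Y : PMap n) : PMap n :=
  fun i => C (D i)⁻¹ * (X i - bind₁ Y (γ i))

/-- the iteration -/
noncomputable def triIter (D : Fin n → ℂ) (γ : PMap n) : ℕ → PMap n
  | 0 => 0
  | r + 1 => triStep D γ (triIter D γ r)

/-- degree bounds -/
def triDeg (d : ℕ) : ℕ → ℕ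
  | 0 => 0
  | r + 1 => 1 + d * triDeg d r

/-- exponents of the norm bounds -/
def triExp (d : ℕ) : ℕ → ℕ
  | 0 => 0
  | r + 1 => triExp d r * d + 3

theorem tri_eqns_cite : True := by
  have := @triRank.eq_1
  have := @triStep.eq_1
  have := @triIter.eq_1
  have := @triIter.eq_2
  have := @triDeg.eq_1
  have := @triDeg.eq_2
  have := @triExp.eq_1
  have := @triExp.eq_2
  trivial

theorem tri_rank_lt {w : Fin n → ℝ} {l i : Fin n} (h : w l < w i) : triRank w l < triRank w i := by
  unfold triRank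
  apply Finset.card_lt_card
  rw [Finset.ssubset_iff_of_subset]
  · exact ⟨l, by simp [h], by simp⟩
  · intro x hx
    simp only [Finset.mem_filter, Finset.mem_univ, true_and] at hx ⊢
    exact hx.trans h

theorem tri_rank_lt_n (w : Fin n → ℝ) (i : Fin n) : triRank w i < n := by
  unfold triRank
  have h := Finset.card_lt_univ_of_notMem (s := Finset.univ.filter fun l => w l < w i) (x := i) (by simp)
  simpa using h

/-- substitutions which agree on the variables of smaller weight -/
theorem tri_bind₁_congr {w : Fin n → ℝ} {γ : PMap n} (hγ : TriSupp w γ) (i : Fin n) {Y Y' : PMap n}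
    (h : ∀ l, w l < w i → Y l = Y' l) : bind₁ Y (γ i) = bind₁ Y' (γ i) := by
  rw [bind₁_eq_sum, bind₁_eq_sum]
  refine Finset.sum_congr rfl fun m hm => ?_
  congr 1
  refine Finset.prod_congr rfl fun l _ => ?_
  by_cases hl : m l = 0
  · rw [hl, pow_zero, pow_zero]
  · rw [h l (hγ i m (mem_support_iff.mp hm) l hl)]

theorem tri_comp_apply (D : Fin n → ℂ) (γ Y : PMap n) (i : Fin n) :
    comp (triMap D γ) Y i = C (D i) * Y i + bind₁ Y (γ i) := by
  simp [comp, triMap]

/-- a triangular map is left cancellable -/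
theorem tri_cancel {w : Fin n → ℝ} {D : Fin n → ℂ} {γ : PMap n} (hD : ∀ i, D i ≠ 0) (hγ : TriSupp w γ)
    {Y Y' : PMap n} (h : comp (triMap D γ) Y = comp (triMap D γ) Y') : Y = Y' := by
  have key : ∀ (r : ℕ) (i : Fin n), triRank w i < r → Y i = Y' i := by
    intro r
    induction r with
    | zero => intro i hi; exact absurd hi (Nat.not_lt_zero _)
    | succ r ih =>
      intro i hi
      have h1 := congrFun h i
      rw [tri_comp_apply, tri_comp_apply,
        tri_bind₁_congr hγ i (fun l hl => ih l (by have := tri_rank_lt hl; omega))] at h1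
      have h2 := add_right_cancel h1
      have hC : (C (D i) : MP n) ≠ 0 := by
        rw [Ne, C_eq_zero]; exact hD i
      exact mul_left_cancel₀ hC h2
  funext i
  exact key n i (tri_rank_lt_n w i)

theorem tri_iter_stable {w : Fin n → ℝ} (D : Fin n → ℂ) {γ : PMap n} (hγ : TriSupp w γ) (r : ℕ) :
    ∀ i, triRank w i < r → triIter D γ (r + 1) i = triIter D γ r i := by
  induction r with
  | zero => intro i hi; exact absurd hi (Nat.not_lt_zero _)
  | succ r ih =>
    intro i hi
    show C (D i)⁻¹ * (X i - bind₁ (triIter D γ (r + 1)) (γ i))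
      = C (D i)⁻¹ * (X i - bind₁ (triIter D γ r) (γ i))
    rw [tri_bind₁_congr hγ i (fun l hl => ih l (by have := tri_rank_lt hl; omega))]

theorem tri_iter_fix0 (D : Fin n → ℂ) {γ : PMap n} (hγ : Fix0 γ) (r : ℕ) : Fix0 (triIter D γ r) := by
  induction r with
  | zero => intro i; simp [triIter]
  | succ r ih =>
    intro i
    show coeff 0 (C (D i)⁻¹ * (X i - bind₁ (triIter D γ r) (γ i))) = 0
    have h1 : coeff 0 (bind₁ (triIter D γ r) (γ i)) = 0 := (hγ.comp ih) i
    rw [coeff_C_mul, coeff_sub, coeff_zero_X, h1, sub_zero, mul_zero]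

theorem tri_iter_pdeg (D : Fin n → ℂ) {γ : PMap n} {d : ℕ} (hγ : pdeg γ ≤ d) (r : ℕ) :
    pdeg (triIter D γ r) ≤ triDeg d r := by
  induction r with
  | zero => exact pdeg_le_iff.mpr fun i => by simp [triIter]
  | succ r ih =>
    refine pdeg_le_iff.mpr fun i => ?_
    show (C (D i)⁻¹ * (X i - bind₁ (triIter D γ r) (γ i))).totalDegree ≤ 1 + d * triDeg d r
    refine (totalDegree_mul _ _).trans ?_
    rw [totalDegree_C, zero_add]
    refine (totalDegree_sub _ _).trans (max_le ?_ ?_)
    · rw [totalDegree_X]; omega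
    · refine (totalDegree_bind₁_le _ _).trans ?_
      calc (γ i).totalDegree * pdeg (triIter D γ r) ≤ d * triDeg d r :=
            Nat.mul_le_mul ((totalDegree_le_pdeg γ i).trans hγ) ih
        _ ≤ 1 + d * triDeg d r := by omega

theorem tri_iter_nrm {D : Fin n → ℂ} {γ : PMap n} {d : ℕ} (hγ : pdeg γ ≤ d) {y : ℝ} (hy : 2 ≤ y)
    (h1 : nrm γ ≤ y) (h2 : ∑ i, ‖(D i)⁻¹‖ ≤ y) (r : ℕ) : nrm (triIter D γ r) ≤ y ^ triExp d r := by
  have hy1 : 1 ≤ y := by linarith
  induction r with
  | zero =>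
    have : nrm (triIter D γ 0) = 0 := by simp [triIter, nrm]
    rw [this]
    positivity
  | succ r ih =>
    show ∑ i, n1 (C (D i)⁻¹ * (X i - bind₁ (triIter D γ r) (γ i))) ≤ y ^ (triExp d r * d + 3)
    have hc : nrm (comp γ (triIter D γ r)) ≤ y ^ (1 + triExp d r * d) :=
      nrm_comp_le_pow hy1 (by rw [pow_one]; exact h1) ih hγ
    have hi : ∀ i, n1 (X i - bind₁ (triIter D γ r) (γ i)) ≤ y ^ (1 + triExp d r * d + 1) := by
      intro i
      refine (n1_sub_le _ _).trans (add_le_pow_succ hy ?_ ?_)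
      · rw [n1_X]; exact one_le_pow₀ hy1
      · exact (n1_le_nrm (comp γ (triIter D γ r)) i).trans hc
    calc ∑ i, n1 (C (D i)⁻¹ * (X i - bind₁ (triIter D γ r) (γ i)))
        ≤ ∑ i, ‖(D i)⁻¹‖ * y ^ (1 + triExp d r * d + 1) := by
          refine Finset.sum_le_sum fun i _ => ?_
          rw [n1_C_mul]
          exact mul_le_mul_of_nonneg_left (hi i) (norm_nonneg _)
      _ = (∑ i, ‖(D i)⁻¹‖) * y ^ (1 + triExp d r * d + 1) := by rw [Finset.sum_mul]
      _ ≤ y * y ^ (1 + triExp d r * d + 1) := mul_le_mul_of_nonneg_right h2 (by positivity)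
      _ = y ^ (triExp d r * d + 3) := by ring

/-- TRI-INV -/
theorem tri_inverse (n d : ℕ) : ∃ Dt c : ℕ, ∀ (w : Fin n → ℝ) (D : Fin n → ℂ) (γ : PMap n),
    (∀ i, D i ≠ 0) → TriSupp w γ → Fix0 γ → pdeg γ ≤ d →
    ∃ gi : PMap n, Fix0 gi ∧ comp (triMap D γ) gi = pid ∧ comp gi (triMap D γ) = pid ∧
      pdeg gi ≤ Dt ∧ nrm gi ≤ (2 + nrm γ + ∑ i, ‖(D i)⁻¹‖) ^ c := by
  refine ⟨triDeg d n, triExp d n, fun w D γ hD hγ hγ0 hdeg => ?_⟩
  have hS : 0 ≤ ∑ i, ‖(D i)⁻¹‖ := Finset.sum_nonneg fun _ _ => norm_nonneg _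
  have hN := nrm_nonneg γ
  have hright : comp (triMap D γ) (triIter D γ n) = pid := by
    funext i
    rw [tri_comp_apply]
    have h1 : triIter D γ n i = C (D i)⁻¹ * (X i - bind₁ (triIter D γ n) (γ i)) :=
      (tri_iter_stable D hγ n i (tri_rank_lt_n w i)).symm
    have h2 : (C (D i) : MP n) * C (D i)⁻¹ = 1 := by
      rw [← C_mul, mul_inv_cancel₀ (hD i), C_1]
    conv_lhs => rw [h1]
    rw [← mul_assoc, h2, one_mul]
    show X i - _ + _ = X i
    ring
  refine ⟨triIter D γ n, tri_iter_fix0 D hγ0 n, hright, ?_, tri_iter_pdeg D hdeg n,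
    tri_iter_nrm hdeg (by linarith) (by linarith) (by linarith) n⟩
  apply tri_cancel hD hγ
  rw [← comp_assoc, hright, pid_comp, comp_pid]

theorem tri_pderiv_eq_zero {w : Fin n → ℝ} {γ : PMap n} (hγ : TriSupp w γ) {i j : Fin n}
    (h : ¬ w j < w i) : pderiv j (γ i) = 0 := by
  apply pderiv_eq_zero_of_notMem_vars
  rw [mem_vars_iff_mem_support]
  rintro ⟨m, hm, hj⟩
  exact h (hγ i m (mem_support_iff.mp hm) j (Finsupp.mem_support_iff.mp hj))

/-- TRI-DET -/
theorem tri_jdet (w : Fin n → ℝ) (D : Fin n → ℂ) (γ : PMap n) (hγ : TriSupp w γ) :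
    jdet (triMap D γ) = C (∏ i, D i) := by
  classical
  have hent : ∀ i j, jmat (triMap D γ) i j = (if i = j then C (D i) else 0) + pderiv j (γ i) := by
    intro i j
    show pderiv j (C (D i) * X i + γ i) = _
    rw [map_add, pderiv_C_mul, pderiv_X]
    congr 1
    by_cases hij : i = j
    · subst hij; simp
    · simp [hij]
  obtain ⟨σ, hσ⟩ : ∃ σ : Equiv.Perm (Fin n), σ = Tuple.sort w := ⟨_, rfl⟩
  have hmono : Monotone (w ∘ σ) := hσ ▸ Tuple.monotone_sort w
  unfold jdet
  rw [← Matrix.det_submatrix_equiv_self σ (jmat (triMap D γ)), Matrix.det_of_isLowerTriangular]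
  · rw [map_prod, ← Equiv.prod_comp σ (fun i => (C (D i) : MP n))]
    refine Finset.prod_congr rfl fun i _ => ?_
    rw [Matrix.submatrix_apply, hent, if_pos rfl, tri_pderiv_eq_zero hγ (lt_irrefl _), add_zero]
  · intro i j hij
    have hij' : i < j := hij
    rw [Matrix.submatrix_apply, hent, if_neg (fun h => hij'.ne (σ.injective h)),
      tri_pderiv_eq_zero hγ (not_lt.2 (hmono hij'.le)), add_zero]

/-- allowed monomials (weights `w`): `∑ β_l w_l ≤ w_i`. -/
def Allowed (w : Fin n → ℝ) (i : Fin n) (β : Fin n →₀ ℕ) : Prop := ∑ l, (β l : ℝ) * w l ≤ w i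

/-- TRI-ALLOWED: allowed nonlinear monomials are triangular (weights positive). -/
theorem triSupp_of_allowed (w : Fin n → ℝ) (hw : ∀ i, 0 < w i) (γ : PMap n)
    (h : ∀ i m, coeff m (γ i) ≠ 0 → 2 ≤ m.degree ∧ Allowed w i m) : TriSupp w γ := by
  intro i m hm l hl
  obtain ⟨hdeg, hall⟩ := h i m hm
  unfold Allowed at hall
  refine lt_of_lt_of_le ?_ hall
  have e : m - Finsupp.single l 1 + Finsupp.single l 1 = m := Finsupp.sub_add_single_one_cancel hl
  obtain ⟨m', hm'⟩ : ∃ m', m' = m - Finsupp.single l 1 := ⟨_, rfl⟩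
  rw [← hm'] at e
  have hd := congrArg Finsupp.degree e
  rw [map_add, Finsupp.degree_single] at hd
  have hne : m' ≠ 0 := by
    rintro rfl
    simp at hd
    omega
  obtain ⟨l', hl'⟩ := DFunLike.ne_iff.1 hne
  have hsum : ∑ x, (m x : ℝ) * w x = ∑ x, (m' x : ℝ) * w x + w l := by
    rw [← e]
    simp only [Finsupp.add_apply, Nat.cast_add, add_mul, Finset.sum_add_distrib]
    congr 1
    rw [Finset.sum_eq_single l]
    · simp
    · intro x _ hx
      rw [Finsupp.single_eq_of_ne hx]; simp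
    · intro hx; exact absurd (Finset.mem_univ l) hx
  rw [hsum]
  have hpos : 0 < ∑ x, (m' x : ℝ) * w x := by
    refine Finset.sum_pos' (fun x _ => mul_nonneg (Nat.cast_nonneg _) (hw x).le) ⟨l', Finset.mem_univ _, ?_⟩
    have : 0 < m' l' := Nat.pos_of_ne_zero hl'
    have h2 : (0 : ℝ) < m' l' := by exact_mod_cast this
    exact mul_pos h2 (hw l')
  linarith

end Claimed.Agent.R316.S9
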