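import Claimed.Agent.R316.S9.Diff
import Claimed.Agent.R316.S9.InvJet
import Claimed.Agent.R316.S9.Tri
import Claimed.Agent.R316.Pack028

/-!
# Row 316, Section 9, package HOM: homological equations (9.21)-(9.26)

REORGANISATION with respect to the paper (no double induction on degree and step):

* `hom1` (one step factorization).  Given `X = D z + ξ`, find `g = D z + γ` (`γ` allowed terms) and
  `h = z + η` (`η` forbidden terms) with `g ∘ h ≡ X` mod degree `d+1`, i.e.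
  `D η + γ + Δ(γ,η) ≡ ξ`, `Δ(γ,η) = γ(z+η) - γ(z)`.  Iterate
  `(γ,η) ↦ (𝒜 J_d(ξ - Δ(γ,η)), D⁻¹ ℱ J_d(ξ - Δ(γ,η)))` from `(0,0)`; the `r`-th and `(r+1)`-st iterate agree
  through degree `r+1` (`bind₁_sub_ordGe'`), so the `d`-th iterate is a fixed point.  The bounds
  `nrm η ≤ 2 A₀`, `nrm γ ≤ 2 B₀` hold for all iterates (`n1_bind₁_sub_le`).
* `hom_step`: the same for `X = J⁻¹ ∘ (z + η') ∘ J ∘ F̂`, measured in the scaled norms
  `nrm (scl t ·)` (apply `hom1` to the scaled problem and scale back).  The forbidden part of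
  `D⁻¹ ξ̃` has three pieces: `D⁻¹ φ̃` (`≤ x² t`), `D⁻¹ J⁻¹ [η̃'(J F̃) - η̃'(J D z)]` (`≤ x² y^a e' t`) and
  `ℱ D⁻¹ J⁻¹ η̃'(J D z)` (`≤ κ y^a e'`, by `coeff_bind₁_diag` and the gap hypothesis).
* `hom_main`: finite horizon backward recursion with `t_k = x_k^(-5)`, invariant
  `nrm (scl t_k η_k) ≤ x_k^(-2)`; limit along an ultrafilter.
-/

set_option autoImplicit false
open MvPolynomial

namespace Claimed.Agent.R316.S9

variable {n : ℕ}

open Classical in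
/-- projection of a map to a set of (component, exponent) pairs. -/
noncomputable def pproj (S : Fin n → (Fin n →₀ ℕ) → Prop) (P : PMap n) : PMap n :=
  fun i => ∑ m ∈ (P i).support.filter (S i), monomial m (coeff m (P i))

/-- support of the nonlinear part of a model: allowed terms of degree `2..d`. -/
def SuppIn (d : ℕ) (S : Fin n → (Fin n →₀ ℕ) → Prop) (γ : PMap n) : Prop :=
  ∀ i m, coeff m (γ i) ≠ 0 → 2 ≤ m.degree ∧ m.degree ≤ d ∧ S i m


theorem hmx_coeff_pproj_pos {S : Fin n → (Fin n →₀ ℕ) → Prop} (P : PMap n) {i : Fin n}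
    {m : Fin n →₀ ℕ} (h : S i m) : coeff m (pproj S P i) = coeff m (P i) := by
  classical
  simp only [pproj, coeff_sum, coeff_monomial]
  rw [Finset.sum_ite_eq']
  split_ifs with hm
  · rfl
  · rw [Finset.mem_filter, not_and] at hm
    by_contra hne
    exact hm (mem_support_iff.mpr (Ne.symm hne)) h

theorem hmx_coeff_pproj_neg {S : Fin n → (Fin n →₀ ℕ) → Prop} (P : PMap n) {i : Fin n}
    {m : Fin n →₀ ℕ} (h : ¬ S i m) : coeff m (pproj S P i) = 0 := by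
  classical
  simp only [pproj, coeff_sum, coeff_monomial]
  rw [Finset.sum_ite_eq']
  split_ifs with hm
  · exact absurd (Finset.mem_filter.mp hm).2 h
  · rfl

theorem hmx_pproj_add_not (S : Fin n → (Fin n →₀ ℕ) → Prop) (P : PMap n) (i : Fin n) :
    pproj S P i + pproj (fun i m => ¬ S i m) P i = P i := by
  ext m
  rw [coeff_add]
  by_cases h : S i m
  · rw [hmx_coeff_pproj_pos P h, hmx_coeff_pproj_neg (S := fun i m => ¬ S i m) P (not_not.mpr h),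
      add_zero]
  · rw [hmx_coeff_pproj_neg P h, hmx_coeff_pproj_pos (S := fun i m => ¬ S i m) P h, zero_add]

theorem hmx_pproj_sub (S : Fin n → (Fin n →₀ ℕ) → Prop) (P Q : PMap n) (i : Fin n) :
    pproj S (P - Q) i = pproj S P i - pproj S Q i := by
  ext m
  rw [coeff_sub]
  by_cases h : S i m
  · rw [hmx_coeff_pproj_pos _ h, hmx_coeff_pproj_pos _ h, hmx_coeff_pproj_pos _ h, Pi.sub_apply,
      coeff_sub]
  · rw [hmx_coeff_pproj_neg _ h, hmx_coeff_pproj_neg _ h, hmx_coeff_pproj_neg _ h, sub_zero]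

theorem hmx_pproj_add (S : Fin n → (Fin n →₀ ℕ) → Prop) (P Q : PMap n) (i : Fin n) :
    pproj S (P + Q) i = pproj S P i + pproj S Q i := by
  ext m
  rw [coeff_add]
  by_cases h : S i m
  · rw [hmx_coeff_pproj_pos _ h, hmx_coeff_pproj_pos _ h, hmx_coeff_pproj_pos _ h, Pi.add_apply,
      coeff_add]
  · rw [hmx_coeff_pproj_neg _ h, hmx_coeff_pproj_neg _ h, hmx_coeff_pproj_neg _ h, add_zero]

/-- comparison of `ℓ¹` norms coefficient by coefficient. -/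
theorem hmx_n1_le_of_coeff {f g : MP n} {c : ℝ}
    (h : ∀ m, ‖coeff m f‖ ≤ c * ‖coeff m g‖) : n1 f ≤ c * n1 g := by
  have hS : f.support ⊆ g.support := by
    intro m hm
    rw [mem_support_iff] at hm ⊢
    intro h0
    have := h m
    rw [h0, norm_zero, mul_zero] at this
    exact hm (norm_le_zero_iff.mp this)
  rw [n1_eq_sum_of_subset hS, n1, Finset.mul_sum]
  exact Finset.sum_le_sum fun m _ => h m

theorem hmx_n1_pproj_le (S : Fin n → (Fin n →₀ ℕ) → Prop) (P : PMap n) (i : Fin n) :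
    n1 (pproj S P i) ≤ n1 (P i) := by
  have := hmx_n1_le_of_coeff (f := pproj S P i) (g := P i) (c := 1) fun m => by
    rw [one_mul]
    by_cases h : S i m
    · rw [hmx_coeff_pproj_pos _ h]
    · rw [hmx_coeff_pproj_neg _ h, norm_zero]; exact norm_nonneg _
  simpa using this

theorem hmx_ordGe_pproj {k : ℕ} (S : Fin n → (Fin n →₀ ℕ) → Prop) {P : PMap n} {i : Fin n}
    (h : OrdGe k (P i)) : OrdGe k (pproj S P i) := fun m hm => by
  by_cases hs : S i m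
  · rw [hmx_coeff_pproj_pos _ hs]; exact h m hm
  · exact hmx_coeff_pproj_neg _ hs

/-! ### consequences of `SuppIn` -/

theorem hmx_supp_ordGe {d : ℕ} {S : Fin n → (Fin n →₀ ℕ) → Prop} {γ : PMap n} (h : SuppIn d S γ)
    (i : Fin n) : OrdGe 2 (γ i) := fun m hm => by
  by_contra hne
  have := (h i m hne).1
  omega

theorem hmx_supp_deg {d : ℕ} {S : Fin n → (Fin n →₀ ℕ) → Prop} {γ : PMap n} (h : SuppIn d S γ)
    (i : Fin n) : (γ i).totalDegree ≤ d := by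
  rw [totalDegree, Finset.sup_le_iff]
  intro m hm
  exact (h i m (mem_support_iff.mp hm)).2.1

theorem hmx_supp_fix0 {d : ℕ} {S : Fin n → (Fin n →₀ ℕ) → Prop} {γ : PMap n} (h : SuppIn d S γ) :
    Fix0 γ := fun i => hmx_supp_ordGe h i 0 (by simp)

theorem hmx_supp_zero (d : ℕ) (S : Fin n → (Fin n →₀ ℕ) → Prop) : SuppIn d S (0 : PMap n) :=
  fun i m hm => absurd (by simp) hm

theorem hmx_fix0_pid_add {η : PMap n} (h : Fix0 η) : Fix0 (pid + η) := fun i => by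
  rw [Pi.add_apply, coeff_add, fix0_pid i, h i, add_zero]

theorem hmx_bind₁_pid (f : MP n) : bind₁ (pid : PMap n) f = f := by
  have : (pid : PMap n) = X := rfl
  rw [this, bind₁_X_left]; rfl

/-! ### the iteration of `hom1` -/

/-- the correction term `γ(z+η) - γ(z)`. -/
noncomputable def hmxΔ (p : PMap n × PMap n) : PMap n :=
  fun i => bind₁ (pid + p.2) (p.1 i) - p.1 i

/-- the residual. -/
noncomputable def hmxR (d : ℕ) (ξ : PMap n) (p : PMap n × PMap n) : PMap n :=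
  fun i => ptr d (ξ i - hmxΔ p i)

/-- one step of the iteration. -/
noncomputable def hmxT (d : ℕ) (D : Fin n → ℂ) (Al : Fin n → (Fin n →₀ ℕ) → Prop) (ξ : PMap n)
    (p : PMap n × PMap n) : PMap n × PMap n :=
  (pproj Al (hmxR d ξ p), fun i => C (D i)⁻¹ * pproj (fun i m => ¬ Al i m) (hmxR d ξ p) i)

theorem hmx_eqns_cite : True := by
  have := @hmxΔ.eq_1
  have := @hmxR.eq_1
  have := @hmxT.eq_1
  have := @pproj.eq_1
  have := @SuppIn.eq_1
  trivial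

theorem hmx_Δ_ordGe {d : ℕ} {S S' : Fin n → (Fin n →₀ ℕ) → Prop} {p : PMap n × PMap n}
    (h1 : SuppIn d S p.1) (h2 : SuppIn d S' p.2) (i : Fin n) : OrdGe 2 (hmxΔ p i) :=
  ((hmx_supp_ordGe h1 i).bind₁ (hmx_fix0_pid_add (hmx_supp_fix0 h2))).sub (hmx_supp_ordGe h1 i)

theorem hmx_R_ordGe {d : ℕ} {S S' : Fin n → (Fin n →₀ ℕ) → Prop} {ξ : PMap n}
    (hξ : ∀ i, OrdGe 2 (ξ i)) {p : PMap n × PMap n}
    (h1 : SuppIn d S p.1) (h2 : SuppIn d S' p.2) (i : Fin n) : OrdGe 2 (hmxR d ξ p i) :=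
  ivj_ordGe_ptr ((hξ i).sub (hmx_Δ_ordGe h1 h2 i)) d

theorem hmx_supp_pproj {d : ℕ} (S : Fin n → (Fin n →₀ ℕ) → Prop) {R : PMap n}
    (h2 : ∀ i, OrdGe 2 (R i)) (hd : ∀ i, (R i).totalDegree ≤ d) : SuppIn d S (pproj S R) := by
  intro i m hm
  have hS : S i m := by
    by_contra hs
    exact hm (hmx_coeff_pproj_neg _ hs)
  rw [hmx_coeff_pproj_pos _ hS] at hm
  refine ⟨?_, (le_totalDegree (mem_support_iff.mpr hm)).trans (hd i), hS⟩
  by_contra hlt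
  exact hm (h2 i m (by omega))

theorem hmx_supp_C_mul {d : ℕ} {S : Fin n → (Fin n →₀ ℕ) → Prop} {γ : PMap n} (h : SuppIn d S γ)
    (c : Fin n → ℂ) : SuppIn d S (fun i => C (c i) * γ i) := by
  intro i m hm
  rw [coeff_C_mul] at hm
  exact h i m (right_ne_zero_of_mul hm)

theorem hmx_T_supp {d : ℕ} (D : Fin n → ℂ) (Al : Fin n → (Fin n →₀ ℕ) → Prop) {ξ : PMap n}
    (hξ : ∀ i, OrdGe 2 (ξ i)) {p : PMap n × PMap n}
    (h1 : SuppIn d Al p.1) (h2 : SuppIn d (fun i m => ¬ Al i m) p.2) :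
    SuppIn d Al (hmxT d D Al ξ p).1 ∧ SuppIn d (fun i m => ¬ Al i m) (hmxT d D Al ξ p).2 :=
  ⟨hmx_supp_pproj _ (hmx_R_ordGe hξ h1 h2) fun _ => totalDegree_ptr_le d _,
    hmx_supp_C_mul (hmx_supp_pproj _ (hmx_R_ordGe hξ h1 h2) fun _ => totalDegree_ptr_le d _) _⟩

theorem hmx_Δ_sub {d r : ℕ} {S S' : Fin n → (Fin n →₀ ℕ) → Prop} {p p' : PMap n × PMap n}
    (h2 : SuppIn d S' p.2) (h1' : SuppIn d S p'.1) (h2' : SuppIn d S' p'.2)
    (e1 : ∀ i, OrdGe (r + 2) (p.1 i - p'.1 i)) (e2 : ∀ i, OrdGe (r + 2) (p.2 i - p'.2 i))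
    (i : Fin n) : OrdGe (r + 3) (hmxΔ p i - hmxΔ p' i) := by
  have e : hmxΔ p i - hmxΔ p' i
      = (bind₁ (pid + p.2) (p.1 i - p'.1 i) - bind₁ (pid : PMap n) (p.1 i - p'.1 i))
        + (bind₁ (pid + p.2) (p'.1 i) - bind₁ (pid + p'.2) (p'.1 i)) := by
    rw [hmx_bind₁_pid, map_sub]
    simp only [hmxΔ]
    ring
  rw [e]
  have a1 : OrdGe ((r + 1) + 2) (bind₁ (pid + p.2) (p.1 i - p'.1 i)
      - bind₁ (pid : PMap n) (p.1 i - p'.1 i)) :=
    bind₁_sub_ordGe' (hmx_fix0_pid_add (hmx_supp_fix0 h2)) fix0_pid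
      (fun j => by
        have : (pid + p.2 : PMap n) j - (pid : PMap n) j = p.2 j := by simp
        rw [this]; exact hmx_supp_ordGe h2 j) (e1 i)
  have a2 : OrdGe (1 + (r + 2)) (bind₁ (pid + p.2) (p'.1 i) - bind₁ (pid + p'.2) (p'.1 i)) :=
    bind₁_sub_ordGe' (hmx_fix0_pid_add (hmx_supp_fix0 h2)) (hmx_fix0_pid_add (hmx_supp_fix0 h2'))
      (fun j => by
        have : (pid + p.2 : PMap n) j - (pid + p'.2 : PMap n) j = p.2 j - p'.2 j := by simp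
        rw [this]; exact e2 j) (hmx_supp_ordGe h1' i)
  exact (a1.mono (by omega)).add (a2.mono (by omega))

theorem hmx_T_sub {d r : ℕ} (D : Fin n → ℂ) (Al : Fin n → (Fin n →₀ ℕ) → Prop) (ξ : PMap n)
    {S S' : Fin n → (Fin n →₀ ℕ) → Prop} {p p' : PMap n × PMap n}
    (h2 : SuppIn d S' p.2) (h1' : SuppIn d S p'.1) (h2' : SuppIn d S' p'.2)
    (e1 : ∀ i, OrdGe (r + 2) (p.1 i - p'.1 i)) (e2 : ∀ i, OrdGe (r + 2) (p.2 i - p'.2 i)) :
    (∀ i, OrdGe (r + 3) ((hmxT d D Al ξ p).1 i - (hmxT d D Al ξ p').1 i)) ∧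
    (∀ i, OrdGe (r + 3) ((hmxT d D Al ξ p).2 i - (hmxT d D Al ξ p').2 i)) := by
  have hR : ∀ i, OrdGe (r + 3) ((hmxR d ξ p - hmxR d ξ p') i) := by
    intro i
    have : (hmxR d ξ p - hmxR d ξ p') i = ptr d (-(hmxΔ p i - hmxΔ p' i)) := by
      simp only [Pi.sub_apply, hmxR, ← ptr_sub]
      congr 1; ring
    rw [this]
    exact ivj_ordGe_ptr (hmx_Δ_sub h2 h1' h2' e1 e2 i).neg d
  constructor
  · intro i
    simp only [hmxT]
    rw [← hmx_pproj_sub]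
    exact hmx_ordGe_pproj _ (hR i)
  · intro i
    simp only [hmxT]
    rw [← mul_sub, ← hmx_pproj_sub]
    exact (hmx_ordGe_pproj _ (hR i)).mul_left _

theorem hmx_supp_nrm_zero {d : ℕ} {S : Fin n → (Fin n →₀ ℕ) → Prop} {γ : PMap n}
    (h : SuppIn d S γ) (hd : d < 2) : nrm γ = 0 := by
  have h0 : ∀ i, γ i = 0 := by
    intro i
    ext m
    by_contra hne
    have := h i m hne
    omega
  simp [nrm, h0]

theorem hmx_Δ_bound {d : ℕ} {S : Fin n → (Fin n →₀ ℕ) → Prop} {p : PMap n × PMap n}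
    (h1 : SuppIn d S p.1) {A : ℝ} (hA : nrm p.2 ≤ A) (hA1 : A ≤ 1) :
    nrm (hmxΔ p) ≤ d * 2 ^ (d - 1) * A * nrm p.1 := by
  have hA0 : 0 ≤ A := (nrm_nonneg _).trans hA
  have key : ∀ i, n1 (hmxΔ p i) ≤ d * 2 ^ (d - 1) * A * n1 (p.1 i) := by
    intro i
    have h := n1_bind₁_sub_le (B := 2) (e := A) (by norm_num) (Q := pid + p.2) (Q' := pid)
      (fun j => by
        refine (n1_add_le _ _).trans ?_
        have h3 : n1 ((pid : PMap n) j) = 1 := by simp [pid]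
        have h4 := (n1_le_nrm p.2 j).trans hA
        rw [h3]; linarith)
      (fun j => by
        have h3 : n1 ((pid : PMap n) j) = 1 := by simp [pid]
        rw [h3]; norm_num)
      (fun j => by
        have : (pid + p.2 : PMap n) j - (pid : PMap n) j = p.2 j := by simp
        rw [this]; exact (n1_le_nrm p.2 j).trans hA) (p.1 i)
    rw [hmx_bind₁_pid] at h
    refine h.trans ?_
    have hdeg := hmx_supp_deg h1 i
    have hdeg' : ((p.1 i).totalDegree : ℝ) ≤ d := by exact_mod_cast hdeg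
    have hpow : (2 : ℝ) ^ ((p.1 i).totalDegree - 1) ≤ 2 ^ (d - 1) :=
      pow_le_pow_right₀ (by norm_num) (by omega)
    have hn := n1_nonneg (p.1 i)
    calc ((p.1 i).totalDegree : ℝ) * n1 (p.1 i) * 2 ^ ((p.1 i).totalDegree - 1) * A
        ≤ (d : ℝ) * n1 (p.1 i) * 2 ^ (d - 1) * A := by gcongr
      _ = d * 2 ^ (d - 1) * A * n1 (p.1 i) := by ring
  calc nrm (hmxΔ p) = ∑ i, n1 (hmxΔ p i) := rfl
    _ ≤ ∑ i, d * 2 ^ (d - 1) * A * n1 (p.1 i) := Finset.sum_le_sum fun i _ => key i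
    _ = d * 2 ^ (d - 1) * A * nrm p.1 := by rw [nrm, Finset.mul_sum]

theorem hmx_T_bound {d : ℕ} (hd : 1 ≤ d) (D : Fin n → ℂ) (Al : Fin n → (Fin n →₀ ℕ) → Prop)
    {ξ : PMap n} (hdeg : pdeg ξ ≤ d) {p : PMap n × PMap n} (h1 : SuppIn d Al p.1)
    {x A₀ B₀ : ℝ} (hx : ∀ i, ‖(D i)⁻¹‖ ≤ x) (hB : nrm ξ ≤ B₀)
    (hA : ∑ i, ‖(D i)⁻¹‖ * n1 (pproj (fun i m => ¬ Al i m) ξ i) ≤ A₀)
    (hs1 : d * 2 ^ (d + 1) * A₀ ≤ 1) (hs2 : x * (d * 2 ^ (d + 1)) * B₀ ≤ 1)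
    (b2 : nrm p.2 ≤ 2 * A₀) (b1 : nrm p.1 ≤ 2 * B₀) :
    nrm (hmxT d D Al ξ p).2 ≤ 2 * A₀ ∧ nrm (hmxT d D Al ξ p).1 ≤ 2 * B₀ := by
  have hA0 : 0 ≤ A₀ :=
    (Finset.sum_nonneg fun i _ => mul_nonneg (norm_nonneg _) (n1_nonneg _)).trans hA
  have hB0 : 0 ≤ B₀ := (nrm_nonneg _).trans hB
  obtain ⟨e, rfl⟩ : ∃ e, d = e + 1 := ⟨d - 1, by omega⟩
  set c : ℝ := ((e + 1 : ℕ) : ℝ) * 2 ^ (e + 1 + 1) with hc
  have hc4 : 4 ≤ c := by
    have h1 : (1 : ℝ) ≤ ((e + 1 : ℕ) : ℝ) := by exact_mod_cast Nat.succ_le_succ (Nat.zero_le e)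
    have h2 : (4 : ℝ) ≤ 2 ^ (e + 1 + 1) := by
      have : (2 : ℝ) ^ 2 ≤ 2 ^ (e + 1 + 1) := pow_le_pow_right₀ (by norm_num) (by omega)
      linarith
    calc (4 : ℝ) = 1 * 4 := by ring
      _ ≤ c := mul_le_mul h1 h2 (by norm_num) (by positivity)
  have hA1 : 2 * A₀ ≤ 1 := by nlinarith
  have hΔ : nrm (hmxΔ p) ≤ c * A₀ * B₀ := by
    refine (hmx_Δ_bound h1 b2 hA1).trans ?_
    have : ((e + 1 : ℕ) : ℝ) * 2 ^ (e + 1 - 1) * (2 * A₀) * (2 * B₀) = c * A₀ * B₀ := by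
      rw [hc, Nat.add_sub_cancel]; ring
    rw [← this]
    exact mul_le_mul_of_nonneg_left b1 (by positivity)
  have hR : hmxR (e + 1) ξ p = ξ - ptrunc (e + 1) (hmxΔ p) := by
    funext i
    simp only [hmxR, Pi.sub_apply, ptrunc, ptr_sub]
    rw [ptr_eq_self ((totalDegree_le_pdeg ξ i).trans hdeg)]
  constructor
  · have h3 : ∀ i, n1 ((hmxT (e + 1) D Al ξ p).2 i)
        ≤ ‖(D i)⁻¹‖ * n1 (pproj (fun i m => ¬ Al i m) ξ i) + x * n1 (hmxΔ p i) := by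
      intro i
      simp only [hmxT]
      rw [n1_C_mul, hR, hmx_pproj_sub]
      have h4 : n1 (pproj (fun i m => ¬ Al i m) (ptrunc (e + 1) (hmxΔ p)) i) ≤ n1 (hmxΔ p i) :=
        (hmx_n1_pproj_le _ _ i).trans (n1_ptr_le _ _)
      calc ‖(D i)⁻¹‖ * n1 (pproj (fun i m => ¬ Al i m) ξ i
            - pproj (fun i m => ¬ Al i m) (ptrunc (e + 1) (hmxΔ p)) i)
          ≤ ‖(D i)⁻¹‖ * (n1 (pproj (fun i m => ¬ Al i m) ξ i) + n1 (hmxΔ p i)) :=
            mul_le_mul_of_nonneg_left ((n1_sub_le _ _).trans (by linarith)) (norm_nonneg _)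
        _ = ‖(D i)⁻¹‖ * n1 (pproj (fun i m => ¬ Al i m) ξ i) + ‖(D i)⁻¹‖ * n1 (hmxΔ p i) := by ring
        _ ≤ _ := by
            have := mul_le_mul_of_nonneg_right (hx i) (n1_nonneg (hmxΔ p i))
            linarith
    calc nrm (hmxT (e + 1) D Al ξ p).2
        ≤ ∑ i, (‖(D i)⁻¹‖ * n1 (pproj (fun i m => ¬ Al i m) ξ i) + x * n1 (hmxΔ p i)) :=
          Finset.sum_le_sum fun i _ => h3 i
      _ = ∑ i, ‖(D i)⁻¹‖ * n1 (pproj (fun i m => ¬ Al i m) ξ i) + x * nrm (hmxΔ p) := by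
          rw [Finset.sum_add_distrib, nrm, Finset.mul_sum]
      _ ≤ A₀ + x * nrm (hmxΔ p) := by linarith
      _ ≤ 2 * A₀ := by
          rcases isEmpty_or_nonempty (Fin n) with hn | ⟨⟨i⟩⟩
          · have : nrm (hmxΔ p) = 0 := by simp [nrm]
            rw [this]; linarith
          · have hx0 : 0 ≤ x := (norm_nonneg _).trans (hx i)
            have h5 : x * nrm (hmxΔ p) ≤ x * (c * A₀ * B₀) := mul_le_mul_of_nonneg_left hΔ hx0
            have h6 : x * (c * A₀ * B₀) = (x * c * B₀) * A₀ := by ring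
            have h7 : (x * c * B₀) * A₀ ≤ 1 * A₀ := mul_le_mul_of_nonneg_right hs2 hA0
            linarith
  · have h3 : ∀ i, n1 ((hmxT (e + 1) D Al ξ p).1 i) ≤ n1 (ξ i) + n1 (hmxΔ p i) := by
      intro i
      simp only [hmxT]
      refine (hmx_n1_pproj_le _ _ i).trans ?_
      simp only [hmxR]
      exact (n1_ptr_le _ _).trans (n1_sub_le _ _)
    calc nrm (hmxT (e + 1) D Al ξ p).1 ≤ ∑ i, (n1 (ξ i) + n1 (hmxΔ p i)) :=
          Finset.sum_le_sum fun i _ => h3 i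
      _ = nrm ξ + nrm (hmxΔ p) := by rw [Finset.sum_add_distrib]; rfl
      _ ≤ B₀ + c * A₀ * B₀ := by linarith
      _ ≤ 2 * B₀ := by
          have : c * A₀ * B₀ ≤ 1 * B₀ := mul_le_mul_of_nonneg_right hs1 hB0
          linarith

/-- HOM1: one step factorization with estimates. -/
theorem hom1 (d : ℕ) (D : Fin n → ℂ) (hD : ∀ i, D i ≠ 0) (Al : Fin n → (Fin n →₀ ℕ) → Prop)
    (ξ : PMap n) (hξ : ∀ i, OrdGe 2 (ξ i)) (hdeg : pdeg ξ ≤ d) :
    ∃ γ η : PMap n, SuppIn d Al γ ∧ SuppIn d (fun i m => ¬ Al i m) η ∧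
      JEq d (comp (triMap D γ) (pid + η)) (triMap D ξ) ∧
      ∀ x A₀ B₀ : ℝ, (∀ i, ‖(D i)⁻¹‖ ≤ x) → nrm ξ ≤ B₀ →
        ∑ i, ‖(D i)⁻¹‖ * n1 (pproj (fun i m => ¬ Al i m) ξ i) ≤ A₀ →
        d * 2 ^ (d + 1) * A₀ ≤ 1 → x * (d * 2 ^ (d + 1)) * B₀ ≤ 1 →
        nrm η ≤ 2 * A₀ ∧ nrm γ ≤ 2 * B₀ := by
  set T := hmxT d D Al ξ with hT
  set it : ℕ → PMap n × PMap n := fun r => T^[r] (0, 0) with hitdef
  have hit : ∀ r, it (r + 1) = T (it r) := fun r => Function.iterate_succ_apply' T r _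
  have hit0 : it 0 = (0, 0) := rfl
  have hsupp : ∀ r, SuppIn d Al (it r).1 ∧ SuppIn d (fun i m => ¬ Al i m) (it r).2 := by
    intro r
    induction r with
    | zero => rw [hit0]; exact ⟨hmx_supp_zero _ _, hmx_supp_zero _ _⟩
    | succ r ih => rw [hit]; exact hmx_T_supp D Al hξ ih.1 ih.2
  have hdiff : ∀ r, (∀ i, OrdGe (r + 2) ((it (r + 1)).1 i - (it r).1 i)) ∧
      (∀ i, OrdGe (r + 2) ((it (r + 1)).2 i - (it r).2 i)) := by
    intro r
    induction r with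
    | zero =>
      rw [hit0]
      constructor
      · intro i
        simpa using hmx_supp_ordGe (hsupp 1).1 i
      · intro i
        simpa using hmx_supp_ordGe (hsupp 1).2 i
    | succ r ih =>
      have h1 := hsupp (r + 1)
      rw [hit (r + 1), hit r]
      rw [hit r] at ih h1
      exact hmx_T_sub D Al ξ h1.2 (hsupp r).1 (hsupp r).2 ih.1 ih.2
  refine ⟨(it (d + 1)).1, (it (d + 1)).2, (hsupp _).1, (hsupp _).2, ?_, ?_⟩
  · rw [jeq_iff]
    intro i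
    have key : C (D i) * (it (d + 1)).2 i + (it (d + 1)).1 i = hmxR d ξ (it d) i := by
      rw [hit d, hT]
      simp only [hmxT]
      rw [← mul_assoc, ← map_mul, mul_inv_cancel₀ (hD i), map_one, one_mul, add_comm]
      exact hmx_pproj_add_not Al _ i
    have e : comp (triMap D (it (d + 1)).1) (pid + (it (d + 1)).2) i - triMap D ξ i
        = (ptr d (ξ i - hmxΔ (it d) i) - (ξ i - hmxΔ (it d) i))
          + (hmxΔ (it (d + 1)) i - hmxΔ (it d) i) := by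
      have e1 : comp (triMap D (it (d + 1)).1) (pid + (it (d + 1)).2) i
          = C (D i) * (X i + (it (d + 1)).2 i) + bind₁ (pid + (it (d + 1)).2) ((it (d + 1)).1 i) := by
        simp [comp, triMap, pid]
      have e2 : ptr d (ξ i - hmxΔ (it d) i) = C (D i) * (it (d + 1)).2 i + (it (d + 1)).1 i :=
        key.symm
      rw [e1, e2]
      simp only [triMap, hmxΔ]
      ring
    rw [e]
    have a1 : OrdGe (d + 1) (ptr d (ξ i - hmxΔ (it d) i) - (ξ i - hmxΔ (it d) i)) := by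
      have := (ivj_sub_ptr_ordGe d (ξ i - hmxΔ (it d) i)).neg
      rwa [neg_sub] at this
    have a2 := hmx_Δ_sub (hsupp (d + 1)).2 (hsupp d).1 (hsupp d).2 (hdiff d).1 (hdiff d).2 i
    exact a1.add (a2.mono (by omega))
  · intro x A₀ B₀ hx hB hA hs1 hs2
    have hA0 : 0 ≤ A₀ :=
      (Finset.sum_nonneg fun i _ => mul_nonneg (norm_nonneg _) (n1_nonneg _)).trans hA
    have hB0 : 0 ≤ B₀ := (nrm_nonneg _).trans hB
    rcases Nat.eq_zero_or_pos d with h0 | hpos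
    · rw [hmx_supp_nrm_zero (hsupp (d + 1)).1 (by omega), hmx_supp_nrm_zero (hsupp (d + 1)).2 (by omega)]
      constructor <;> linarith
    · have hb : ∀ r, nrm (it r).2 ≤ 2 * A₀ ∧ nrm (it r).1 ≤ 2 * B₀ := by
        intro r
        induction r with
        | zero =>
          rw [hit0]
          have : nrm (0 : PMap n) = 0 := by simp [nrm]
          simp only [this]
          constructor <;> linarith
        | succ r ih =>
          rw [hit]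
          exact hmx_T_bound hpos D Al hdeg (hsupp r).1 hx hB hA hs1 hs2 ih.1 ih.2
      exact hb _

/-! ### algebra of `comp`, `ofMat`, `scl` -/

theorem hmx_comp_add (P P' Q : PMap n) : comp (P + P') Q = comp P Q + comp P' Q := by
  funext i
  simp [comp]

theorem hmx_comp_sub (P P' Q : PMap n) : comp (P - P') Q = comp P Q - comp P' Q := by
  funext i
  simp [comp]

theorem hmx_ofMat_comp_add (A : Mat n) (P Q : PMap n) :
    comp (ofMat A) (P + Q) = comp (ofMat A) P + comp (ofMat A) Q := by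
  funext i
  rw [Pi.add_apply, comp_ofMat_apply, comp_ofMat_apply, comp_ofMat_apply, ← Finset.sum_add_distrib]
  exact Finset.sum_congr rfl fun j _ => by rw [Pi.add_apply, mul_add]

theorem hmx_ofMat_comp_sub (A : Mat n) (P Q : PMap n) :
    comp (ofMat A) (P - Q) = comp (ofMat A) P - comp (ofMat A) Q := by
  funext i
  rw [Pi.sub_apply, comp_ofMat_apply, comp_ofMat_apply, comp_ofMat_apply, ← Finset.sum_sub_distrib]
  exact Finset.sum_congr rfl fun j _ => by rw [Pi.sub_apply, mul_sub]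

theorem hmx_n1_ofMat_comp_le (A : Mat n) (P : PMap n) {c : ℝ} (h : ∀ l, n1 (P l) ≤ c) (j : Fin n) :
    n1 (comp (ofMat A) P j) ≤ (∑ l, ‖A j l‖) * c := by
  rw [comp_ofMat_apply, Finset.sum_mul]
  refine (n1_sum_le _ _).trans (Finset.sum_le_sum fun l _ => ?_)
  rw [n1_C_mul]
  exact mul_le_mul_of_nonneg_left (h l) (norm_nonneg _)

theorem hmx_row_le_mnorm (A : Mat n) (j : Fin n) : ∑ l, ‖A j l‖ ≤ mnorm A :=
  Finset.single_le_sum (f := fun j => ∑ l, ‖A j l‖)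
    (fun _ _ => Finset.sum_nonneg fun _ _ => norm_nonneg _) (Finset.mem_univ j)

theorem hmx_nrm_ofMat_comp_le (A : Mat n) (P : PMap n) :
    nrm (comp (ofMat A) P) ≤ mnorm A * nrm P := by
  rw [nrm, mnorm, Finset.sum_mul]
  exact Finset.sum_le_sum fun i _ => hmx_n1_ofMat_comp_le A P (fun l => n1_le_nrm P l) i

theorem hmx_ofMat_diag (D : Fin n → ℂ) : ofMat (Matrix.diagonal D) = fun i => C (D i) * X i := by
  classical
  funext i
  simp only [ofMat, Matrix.diagonal_apply]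
  rw [Finset.sum_eq_single i]
  · simp
  · intro j _ hj; simp [Ne.symm hj]
  · simp

theorem hmx_triMap_eq (D : Fin n → ℂ) (γ : PMap n) : triMap D γ = ofMat (Matrix.diagonal D) + γ := by
  rw [hmx_ofMat_diag]; rfl

theorem hmx_scl_add (t : ℂ) (P Q : PMap n) : scl t (P + Q) = scl t P + scl t Q := by
  funext i
  ext m
  rw [Pi.add_apply, coeff_add, coeff_scl, coeff_scl, coeff_scl, Pi.add_apply, coeff_add, mul_add]

theorem hmx_scl_pid {t : ℂ} (ht : t ≠ 0) : scl t (pid : PMap n) = pid := by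
  rw [← ofMat_one, scl_ofMat ht]

theorem hmx_scl_triMap {t : ℂ} (ht : t ≠ 0) (D : Fin n → ℂ) (γ : PMap n) :
    scl t (triMap D γ) = triMap D (scl t γ) := by
  rw [hmx_triMap_eq, hmx_triMap_eq, hmx_scl_add, scl_ofMat ht]

theorem hmx_supp_scl {d : ℕ} {S : Fin n → (Fin n →₀ ℕ) → Prop} {γ : PMap n} (h : SuppIn d S γ)
    (t : ℂ) : SuppIn d S (scl t γ) := by
  intro i m hm
  rw [coeff_scl] at hm
  exact h i m (right_ne_zero_of_mul hm)

theorem hmx_jeq_scl {d : ℕ} {P Q : PMap n} (h : JEq d P Q) (t : ℂ) : JEq d (scl t P) (scl t Q) := by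
  unfold JEq at h ⊢
  rw [← scl_ptrunc, ← scl_ptrunc, h]

theorem hmx_ordGe_scl {k : ℕ} {P : PMap n} {i : Fin n} (h : OrdGe k (P i)) (t : ℂ) :
    OrdGe k (scl t P i) := fun m hm => by
  rw [coeff_scl, h m hm, mul_zero]

theorem hmx_totalDegree_scl_le (t : ℂ) (P : PMap n) (i : Fin n) :
    (scl t P i).totalDegree ≤ (P i).totalDegree := by
  rw [totalDegree, Finset.sup_le_iff]
  intro m hm
  rw [mem_support_iff, coeff_scl] at hm
  exact le_totalDegree (mem_support_iff.mpr (right_ne_zero_of_mul hm))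

theorem hmx_pdeg_scl_le (t : ℂ) (P : PMap n) : pdeg (scl t P) ≤ pdeg P :=
  pdeg_le_iff.mpr fun i => (hmx_totalDegree_scl_le t P i).trans (totalDegree_le_pdeg P i)

theorem hmx_scl_inv_scl {t : ℂ} (ht : t ≠ 0) (P : PMap n) : scl t⁻¹ (scl t P) = P := by
  rw [scl_scl, inv_mul_cancel₀ ht, scl_one]

theorem hmx_scl_scl_inv {t : ℂ} (ht : t ≠ 0) (P : PMap n) : scl t (scl t⁻¹ P) = P := by
  rw [scl_scl, mul_inv_cancel₀ ht, scl_one]

theorem hmx_norm_coeff_scl {t : ℝ} (ht : 0 < t) (P : PMap n) (i : Fin n) (m : Fin n →₀ ℕ) :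
    ‖coeff m (scl (t : ℂ) P i)‖ = t⁻¹ * t ^ m.degree * ‖coeff m (P i)‖ := by
  rw [coeff_scl, norm_mul, norm_mul, norm_inv, norm_pow, Complex.norm_real,
    Real.norm_of_nonneg ht.le]

/-- scaling down contracts nonlinear terms. -/
theorem hmx_n1_scl_le {t : ℝ} (ht : 0 < t) (ht1 : t ≤ 1) {P : PMap n} {i : Fin n}
    (h : OrdGe 2 (P i)) : n1 (scl (t : ℂ) P i) ≤ t * n1 (P i) := by
  apply hmx_n1_le_of_coeff
  intro m
  rw [hmx_norm_coeff_scl ht]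
  rcases Nat.lt_or_ge m.degree 2 with hm | hm
  · rw [h m hm]; simp
  · refine mul_le_mul_of_nonneg_right ?_ (norm_nonneg _)
    obtain ⟨k, hk⟩ : ∃ k, m.degree = k + 2 := ⟨m.degree - 2, by omega⟩
    rw [hk]
    have e : t⁻¹ * t ^ (k + 2) = t ^ k * t := by
      field_simp
      ring
    rw [e]
    have : t ^ k ≤ 1 := pow_le_one₀ ht.le ht1
    nlinarith

/-- scaling up. -/
theorem hmx_n1_scl_le_up {s : ℝ} (hs : 1 ≤ s) {d : ℕ} {P : PMap n} {i : Fin n}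
    (h0 : coeff 0 (P i) = 0) (hd : (P i).totalDegree ≤ d) :
    n1 (scl (s : ℂ) P i) ≤ s ^ (d - 1) * n1 (P i) := by
  have hs0 : 0 < s := by linarith
  apply hmx_n1_le_of_coeff
  intro m
  rw [hmx_norm_coeff_scl hs0]
  by_cases hc : coeff m (P i) = 0
  · rw [hc]; simp
  · refine mul_le_mul_of_nonneg_right ?_ (norm_nonneg _)
    have h1 : m.degree ≤ d := (le_totalDegree (mem_support_iff.mpr hc)).trans hd
    have h2 : 1 ≤ m.degree := by
      rcases Nat.eq_zero_or_pos m.degree with h | h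
      · rw [Finsupp.degree_eq_zero_iff] at h
        rw [h] at hc
        exact absurd h0 hc
      · exact h
    obtain ⟨k, hk⟩ : ∃ k, m.degree = k + 1 := ⟨m.degree - 1, by omega⟩
    rw [hk]
    have e : s⁻¹ * s ^ (k + 1) = s ^ k := by
      field_simp
      ring
    rw [e]
    exact pow_le_pow_right₀ hs (by omega)

theorem hmx_nrm_scl_le_up {s : ℝ} (hs : 1 ≤ s) {d : ℕ} {P : PMap n}
    (h0 : Fix0 P) (hd : pdeg P ≤ d) : nrm (scl (s : ℂ) P) ≤ s ^ (d - 1) * nrm P := by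
  rw [nrm, nrm, Finset.mul_sum]
  exact Finset.sum_le_sum fun i _ =>
    hmx_n1_scl_le_up hs (h0 i) ((totalDegree_le_pdeg P i).trans hd)

theorem hmx_nrm_comp_le {B : ℝ} (hB : 1 ≤ B) {Q : PMap n} (hQ : ∀ i, n1 (Q i) ≤ B) {d : ℕ}
    {P : PMap n} (hP : pdeg P ≤ d) : nrm (comp P Q) ≤ nrm P * B ^ d := by
  rw [nrm, nrm, Finset.sum_mul]
  refine Finset.sum_le_sum fun i _ => (n1_bind₁_le hB hQ (P i)).trans ?_
  exact mul_le_mul_of_nonneg_left
    (pow_le_pow_right₀ hB ((totalDegree_le_pdeg P i).trans hP)) (n1_nonneg _)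

theorem hmx_nrm_comp_sub_le {B e : ℝ} (hB : 1 ≤ B) (he0 : 0 ≤ e) {Q Q' : PMap n}
    (hQ : ∀ i, n1 (Q i) ≤ B)
    (hQ' : ∀ i, n1 (Q' i) ≤ B) (he : ∀ i, n1 (Q i - Q' i) ≤ e) {d : ℕ} {P : PMap n}
    (hP : pdeg P ≤ d) : nrm (comp P Q - comp P Q') ≤ d * nrm P * B ^ (d - 1) * e := by
  have key : ∀ i, n1 ((comp P Q - comp P Q') i) ≤ d * B ^ (d - 1) * e * n1 (P i) := by
    intro i
    refine (n1_bind₁_sub_le hB hQ hQ' he (P i)).trans ?_
    have hdeg : (P i).totalDegree ≤ d := (totalDegree_le_pdeg P i).trans hP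
    have hdeg' : ((P i).totalDegree : ℝ) ≤ d := by exact_mod_cast hdeg
    have hpow : B ^ ((P i).totalDegree - 1) ≤ B ^ (d - 1) := pow_le_pow_right₀ hB (by omega)
    have hn := n1_nonneg (P i)
    have hB0 : 0 ≤ B := by linarith
    calc ((P i).totalDegree : ℝ) * n1 (P i) * B ^ ((P i).totalDegree - 1) * e
        ≤ (d : ℝ) * n1 (P i) * B ^ (d - 1) * e := by gcongr
      _ = d * B ^ (d - 1) * e * n1 (P i) := by ring
  calc nrm (comp P Q - comp P Q') ≤ ∑ i, d * B ^ (d - 1) * e * n1 (P i) :=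
        Finset.sum_le_sum fun i _ => key i
    _ = d * nrm P * B ^ (d - 1) * e := by rw [← Finset.mul_sum]; simp only [nrm]; ring

theorem hmx_ptrunc_add (d : ℕ) (P Q : PMap n) : ptrunc d (P + Q) = ptrunc d P + ptrunc d Q := by
  funext i
  simp only [ptrunc, Pi.add_apply, ptr_add]

theorem hmx_ordGe_ofMat_comp {k : ℕ} (A : Mat n) {P : PMap n} (h : ∀ i, OrdGe k (P i)) (i : Fin n) :
    OrdGe k (comp (ofMat A) P i) := by
  rw [comp_ofMat_apply]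
  exact OrdGe.sum fun j _ => (h j).mul_left _

theorem hmx_ordGe_comp {k : ℕ} {P Q : PMap n} (h : ∀ i, OrdGe k (P i)) (hQ : Fix0 Q) (i : Fin n) :
    OrdGe k (comp P Q i) := (h i).bind₁ hQ

/-- the third piece: the forbidden part of `D⁻¹ ψ(D z)`. -/
theorem hmx_piece3 {d : ℕ} (D : Fin n → ℂ) (Al : Fin n → (Fin n →₀ ℕ) → Prop) {κ : ℝ} (hκ : 0 ≤ κ)
    (gap : ∀ i β, 2 ≤ β.degree → β.degree ≤ d → ¬ Al i β → ‖(D i)⁻¹‖ * ∏ l, ‖D l‖ ^ β l ≤ κ)
    {ψ : PMap n} (hψ : ∀ i, OrdGe 2 (ψ i)) (i : Fin n) :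
    ‖(D i)⁻¹‖ * n1 (pproj (fun i m => ¬ Al i m)
      (ptrunc d (comp ψ (ofMat (Matrix.diagonal D)))) i) ≤ κ * n1 (ψ i) := by
  rw [← n1_C_mul]
  apply hmx_n1_le_of_coeff
  intro m
  rw [coeff_C_mul, norm_mul]
  have h0 : 0 ≤ κ * ‖coeff m (ψ i)‖ := mul_nonneg hκ (norm_nonneg _)
  by_cases hAl : Al i m
  · rw [hmx_coeff_pproj_neg (S := fun i m => ¬ Al i m) _ (not_not.mpr hAl), norm_zero, mul_zero]
    exact h0
  · rw [hmx_coeff_pproj_pos (S := fun i m => ¬ Al i m) _ hAl]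
    show ‖(D i)⁻¹‖ * ‖coeff m (ptr d (comp ψ (ofMat (Matrix.diagonal D)) i))‖ ≤ _
    rw [coeff_ptr]
    split_ifs with hd
    · have e : coeff m (comp ψ (ofMat (Matrix.diagonal D)) i) = (∏ l, D l ^ m l) * coeff m (ψ i) := by
        rw [hmx_ofMat_diag]
        exact coeff_bind₁_diag D (ψ i) m
      rw [e]
      rcases Nat.lt_or_ge m.degree 2 with h2 | h2
      · rw [hψ i m h2]; simp
      · rw [norm_mul, norm_prod, ← mul_assoc]
        simp only [norm_pow]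
        exact mul_le_mul_of_nonneg_right (gap i m h2 hd hAl) (norm_nonneg _)
    · rw [norm_zero, mul_zero]; exact h0

/-- the estimates of the scaled problem. -/
theorem hmx_step_est {d : ℕ} (hd : 1 ≤ d) (D : Fin n → ℂ) (Al : Fin n → (Fin n →₀ ℕ) → Prop)
    (φ η' : PMap n) (J Ji : Mat n) {x y κ τ e' : ℝ}
    (hD1 : ∀ i, ‖D i‖ ≤ 1) (hDx : ∀ i, ‖(D i)⁻¹‖ ≤ x) (hx : 0 ≤ x) (hφ : nrm φ ≤ τ) (hτ : τ ≤ 1)
    (hJ : mnorm J ≤ y) (hJi : mnorm Ji ≤ y) (hy : 2 ≤ y)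
    (hη : ∀ i, OrdGe 2 (η' i)) (hηd : pdeg η' ≤ d) (he : nrm η' ≤ e') (hκ : 0 ≤ κ)
    (gap : ∀ i β, 2 ≤ β.degree → β.degree ≤ d → ¬ Al i β → ‖(D i)⁻¹‖ * ∏ l, ‖D l‖ ^ β l ≤ κ) :
    nrm (ptrunc d (φ + comp (ofMat Ji) (comp η' (comp (ofMat J) (ofMat (Matrix.diagonal D) + φ)))))
      ≤ τ + y ^ (3 * d + 1) * e' ∧
    ∑ i, ‖(D i)⁻¹‖ * n1 (pproj (fun i m => ¬ Al i m)
      (ptrunc d (φ + comp (ofMat Ji) (comp η' (comp (ofMat J) (ofMat (Matrix.diagonal D) + φ))))) i)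
      ≤ x * τ + x * y ^ (3 * d + 1) * e' * τ + κ * y ^ (3 * d + 1) * e' := by
  have hτ0 : 0 ≤ τ := (nrm_nonneg _).trans hφ
  have he0 : 0 ≤ e' := (nrm_nonneg _).trans he
  have hy1 : 1 ≤ y := by linarith
  have hy0 : 0 ≤ y := by linarith
  set Dz : PMap n := ofMat (Matrix.diagonal D) with hDz
  set Q : PMap n := comp (ofMat J) (Dz + φ) with hQdef
  set Q₀ : PMap n := comp (ofMat J) Dz with hQ₀def
  have hDzn : ∀ l, n1 (Dz l) ≤ 1 := by
    intro l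
    rw [hDz, hmx_ofMat_diag, n1_C_mul, n1_X, mul_one]
    exact hD1 l
  have hF : ∀ l, n1 ((Dz + φ) l) ≤ 2 := by
    intro l
    refine (n1_add_le _ _).trans ?_
    have := (n1_le_nrm φ l).trans hφ
    have := hDzn l
    linarith
  have hyy : 1 ≤ y ^ 2 := one_le_pow₀ hy1
  have hQ : ∀ j, n1 (Q j) ≤ y ^ 2 := by
    intro j
    refine (hmx_n1_ofMat_comp_le J _ hF j).trans ?_
    have := (hmx_row_le_mnorm J j).trans hJ
    nlinarith
  have hQ₀ : ∀ j, n1 (Q₀ j) ≤ y ^ 2 := by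
    intro j
    refine (hmx_n1_ofMat_comp_le J _ hDzn j).trans ?_
    have := (hmx_row_le_mnorm J j).trans hJ
    nlinarith
  have hQd : ∀ j, n1 (Q j - Q₀ j) ≤ y * τ := by
    intro j
    have e : Q j - Q₀ j = comp (ofMat J) φ j := by
      rw [hQdef, hQ₀def, hmx_ofMat_comp_add]; simp
    rw [e]
    refine (hmx_n1_ofMat_comp_le J _ (fun l => (n1_le_nrm φ l).trans hφ) j).trans ?_
    exact mul_le_mul_of_nonneg_right ((hmx_row_le_mnorm J j).trans hJ) hτ0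
  set G₂ : PMap n := comp (ofMat Ji) (comp η' Q - comp η' Q₀) with hG₂
  set ψ : PMap n := comp (ofMat Ji) (comp η' (ofMat J)) with hψdef
  have hG : comp (ofMat Ji) (comp η' Q) = G₂ + comp ψ Dz := by
    rw [hG₂, hψdef, hmx_ofMat_comp_sub, comp_assoc, comp_assoc]
    exact (sub_add_cancel _ _).symm
  have nG : nrm (comp (ofMat Ji) (comp η' Q)) ≤ y * (e' * (y ^ 2) ^ d) := by
    refine (hmx_nrm_ofMat_comp_le _ _).trans ?_
    refine mul_le_mul hJi ?_ (nrm_nonneg _) hy0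
    exact (hmx_nrm_comp_le hyy hQ hηd).trans (mul_le_mul_of_nonneg_right he (by positivity))
  have nG₂ : nrm G₂ ≤ y * (d * e' * (y ^ 2) ^ (d - 1) * (y * τ)) := by
    refine (hmx_nrm_ofMat_comp_le _ _).trans ?_
    refine mul_le_mul hJi ?_ (nrm_nonneg _) hy0
    refine (hmx_nrm_comp_sub_le hyy (by positivity) hQ hQ₀ hQd hηd).trans ?_
    gcongr
  have nψ : nrm ψ ≤ y * (e' * y ^ d) := by
    refine (hmx_nrm_ofMat_comp_le _ _).trans ?_
    refine mul_le_mul hJi ?_ (nrm_nonneg _) hy0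
    refine (hmx_nrm_comp_le hy1 (fun j => ?_) hηd).trans
      (mul_le_mul_of_nonneg_right he (by positivity))
    exact ((n1_le_nrm _ j).trans (nrm_ofMat J)).trans hJ
  have hψ2 : ∀ i, OrdGe 2 (ψ i) :=
    hmx_ordGe_ofMat_comp Ji (hmx_ordGe_comp hη (fix0_ofMat J))
  -- powers of y
  have p1 : y * (y ^ 2) ^ d ≤ y ^ (3 * d + 1) := by
    have : y * (y ^ 2) ^ d = y ^ (2 * d + 1) := by rw [← pow_mul]; ring
    rw [this]; exact pow_le_pow_right₀ hy1 (by omega)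
  have p2 : y * (d * (y ^ 2) ^ (d - 1) * y) ≤ y ^ (3 * d + 1) := by
    have hdy : (d : ℝ) ≤ y ^ d := ivj_nat_le_pow hy d
    have e : y * (y ^ d * (y ^ 2) ^ (d - 1) * y) = y ^ (3 * d) := by
      obtain ⟨k, rfl⟩ : ∃ k, d = k + 1 := ⟨d - 1, by omega⟩
      rw [Nat.add_sub_cancel, ← pow_mul]; ring
    calc y * (d * (y ^ 2) ^ (d - 1) * y) ≤ y * (y ^ d * (y ^ 2) ^ (d - 1) * y) := by gcongr
      _ = y ^ (3 * d) := e
      _ ≤ y ^ (3 * d + 1) := pow_le_pow_right₀ hy1 (by omega)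
  have p3 : y * y ^ d ≤ y ^ (3 * d + 1) := by
    have : y * y ^ d = y ^ (d + 1) := by ring
    rw [this]; exact pow_le_pow_right₀ hy1 (by omega)
  constructor
  · refine (nrm_ptrunc_le _ _).trans ((nrm_add_le _ _).trans ?_)
    have : y * (e' * (y ^ 2) ^ d) ≤ y ^ (3 * d + 1) * e' := by
      calc y * (e' * (y ^ 2) ^ d) = (y * (y ^ 2) ^ d) * e' := by ring
        _ ≤ _ := mul_le_mul_of_nonneg_right p1 he0
    linarith
  · rw [hG]
    have h3 : ∀ i, ‖(D i)⁻¹‖ * n1 (pproj (fun i m => ¬ Al i m) (ptrunc d (φ + (G₂ + comp ψ Dz))) i)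
        ≤ x * n1 (φ i) + x * n1 (G₂ i) + κ * n1 (ψ i) := by
      intro i
      rw [hmx_ptrunc_add, hmx_ptrunc_add, hmx_pproj_add, hmx_pproj_add]
      have a1 : n1 (pproj (fun i m => ¬ Al i m) (ptrunc d φ) i) ≤ n1 (φ i) :=
        (hmx_n1_pproj_le _ _ i).trans (n1_ptr_le _ _)
      have a2 : n1 (pproj (fun i m => ¬ Al i m) (ptrunc d G₂) i) ≤ n1 (G₂ i) :=
        (hmx_n1_pproj_le _ _ i).trans (n1_ptr_le _ _)
      have a3 := hmx_piece3 D Al hκ gap hψ2 i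
      have b0 := norm_nonneg (D i)⁻¹
      have a4 : n1 (pproj (fun i m => ¬ Al i m) (ptrunc d φ) i
          + (pproj (fun i m => ¬ Al i m) (ptrunc d G₂) i
            + pproj (fun i m => ¬ Al i m) (ptrunc d (comp ψ Dz)) i))
          ≤ n1 (φ i) + n1 (G₂ i) + n1 (pproj (fun i m => ¬ Al i m) (ptrunc d (comp ψ Dz)) i) := by
        refine (n1_add_le _ _).trans ?_
        have := n1_add_le (pproj (fun i m => ¬ Al i m) (ptrunc d G₂) i)
          (pproj (fun i m => ¬ Al i m) (ptrunc d (comp ψ Dz)) i)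
        linarith
      have a5 := mul_le_mul_of_nonneg_left a4 b0
      have a6 : ‖(D i)⁻¹‖ * n1 (φ i) ≤ x * n1 (φ i) :=
        mul_le_mul_of_nonneg_right (hDx i) (n1_nonneg _)
      have a7 : ‖(D i)⁻¹‖ * n1 (G₂ i) ≤ x * n1 (G₂ i) :=
        mul_le_mul_of_nonneg_right (hDx i) (n1_nonneg _)
      calc _ ≤ _ := a5
        _ = ‖(D i)⁻¹‖ * n1 (φ i) + ‖(D i)⁻¹‖ * n1 (G₂ i)
            + ‖(D i)⁻¹‖ * n1 (pproj (fun i m => ¬ Al i m) (ptrunc d (comp ψ Dz)) i) := by ring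
        _ ≤ _ := by linarith
    refine (Finset.sum_le_sum fun i _ => h3 i).trans ?_
    rw [Finset.sum_add_distrib, Finset.sum_add_distrib, ← Finset.mul_sum, ← Finset.mul_sum,
      ← Finset.mul_sum]
    change x * nrm φ + x * nrm G₂ + κ * nrm ψ ≤ _
    have c1 : x * nrm φ ≤ x * τ := mul_le_mul_of_nonneg_left hφ hx
    have c2 : x * nrm G₂ ≤ x * y ^ (3 * d + 1) * e' * τ := by
      calc x * nrm G₂ ≤ x * (y * (d * e' * (y ^ 2) ^ (d - 1) * (y * τ))) :=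
            mul_le_mul_of_nonneg_left nG₂ hx
        _ = x * (y * (d * (y ^ 2) ^ (d - 1) * y)) * e' * τ := by ring
        _ ≤ x * y ^ (3 * d + 1) * e' * τ := by gcongr
    have c3 : κ * nrm ψ ≤ κ * y ^ (3 * d + 1) * e' := by
      calc κ * nrm ψ ≤ κ * (y * (e' * y ^ d)) := mul_le_mul_of_nonneg_left nψ hκ
        _ = κ * (y * y ^ d) * e' := by ring
        _ ≤ κ * y ^ (3 * d + 1) * e' := by gcongr
    linarith

/-- HOM-STEP: one backward step of the homological recursion in scaled norms. -/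
theorem hom_step (n d : ℕ) (hd : 2 ≤ d) : ∃ a : ℕ, ∀ (D : Fin n → ℂ)
    (Al : Fin n → (Fin n →₀ ℕ) → Prop) (Fh η' : PMap n) (J Ji : Mat n) (x y κ t e' : ℝ),
    (∀ i, D i ≠ 0) → (∀ i, ‖D i‖ ≤ 1) → (∀ i, ‖(D i)⁻¹‖ ≤ x) →
    Fix0 Fh → pdeg Fh ≤ d → plin Fh = Matrix.diagonal D → nrm Fh ≤ x →
    J * Ji = 1 → Ji * J = 1 → mnorm J ≤ y → mnorm Ji ≤ y → 2 ≤ y → 2 ≤ x →
    (∀ i, OrdGe 2 (η' i)) → pdeg η' ≤ d → 0 < t → t ≤ 1 → nrm (scl (t : ℂ) η') ≤ e' → 0 ≤ κ →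
    (∀ i β, 2 ≤ β.degree → β.degree ≤ d → ¬ Al i β → ‖(D i)⁻¹‖ * ∏ l, ‖D l‖ ^ β l ≤ κ) →
    y ^ a * (x ^ 2 * t + x ^ 2 * y ^ a * e' * t + κ * y ^ a * e') ≤ 1 →
    x * y ^ a * (x * t + y ^ a * e') ≤ 1 →
    ∃ γ η : PMap n, SuppIn d Al γ ∧ SuppIn d (fun i m => ¬ Al i m) η ∧
      JEq d (comp (triMap D γ) (pid + η))
        (comp (ofMat Ji) (comp (pid + η') (comp (ofMat J) Fh))) ∧
      nrm (scl (t : ℂ) η) ≤ 2 * (x ^ 2 * t + x ^ 2 * y ^ a * e' * t + κ * y ^ a * e') ∧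
      nrm (scl (t : ℂ) γ) ≤ 2 * (x * t + y ^ a * e') := by
  refine ⟨3 * d + 1, ?_⟩
  intro D Al Fh η' J Ji x y κ t e' hD hD1 hDx hF0 _hFd hFl hFn _hJJi hJiJ hJ hJi hy hx hη hηd ht ht1
    he hκ gap hs1 hs2
  set a := 3 * d + 1 with ha
  have htc : (t : ℂ) ≠ 0 := by exact_mod_cast ht.ne'
  have htc' : (t : ℂ)⁻¹ ≠ 0 := inv_ne_zero htc
  have he0 : 0 ≤ e' := (nrm_nonneg _).trans he
  have hy1 : 1 ≤ y := by linarith
  have hx0 : 0 ≤ x := by linarith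
  have hya : 1 ≤ y ^ a := one_le_pow₀ hy1
  set Dz : PMap n := ofMat (Matrix.diagonal D) with hDz
  set φ : PMap n := Fh - ptrunc 1 Fh with hφ
  have hp1 : ptrunc 1 Fh = Dz := by
    funext i
    show ptr 1 (Fh i) = _
    rw [ptr_one_eq, hF0 i, map_zero, zero_add, hDz, ← hFl]
    rfl
  have hFh : Fh = Dz + φ := by
    rw [hφ, hp1]; abel
  have hφ2 : ∀ i, OrdGe 2 (φ i) := fun i => ivj_sub_ptr_ordGe 1 (Fh i)
  have hφn : ∀ i, n1 (φ i) ≤ n1 (Fh i) := by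
    intro i
    have := hmx_n1_le_of_coeff (f := φ i) (g := Fh i) (c := 1) fun m => by
      rw [one_mul]
      show ‖coeff m (Fh i - ptr 1 (Fh i))‖ ≤ _
      rw [coeff_sub, coeff_ptr]
      split_ifs
      · simp
      · simp
    simpa using this
  set φs : PMap n := scl (t : ℂ) φ with hφs
  set ηs : PMap n := scl (t : ℂ) η' with hηs
  have nφs : nrm φs ≤ x * t := by
    calc nrm φs ≤ ∑ i, t * n1 (Fh i) := Finset.sum_le_sum fun i _ =>
          (hmx_n1_scl_le ht ht1 (hφ2 i)).trans (mul_le_mul_of_nonneg_left (hφn i) ht.le)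
      _ = t * nrm Fh := by rw [nrm, Finset.mul_sum]
      _ ≤ t * x := mul_le_mul_of_nonneg_left hFn ht.le
      _ = x * t := mul_comm _ _
  set A₀ : ℝ := x ^ 2 * t + x ^ 2 * y ^ a * e' * t + κ * y ^ a * e' with hA₀
  set B₀ : ℝ := x * t + y ^ a * e' with hB₀
  have hA0 : 0 ≤ A₀ := by positivity
  have hB0 : 0 ≤ B₀ := by positivity
  have hτ : x * t ≤ 1 := by
    have h1 : x * t ≤ B₀ := by
      have : 0 ≤ y ^ a * e' := by positivity
      linarith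
    have h2 : 1 * B₀ ≤ x * y ^ a * B₀ := by
      apply mul_le_mul_of_nonneg_right _ hB0
      nlinarith
    linarith
  obtain ⟨E1, E2⟩ := hmx_step_est (d := d) (by omega) D Al φs ηs J Ji hD1 hDx hx0 nφs hτ hJ hJi hy
    (fun i => hmx_ordGe_scl (hη i) _) ((hmx_pdeg_scl_le _ _).trans hηd) he hκ gap
  rw [← hDz, ← ha] at E1 E2
  set G : PMap n := comp (ofMat Ji) (comp ηs (comp (ofMat J) (Dz + φs))) with hG
  set ξ : PMap n := ptrunc d (φs + G) with hξ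
  have hFs0 : Fix0 (Dz + φs) := fun i => by
    rw [Pi.add_apply, coeff_add, fix0_ofMat _ i, hmx_ordGe_scl (hφ2 i) _ 0 (by simp), add_zero]
  have hξ2 : ∀ i, OrdGe 2 (ξ i) := by
    intro i
    refine ivj_ordGe_ptr ?_ d
    refine (hmx_ordGe_scl (hφ2 i) _).add ?_
    exact hmx_ordGe_ofMat_comp Ji
      (hmx_ordGe_comp (fun j => hmx_ordGe_scl (hη j) _) ((fix0_ofMat J).comp hFs0)) i
  obtain ⟨γs, ηn, hγS, hηS, hrel, hbd⟩ := hom1 d D hD Al ξ hξ2 (pdeg_ptrunc_le d _)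
  have hc : (d : ℝ) * 2 ^ (d + 1) ≤ y ^ a := by
    have h1 : (d : ℝ) ≤ 2 ^ d := ivj_nat_le_pow le_rfl d
    calc (d : ℝ) * 2 ^ (d + 1) ≤ 2 ^ d * 2 ^ (d + 1) := by gcongr
      _ = 2 ^ (2 * d + 1) := by rw [← pow_add]; congr 1; omega
      _ ≤ 2 ^ a := pow_le_pow_right₀ (by norm_num) (by omega)
      _ ≤ y ^ a := pow_le_pow_left₀ (by norm_num) hy a
  obtain ⟨b1, b2⟩ := hbd x A₀ B₀ hDx E1 (E2.trans (le_of_eq (by rw [hA₀]; ring)))
    ((mul_le_mul_of_nonneg_right hc hA0).trans hs1)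
    ((mul_le_mul_of_nonneg_right (mul_le_mul_of_nonneg_left hc hx0) hB0).trans hs2)
  refine ⟨scl (t : ℂ)⁻¹ γs, scl (t : ℂ)⁻¹ ηn, hmx_supp_scl hγS _, hmx_supp_scl hηS _, ?_, ?_, ?_⟩
  · have h1 : scl (t : ℂ) (comp (ofMat Ji) (comp (pid + η') (comp (ofMat J) Fh)))
        = Dz + (φs + G) := by
      rw [scl_comp htc, scl_comp htc, scl_comp htc, scl_ofMat htc, scl_ofMat htc, hmx_scl_add,
        hmx_scl_pid htc, hFh, hmx_scl_add, hDz, scl_ofMat htc, ← hDz, hmx_comp_add, pid_comp,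
        hmx_ofMat_comp_add, ofMat_comp_cancel hJiJ, add_assoc]
    have h2 : JEq d (triMap D ξ) (Dz + (φs + G)) := by
      rw [jeq_iff]
      intro i
      have e : triMap D ξ i - (Dz + (φs + G)) i = -((φs + G) i - ptr d ((φs + G) i)) := by
        rw [hmx_triMap_eq, ← hDz]
        simp only [Pi.add_apply, hξ, ptrunc]
        ring
      rw [e]
      exact (ivj_sub_ptr_ordGe d _).neg
    have h3 := hmx_jeq_scl (hrel.trans h2) (t : ℂ)⁻¹
    rw [← h1, hmx_scl_inv_scl htc, scl_comp htc', hmx_scl_triMap htc', hmx_scl_add,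
      hmx_scl_pid htc'] at h3
    exact h3
  · rw [hmx_scl_scl_inv htc]; exact b1
  · rw [hmx_scl_scl_inv htc]; exact b2

/-- HOM-VOL: the correction `h` of one step preserves volume if the next one does. -/
theorem hom_vol_step {d : ℕ} (hd : 1 ≤ d) (w : Fin n → ℝ) (hw : ∀ i, 0 < w i) (D : Fin n → ℂ)
    (hD : ∀ i, D i ≠ 0) (γ h h' Fh : PMap n) (J Ji : Mat n) (hJ : J * Ji = 1)
    (hγ : SuppIn d (Allowed w) γ) (hh : Fix0 h) (hh' : Fix0 h') (hF : Fix0 Fh)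
    (hvolF : ptr (d - 1) (jdet Fh) = C (∏ i, D i)) (hvol' : ptr (d - 1) (jdet h') = 1)
    (hrel : JEq d (comp (triMap D γ) h) (comp (ofMat Ji) (comp h' (comp (ofMat J) Fh)))) :
    ptr (d - 1) (jdet h) = 1 := by
  obtain ⟨e, rfl⟩ : ∃ e, d = e + 1 := ⟨d - 1, by omega⟩
  simp only [Nat.add_sub_cancel] at *
  have hT : TriSupp w γ := triSupp_of_allowed w hw γ fun i m hm => ⟨(hγ i m hm).1, (hγ i m hm).2.2⟩
  have h1 := hrel.jdet
  have hQ : Fix0 (comp (ofMat J) Fh) := (fix0_ofMat J).comp hF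
  have hdet : Ji.det * J.det = 1 := by
    rw [mul_comm, ← Matrix.det_mul, hJ, Matrix.det_one]
  have hone : ptr e (1 : MP n) = 1 := ptr_eq_self (by simp)
  rw [jdet_comp, tri_jdet w D γ hT, bind₁_C_right, ptr_C_mul, jdet_comp, jdet_ofMat, bind₁_C_right,
    jdet_comp, jdet_comp, jdet_ofMat, bind₁_C_right, ptr_C_mul, ← ptr_mul_ptr, ← ptr_bind₁_ptr e hQ,
    hvol', map_one, hone, one_mul, ptr_ptr, min_self, ptr_C_mul, hvolF, ← mul_assoc, ← map_mul,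
    hdet, map_one, one_mul] at h1
  have hP : (∏ i, D i) ≠ 0 := Finset.prod_ne_zero_iff.mpr fun i _ => hD i
  have h2 : C (∏ i, D i) * ptr e (jdet h) = C (∏ i, D i) * (1 : MP n) := by rw [h1, mul_one]
  exact mul_left_cancel₀ ((map_ne_zero_iff _ (C_injective (Fin n) ℂ)).mpr hP) h2

/-- data of the homological problem along the grid. -/
structure HomData (n d : ℕ) where
  /-- regular steps -/
  reg : ℕ → Prop
  /-- the transition `\hat F_k` of a regular step (linear part `D k`) -/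
  Fh : ℕ → PMap n
  /-- diagonal linear part -/
  D : ℕ → Fin n → ℂ
  /-- aligned jump (`1` if the next step is not regular) -/
  J : ℕ → Mat n
  /-- its inverse -/
  Ji : ℕ → Mat n
  /-- weights -/
  w : ℕ → Fin n → ℝ
  /-- envelope `exp (sqrt s_k)` -/
  x : ℕ → ℝ
  /-- polynomial envelope of the jumps -/
  y : ℕ → ℝ
  /-- contraction factor of forbidden monomials -/
  κ : ℕ → ℝ
  /-- ratio bound of the envelope -/
  ρ : ℝ
  hρ : 1 ≤ ρ
  hκ : ∀ k, reg k → 0 ≤ κ k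
  hw : ∀ k, reg k → ∀ i, 0 < w k i
  fix0 : ∀ k, reg k → Fix0 (Fh k)
  deg : ∀ k, reg k → pdeg (Fh k) ≤ d
  lin : ∀ k, reg k → plin (Fh k) = Matrix.diagonal (D k)
  vol : ∀ k, reg k → ptr (d - 1) (jdet (Fh k)) = C (∏ i, D k i)
  D_ne : ∀ k, reg k → ∀ i, D k i ≠ 0
  D_le : ∀ k, reg k → ∀ i, ‖D k i‖ ≤ 1
  Dinv_le : ∀ k, reg k → ∀ i, ‖(D k i)⁻¹‖ ≤ x k
  JJi : ∀ k, J k * Ji k = 1
  JiJ : ∀ k, Ji k * J k = 1
  J_le : ∀ k, reg k → mnorm (J k) ≤ y k
  Ji_le : ∀ k, reg k → mnorm (Ji k) ≤ y k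
  hy : ∀ k, reg k → 2 ≤ y k
  Fh_le : ∀ k, reg k → nrm (Fh k) ≤ x k
  x_mono : ∀ k, reg k → reg (k + 1) → x k ≤ x (k + 1)
  x_ratio : ∀ k, reg k → reg (k + 1) → x (k + 1) ≤ ρ * x k
  gap : ∀ k, reg k → ∀ i β, 2 ≤ β.degree → β.degree ≤ d → ¬ Allowed (w k) i β →
    ‖(D k i)⁻¹‖ * ∏ l, ‖D k l‖ ^ β l ≤ κ k

/-- the numerology of the backward recursion. -/
theorem hmx_num {a₀ q a : ℕ} (ha : 2 * (a₀ + q) + 3 ≤ a) {x y ρ κ : ℝ} (hy : 2 ≤ y) (hρ : 1 ≤ ρ)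
    (hκ : 0 ≤ κ) (h1 : (y * ρ) ^ a ≤ x) (h2 : κ * (y * ρ) ^ a ≤ 1) :
    2 ≤ x ∧
    2 * (x ^ 2 * (x ^ 5)⁻¹ + x ^ 2 * y ^ a₀ * (ρ ^ q * (x ^ 2)⁻¹) * (x ^ 5)⁻¹
      + κ * y ^ a₀ * (ρ ^ q * (x ^ 2)⁻¹)) ≤ (x ^ 2)⁻¹ ∧
    y ^ a₀ * (x ^ 2 * (x ^ 5)⁻¹ + x ^ 2 * y ^ a₀ * (ρ ^ q * (x ^ 2)⁻¹) * (x ^ 5)⁻¹
      + κ * y ^ a₀ * (ρ ^ q * (x ^ 2)⁻¹)) ≤ 1 ∧
    x * y ^ a₀ * (x * (x ^ 5)⁻¹ + y ^ a₀ * (ρ ^ q * (x ^ 2)⁻¹)) ≤ 1 ∧
    2 * (x * (x ^ 5)⁻¹ + y ^ a₀ * (ρ ^ q * (x ^ 2)⁻¹)) ≤ 1 := by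
  set z := y * ρ with hz
  have hy1 : 1 ≤ y := by linarith
  have hy0 : 0 ≤ y := by linarith
  have hρ0 : 0 ≤ ρ := by linarith
  have hz2 : 2 ≤ z := by nlinarith
  have hz1 : 1 ≤ z := by linarith
  have hyz : y ≤ z := by nlinarith
  have hρz : ρ ≤ z := by nlinarith
  set Y := y ^ a₀ with hY
  set R := ρ ^ q with hR
  set M := Y * R with hM
  have hY1 : 1 ≤ Y := one_le_pow₀ hy1
  have hR1 : 1 ≤ R := one_le_pow₀ hρ
  have hM1 : 1 ≤ M := by nlinarith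
  have hYM : Y ≤ M := by nlinarith
  set Z := z ^ (a₀ + q) with hZ
  have hMZ : M ≤ Z := by
    rw [hZ, pow_add]
    exact mul_le_mul (pow_le_pow_left₀ hy0 hyz _) (pow_le_pow_left₀ hρ0 hρz _) (by positivity)
      (by positivity)
  have hZ1 : 1 ≤ Z := one_le_pow₀ hz1
  have f1 : 8 * M ≤ x := by
    have : Z * z ^ 3 ≤ z ^ a := by
      rw [hZ, ← pow_add]; exact pow_le_pow_right₀ hz1 (by omega)
    have h8 : (8 : ℝ) ≤ z ^ 3 := by
      calc (8 : ℝ) = 2 ^ 3 := by norm_num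
        _ ≤ z ^ 3 := pow_le_pow_left₀ (by norm_num) hz2 3
    nlinarith
  have f2 : 2 * M ^ 2 ≤ x := by
    have : Z * Z * z ≤ z ^ a := by
      rw [hZ, ← pow_add, ← pow_succ]; exact pow_le_pow_right₀ hz1 (by omega)
    have h3 : M ^ 2 ≤ Z * Z := by nlinarith
    nlinarith
  have f3 : 8 * (κ * M) ≤ 1 := by
    have : Z * z ^ 3 ≤ z ^ a := by
      rw [hZ, ← pow_add]; exact pow_le_pow_right₀ hz1 (by omega)
    have h8 : (8 : ℝ) ≤ z ^ 3 := by
      calc (8 : ℝ) = 2 ^ 3 := by norm_num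
        _ ≤ z ^ 3 := pow_le_pow_left₀ (by norm_num) hz2 3
    have h4 : 8 * M ≤ z ^ a := by nlinarith
    have h5 : κ * (8 * M) ≤ κ * z ^ a := mul_le_mul_of_nonneg_left h4 hκ
    linarith
  have hx8 : 8 ≤ x := by linarith
  have hx0 : 0 < x := by linarith
  set u := x⁻¹ with hu
  have hu0 : 0 < u := inv_pos.mpr hx0
  have hxu : x * u = 1 := mul_inv_cancel₀ hx0.ne'
  have hu8 : u ≤ 1 / 8 := by
    rw [hu, inv_le_comm₀ hx0 (by norm_num)]; norm_num; linarith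
  have g1 : M * u ≤ 1 / 8 := by
    have : 8 * M * u ≤ x * u := mul_le_mul_of_nonneg_right f1 hu0.le
    linarith
  have g2 : M ^ 2 * u ≤ 1 / 2 := by
    have : 2 * M ^ 2 * u ≤ x * u := mul_le_mul_of_nonneg_right f2 hu0.le
    linarith
  have e5 : (x ^ 5)⁻¹ = u ^ 5 := by rw [hu, inv_pow]
  have e2 : (x ^ 2)⁻¹ = u ^ 2 := by rw [hu, inv_pow]
  rw [e5, e2]
  have eA : x ^ 2 * u ^ 5 + x ^ 2 * Y * (R * u ^ 2) * u ^ 5 + κ * Y * (R * u ^ 2)
      = u ^ 2 * (u + (M * u) * u ^ 2 + κ * M) := by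
    have : x ^ 2 * u ^ 5 = u ^ 3 := by
      calc x ^ 2 * u ^ 5 = (x * u) ^ 2 * u ^ 3 := by ring
        _ = u ^ 3 := by rw [hxu]; ring
    calc x ^ 2 * u ^ 5 + x ^ 2 * Y * (R * u ^ 2) * u ^ 5 + κ * Y * (R * u ^ 2)
        = x ^ 2 * u ^ 5 + (x ^ 2 * u ^ 5) * (Y * R) * u ^ 2 + κ * (Y * R) * u ^ 2 := by ring
      _ = u ^ 2 * (u + (M * u) * u ^ 2 + κ * M) := by rw [this]; ring
  have eB : x * u ^ 5 + Y * (R * u ^ 2) = u ^ 4 + (M * u) * u := by
    calc x * u ^ 5 + Y * (R * u ^ 2) = (x * u) * u ^ 4 + (Y * R) * u * u := by ring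
      _ = _ := by rw [hxu]; ring
  rw [eA, eB]
  have hMu0 : 0 ≤ M * u := by positivity
  have hκM0 : 0 ≤ κ * M := by positivity
  have hu2 : u ^ 2 ≤ 1 / 64 := by
    calc u ^ 2 ≤ (1 / 8) ^ 2 := pow_le_pow_left₀ hu0.le hu8 2
      _ = 1 / 64 := by norm_num
  have hu20 : 0 ≤ u ^ 2 := by positivity
  have hS : u + (M * u) * u ^ 2 + κ * M ≤ 1 / 2 := by
    have k3 : (M * u) * u ^ 2 ≤ (1 / 8) * (1 / 64) := by gcongr
    linarith
  have hS0 : 0 ≤ u + (M * u) * u ^ 2 + κ * M := by positivity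
  refine ⟨by linarith, ?_, ?_, ?_, ?_⟩
  · have := mul_le_mul_of_nonneg_left hS hu20
    linarith
  · calc Y * (u ^ 2 * (u + (M * u) * u ^ 2 + κ * M))
        ≤ M * (u ^ 2 * (u + (M * u) * u ^ 2 + κ * M)) :=
          mul_le_mul_of_nonneg_right hYM (by positivity)
      _ = (M * u) * u * (u + (M * u) * u ^ 2 + κ * M) := by ring
      _ ≤ (1 / 8) * (1 / 8) * (1 / 2) := by gcongr
      _ ≤ 1 := by norm_num
  · have e : x * Y * (u ^ 4 + (M * u) * u) = Y * u ^ 3 + Y * (M * u) := by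
      calc x * Y * (u ^ 4 + (M * u) * u) = (x * u) * (Y * u ^ 3 + Y * (M * u)) := by ring
        _ = _ := by rw [hxu, one_mul]
    rw [e]
    have k1 : Y * u ^ 3 ≤ (M * u) * u ^ 2 := by
      calc Y * u ^ 3 ≤ M * u ^ 3 := mul_le_mul_of_nonneg_right hYM (by positivity)
        _ = _ := by ring
    have k2 : Y * (M * u) ≤ M ^ 2 * u := by
      calc Y * (M * u) ≤ M * (M * u) := mul_le_mul_of_nonneg_right hYM hMu0
        _ = _ := by ring
    have k3 : (M * u) * u ^ 2 ≤ (1 / 8) * (1 / 64) := by gcongr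
    linarith
  · have k1 : u ^ 4 ≤ 1 / 64 := by
      calc u ^ 4 = u ^ 2 * u ^ 2 := by ring
        _ ≤ (1 / 64) * (1 / 64) := by gcongr
        _ ≤ 1 / 64 := by norm_num
    have k2 : (M * u) * u ≤ (1 / 8) * (1 / 8) := by gcongr
    linarith

theorem hmx_supp_mono {d : ℕ} {S S' : Fin n → (Fin n →₀ ℕ) → Prop} {γ : PMap n}
    (h : SuppIn d S γ) (hS : ∀ i m, S i m → S' i m) : SuppIn d S' γ :=
  fun i m hm => ⟨(h i m hm).1, (h i m hm).2.1, hS i m (h i m hm).2.2⟩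

theorem hmx_supp_pdeg {d : ℕ} {S : Fin n → (Fin n →₀ ℕ) → Prop} {γ : PMap n} (h : SuppIn d S γ) :
    pdeg γ ≤ d := pdeg_le_iff.mpr (hmx_supp_deg h)

/-- undoing a scaling. -/
theorem hmx_nrm_le_of_scl {s : ℝ} (hs : 1 ≤ s) {d : ℕ} {P : PMap n} (h0 : Fix0 P)
    (hd : pdeg P ≤ d) : nrm P ≤ s ^ (d - 1) * nrm (scl ((s⁻¹ : ℝ) : ℂ) P) := by
  have hs0 : (s : ℂ) ≠ 0 := by
    have : s ≠ 0 := by linarith
    exact_mod_cast this
  have e : scl (s : ℂ) (scl ((s⁻¹ : ℝ) : ℂ) P) = P := by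
    rw [Complex.ofReal_inv, hmx_scl_scl_inv hs0]
  have h1 := hmx_nrm_scl_le_up hs (d := d) (P := scl ((s⁻¹ : ℝ) : ℂ) P)
    (fun i => by rw [coeff_scl, h0 i, mul_zero]) ((hmx_pdeg_scl_le _ _).trans hd)
  rwa [e] at h1

/-- change of scale. -/
theorem hmx_nrm_scl_change {s t : ℝ} (hs : 1 ≤ s) {d : ℕ} {P : PMap n} (h0 : Fix0 P)
    (hd : pdeg P ≤ d) : nrm (scl ((s * t : ℝ) : ℂ) P) ≤ s ^ (d - 1) * nrm (scl (t : ℂ) P) := by
  have h1 := hmx_nrm_scl_le_up hs (d := d) (P := scl (t : ℂ) P)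
    (fun i => by rw [coeff_scl, h0 i, mul_zero]) ((hmx_pdeg_scl_le _ _).trans hd)
  rwa [scl_scl, ← Complex.ofReal_mul] at h1

theorem hmx_scl_zero (t : ℂ) : scl t (0 : PMap n) = 0 := by
  funext i
  ext m
  rw [coeff_scl]
  simp

theorem hmx_nrm_zero : nrm (0 : PMap n) = 0 := by simp [nrm]

/-- the invariant of the backward recursion. -/
def hmxGood {d : ℕ} (X : HomData n d) (k : ℕ) (η : PMap n) : Prop :=
  SuppIn d (fun _ _ => True) η ∧ ptr (d - 1) (jdet (pid + η)) = 1 ∧ (¬ X.reg k → η = 0) ∧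
  (X.reg k → nrm (scl (((X.x k ^ 5)⁻¹ : ℝ) : ℂ) η) ≤ (X.x k ^ 2)⁻¹)

theorem hmx_eqns_cite2 : True := by
  have := @hmxGood.eq_1
  trivial

theorem hmx_good_zero {d : ℕ} (X : HomData n d) (k : ℕ) : hmxGood X k 0 := by
  refine ⟨hmx_supp_zero _ _, ?_, fun _ => rfl, fun _ => ?_⟩
  · rw [add_zero, jdet_pid]
    exact ptr_eq_self (by simp)
  · rw [hmx_scl_zero, hmx_nrm_zero]
    positivity

theorem hmx_back (n d : ℕ) (hd : 2 ≤ d) : ∃ a : ℕ, n + 5 * (d - 1) + 1 ≤ a ∧ ∀ X : HomData n d,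
    (∀ k, X.reg k → (X.y k * X.ρ) ^ a ≤ X.x k ∧ X.κ k * (X.y k * X.ρ) ^ a ≤ 1) →
    (∀ k, X.reg k → 2 ≤ X.x k) ∧
    ∀ k, X.reg k → ∀ η' : PMap n, hmxGood X (k + 1) η' →
    ∃ γ η : PMap n, hmxGood X k η ∧ SuppIn d (Allowed (X.w k)) γ ∧
      nrm γ ≤ X.x k ^ (5 * (d - 1)) ∧
      JEq d (comp (triMap (X.D k) γ) (pid + η))
        (comp (ofMat (X.Ji k)) (comp (pid + η') (comp (ofMat (X.J k)) (X.Fh k)))) := by
  obtain ⟨a₀, h₀⟩ := hom_step n d hd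
  refine ⟨2 * (a₀ + 5 * (d - 1)) + n + 3, by omega, ?_⟩
  intro X hX
  have hnum := fun k (hk : X.reg k) => hmx_num (a₀ := a₀) (q := 5 * (d - 1))
    (a := 2 * (a₀ + 5 * (d - 1)) + n + 3) (by omega) (X.hy k hk) X.hρ (X.hκ k hk)
    (hX k hk).1 (hX k hk).2
  refine ⟨fun k hk => (hnum k hk).1, ?_⟩
  intro k hk η' hG'
  obtain ⟨hx2, N1, N2, N3, N4⟩ := hnum k hk
  set x := X.x k with hx
  have hx0 : 0 < x := by linarith
  have hx1 : 1 ≤ x := by linarith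
  have hx5 : 1 ≤ x ^ 5 := one_le_pow₀ hx1
  have ht0 : 0 < (x ^ 5)⁻¹ := by positivity
  have ht1 : (x ^ 5)⁻¹ ≤ 1 := inv_le_one_of_one_le₀ hx5
  have hη'0 : Fix0 η' := hmx_supp_fix0 hG'.1
  have hη'd : pdeg η' ≤ d := hmx_supp_pdeg hG'.1
  have he : nrm (scl (((x ^ 5)⁻¹ : ℝ) : ℂ) η') ≤ X.ρ ^ (5 * (d - 1)) * (x ^ 2)⁻¹ := by
    by_cases hk' : X.reg (k + 1)
    · have hb := hG'.2.2.2 hk'
      set x' := X.x (k + 1) with hx'
      have hxx : x ≤ x' := X.x_mono k hk hk'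
      have hxr : x' ≤ X.ρ * x := X.x_ratio k hk hk'
      have hx'0 : 0 < x' := by linarith
      set s := x' ^ 5 / x ^ 5 with hs
      have hs1 : 1 ≤ s := by
        rw [hs, le_div_iff₀ (by positivity), one_mul]
        exact pow_le_pow_left₀ hx0.le hxx 5
      have hsρ : s ≤ X.ρ ^ 5 := by
        rw [hs, div_le_iff₀ (by positivity), ← mul_pow]
        exact pow_le_pow_left₀ hx'0.le hxr 5
      have est : (x ^ 5)⁻¹ = s * (x' ^ 5)⁻¹ := by
        rw [hs]; field_simp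
      rw [est]
      refine (hmx_nrm_scl_change hs1 hη'0 hη'd).trans ?_
      have h1 : s ^ (d - 1) ≤ X.ρ ^ (5 * (d - 1)) := by
        rw [pow_mul]; exact pow_le_pow_left₀ (by linarith) hsρ _
      have h2 : (x' ^ 2)⁻¹ ≤ (x ^ 2)⁻¹ :=
        inv_anti₀ (by positivity) (pow_le_pow_left₀ hx0.le hxx 2)
      exact mul_le_mul h1 (hb.trans h2) (nrm_nonneg _) (by have := X.hρ; positivity)
    · rw [hG'.2.2.1 hk', hmx_scl_zero, hmx_nrm_zero]
      have := X.hρ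
      positivity
  obtain ⟨γ, η, hγ, hη, hrel, b1, b2⟩ := h₀ (X.D k) (Allowed (X.w k)) (X.Fh k) η' (X.J k) (X.Ji k)
    x (X.y k) (X.κ k) (x ^ 5)⁻¹ (X.ρ ^ (5 * (d - 1)) * (x ^ 2)⁻¹) (X.D_ne k hk) (X.D_le k hk)
    (X.Dinv_le k hk) (X.fix0 k hk) (X.deg k hk) (X.lin k hk) (X.Fh_le k hk) (X.JJi k) (X.JiJ k)
    (X.J_le k hk) (X.Ji_le k hk) (X.hy k hk) hx2 (hmx_supp_ordGe hG'.1) hη'd ht0 ht1 he (X.hκ k hk)
    (X.gap k hk) N2 N3
  refine ⟨γ, η, ⟨hmx_supp_mono hη fun _ _ _ => trivial, ?_, fun h => absurd hk h,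
    fun _ => b1.trans N1⟩, hγ, ?_, hrel⟩
  · exact hom_vol_step (by omega) (X.w k) (X.hw k hk) (X.D k) (X.D_ne k hk) γ (pid + η) (pid + η')
      (X.Fh k) (X.J k) (X.Ji k) (X.JJi k) hγ (hmx_fix0_pid_add (hmx_supp_fix0 hη))
      (hmx_fix0_pid_add hη'0) (X.fix0 k hk) (X.vol k hk) hG'.2.1 hrel
  · refine (hmx_nrm_le_of_scl hx5 (hmx_supp_fix0 hγ) (hmx_supp_pdeg hγ)).trans ?_
    rw [← pow_mul]
    calc x ^ (5 * (d - 1)) * nrm (scl (((x ^ 5)⁻¹ : ℝ) : ℂ) γ) ≤ x ^ (5 * (d - 1)) * 1 :=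
          mul_le_mul_of_nonneg_left (b2.trans N4) (by positivity)
      _ = _ := mul_one _

theorem hmx_horizon {d : ℕ} (X : HomData n d)
    (hstep : ∀ k, X.reg k → ∀ η' : PMap n, hmxGood X (k + 1) η' →
      ∃ γ η : PMap n, hmxGood X k η ∧ SuppIn d (Allowed (X.w k)) γ ∧
        nrm γ ≤ X.x k ^ (5 * (d - 1)) ∧
        JEq d (comp (triMap (X.D k) γ) (pid + η))
          (comp (ofMat (X.Ji k)) (comp (pid + η') (comp (ofMat (X.J k)) (X.Fh k))))) (j : ℕ) :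
    ∀ k₀, ∃ η γ : ℕ → PMap n, (∀ k, hmxGood X k (η k)) ∧
      ∀ k, k₀ ≤ k → k < k₀ + j → X.reg k → SuppIn d (Allowed (X.w k)) (γ k) ∧
        nrm (γ k) ≤ X.x k ^ (5 * (d - 1)) ∧
        JEq d (comp (triMap (X.D k) (γ k)) (pid + η k))
          (comp (ofMat (X.Ji k)) (comp (pid + η (k + 1)) (comp (ofMat (X.J k)) (X.Fh k)))) := by
  induction j with
  | zero =>
    intro k₀
    exact ⟨fun _ => 0, fun _ => 0, fun k => hmx_good_zero X k, fun k h1 h2 => by omega⟩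
  | succ j ih =>
    intro k₀
    obtain ⟨η, γ, hG, hR⟩ := ih (k₀ + 1)
    by_cases hk : X.reg k₀
    · obtain ⟨γ₀, η₀, hG₀, hS₀, hn₀, hrel₀⟩ := hstep k₀ hk (η (k₀ + 1)) (hG (k₀ + 1))
      refine ⟨Function.update η k₀ η₀, Function.update γ k₀ γ₀, ?_, ?_⟩
      · intro k
        by_cases h : k = k₀
        · subst h; rw [Function.update_self]; exact hG₀
        · rw [Function.update_of_ne h]; exact hG k
      · intro k h1 h2 hreg
        by_cases h : k = k₀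
        · subst h
          rw [Function.update_self, Function.update_self, Function.update_of_ne (by omega)]
          exact ⟨hS₀, hn₀, hrel₀⟩
        · rw [Function.update_of_ne h, Function.update_of_ne h, Function.update_of_ne (by omega)]
          exact hR k (by omega) (by omega) hreg
    · refine ⟨η, γ, hG, fun k h1 h2 hreg => ?_⟩
      have h : k ≠ k₀ := fun h => hk (h ▸ hreg)
      exact hR k (by omega) (by omega) hreg

theorem hmx_supp_lim {ι : Type*} {𝓕 : Filter ι} [𝓕.NeBot] {d : ℕ}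
    {S : Fin n → (Fin n →₀ ℕ) → Prop} {P : ι → PMap n} {Q : PMap n} (h : CTm 𝓕 P Q)
    (hS : ∀ᶠ K in 𝓕, SuppIn d S (P K)) : SuppIn d S Q := by
  intro i m hm
  by_contra hcon
  apply hm
  apply (h i).coeff_eq_zero m
  refine hS.mono fun K hK => ?_
  by_contra hne
  exact hcon (hK i m hne)

theorem hmx_plin_pid_add {η : PMap n} (h : ∀ i, OrdGe 2 (η i)) : plin (pid + η) = 1 := by
  rw [← plin_pid]
  ext i j
  simp only [plin, Pi.add_apply, coeff_add]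
  rw [h i _ (by simp), add_zero]

theorem hmx_pdeg_pid_add {d : ℕ} (hd : 1 ≤ d) {η : PMap n} (h : pdeg η ≤ d) :
    pdeg (pid + η) ≤ d :=
  pdeg_le_iff.mpr fun i => (totalDegree_add _ _).trans
    (max_le (((totalDegree_le_pdeg pid i).trans pdeg_pid_le).trans hd)
      ((totalDegree_le_pdeg η i).trans h))

theorem hmx_pdeg_triMap {d : ℕ} (hd : 1 ≤ d) (D : Fin n → ℂ) {γ : PMap n} (h : pdeg γ ≤ d) :
    pdeg (triMap D γ) ≤ d := by
  rw [hmx_triMap_eq]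
  exact pdeg_le_iff.mpr fun i => (totalDegree_add _ _).trans
    (max_le (((totalDegree_le_pdeg _ i).trans (pdeg_ofMat_le _)).trans hd)
      ((totalDegree_le_pdeg γ i).trans h))

/-- **HOM (main)**: solution of the homological equations along the whole grid. -/
theorem hom_main (n d : ℕ) (hd : 2 ≤ d) : ∃ a : ℕ, ∀ X : HomData n d,
    (∀ k, X.reg k → (X.y k * X.ρ) ^ a ≤ X.x k ∧ X.κ k * (X.y k * X.ρ) ^ a ≤ 1) →
    ∃ h γ : ℕ → PMap n, ∀ k,
      Fix0 (h k) ∧ plin (h k) = 1 ∧ pdeg (h k) ≤ d ∧ ptr (d - 1) (jdet (h k)) = 1 ∧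
      (¬ X.reg k → h k = pid) ∧
      (X.reg k → nrm (h k) ≤ X.x k ^ a ∧ nrm (γ k) ≤ X.x k ^ a ∧
        SuppIn d (Allowed (X.w k)) (γ k) ∧
        JEq d (comp (triMap (X.D k) (γ k)) (h k))
          (comp (ofMat (X.Ji k)) (comp (h (k + 1)) (comp (ofMat (X.J k)) (X.Fh k))))) := by
  obtain ⟨a, ha, H⟩ := hmx_back n d hd
  refine ⟨a, fun X hX => ?_⟩
  obtain ⟨hx2, hstep⟩ := H X hX
  have hor := fun K => hmx_horizon X hstep K 0
  choose ηK γK hG hR using hor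
  set 𝒰 : Ultrafilter ℕ := Filter.hyperfilter ℕ with h𝒰
  have hev : ∀ k, ∀ᶠ K in (𝒰 : Filter ℕ), k < K := fun k =>
    (Filter.eventually_gt_atTop k).filter_mono Nat.hyperfilter_le_atTop
  have hηb : ∀ k K, X.reg k → nrm (ηK K k) ≤ X.x k ^ (5 * (d - 1)) := by
    intro k K hk
    have hx1 : 1 ≤ X.x k := by have := hx2 k hk; linarith
    have hx5 : 1 ≤ X.x k ^ 5 := one_le_pow₀ hx1
    refine (hmx_nrm_le_of_scl hx5 (hmx_supp_fix0 (hG K k).1) (hmx_supp_pdeg (hG K k).1)).trans ?_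
    rw [← pow_mul]
    have h1 : (X.x k ^ 2)⁻¹ ≤ 1 := inv_le_one_of_one_le₀ (one_le_pow₀ hx1)
    calc X.x k ^ (5 * (d - 1)) * nrm (scl (((X.x k ^ 5)⁻¹ : ℝ) : ℂ) (ηK K k))
        ≤ X.x k ^ (5 * (d - 1)) * 1 :=
          mul_le_mul_of_nonneg_left (((hG K k).2.2.2 hk).trans h1) (by positivity)
      _ = _ := mul_one _
  have hηlim : ∀ k, ∃ η : PMap n, CTm (𝒰 : Filter ℕ) (fun K => ηK K k) η := by
    intro k
    by_cases hk : X.reg k
    · exact exists_CTm 𝒰 _ d (X.x k ^ (5 * (d - 1)))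
        (Filter.Eventually.of_forall fun K => hmx_supp_pdeg (hG K k).1)
        (Filter.Eventually.of_forall fun K => hηb k K hk)
    · exact ⟨0, (CTm.const 0).congr'
        (Filter.Eventually.of_forall fun K => ((hG K k).2.2.1 hk).symm)⟩
  choose η hη using hηlim
  have hγlim : ∀ k, ∃ γ : PMap n, X.reg k → CTm (𝒰 : Filter ℕ) (fun K => γK K k) γ := by
    intro k
    by_cases hk : X.reg k
    · obtain ⟨g, hg⟩ := exists_CTm 𝒰 (fun K => γK K k) d (X.x k ^ (5 * (d - 1)))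
        ((hev k).mono fun K hK => hmx_supp_pdeg (hR K k (Nat.zero_le k) (by omega) hk).1)
        ((hev k).mono fun K hK => (hR K k (Nat.zero_le k) (by omega) hk).2.1)
      exact ⟨g, fun _ => hg⟩
    · exact ⟨0, fun h => absurd h hk⟩
  choose γ hγ using hγlim
  have hSη : ∀ k, SuppIn d (fun _ _ => True) (η k) := fun k =>
    hmx_supp_lim (hη k) (Filter.Eventually.of_forall fun K => (hG K k).1)
  have hh : ∀ k, CTm (𝒰 : Filter ℕ) (fun K => pid + ηK K k) (pid + η k) := fun k i =>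
    (CT.const _).add (hη k i)
  refine ⟨fun k => pid + η k, γ, fun k => ⟨hmx_fix0_pid_add (hmx_supp_fix0 (hSη k)),
    hmx_plin_pid_add (hmx_supp_ordGe (hSη k)), hmx_pdeg_pid_add (by omega) (hmx_supp_pdeg (hSη k)),
    ?_, ?_, ?_⟩⟩
  · have c1 := ((hh k).jdet).ptr (d - 1)
    have c2 : CT (𝒰 : Filter ℕ) (fun K => ptr (d - 1) (jdet (pid + ηK K k))) 1 :=
      (CT.const 1).congr' (Filter.Eventually.of_forall fun K => ((hG K k).2.1).symm)
    exact c1.unique c2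
  · intro hk
    have : η k = 0 := (hη k).unique ((CTm.const 0).congr'
        (Filter.Eventually.of_forall fun K => ((hG K k).2.2.1 hk).symm))
    show pid + η k = pid
    rw [this, add_zero]
  · intro hk
    have hx := hx2 k hk
    have hx1 : 1 ≤ X.x k := by linarith
    have hevR := (hev k).mono fun K hK => hR K k (Nat.zero_le k) (by omega) hk
    refine ⟨?_, ?_, ?_, ?_⟩
    · refine (hh k).nrm_le (Filter.Eventually.of_forall fun K => ?_)
      refine (nrm_add_le _ _).trans ?_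
      rw [nrm_pid]
      have h1 : (n : ℝ) ≤ X.x k ^ n := ivj_nat_le_pow hx n
      have h2 : X.x k ^ n ≤ X.x k ^ (n + 5 * (d - 1)) := pow_le_pow_right₀ hx1 (by omega)
      have h3 : X.x k ^ (5 * (d - 1)) ≤ X.x k ^ (n + 5 * (d - 1)) :=
        pow_le_pow_right₀ hx1 (by omega)
      have h4 : X.x k ^ (n + 5 * (d - 1) + 1) ≤ X.x k ^ a := pow_le_pow_right₀ hx1 ha
      have h5 : 2 * X.x k ^ (n + 5 * (d - 1)) ≤ X.x k ^ (n + 5 * (d - 1) + 1) := by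
        rw [pow_succ, mul_comm]
        exact mul_le_mul_of_nonneg_left hx (by positivity)
      have := hηb k K hk
      linarith
    · refine (hγ k hk).nrm_le (hevR.mono fun K hK => hK.2.1.trans ?_)
      exact pow_le_pow_right₀ hx1 (by omega)
    · exact hmx_supp_lim (hγ k hk) (hevR.mono fun K hK => hK.1)
    · have hT : CTm (𝒰 : Filter ℕ) (fun K => triMap (X.D k) (γK K k)) (triMap (X.D k) (γ k)) :=
        fun i => (CT.const _).add (hγ k hk i)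
      have cL := (CTm.comp hT (hh k) (D := d)
        (hevR.mono fun K hK => hmx_pdeg_triMap (by omega) _ (hmx_supp_pdeg hK.1))).ptrunc d
      have cR := (CTm.comp (CTm.const (𝓕 := (𝒰 : Filter ℕ)) (ofMat (X.Ji k)))
        (CTm.comp (hh (k + 1)) (CTm.const (comp (ofMat (X.J k)) (X.Fh k))) (D := d)
          (Filter.Eventually.of_forall fun K =>
            hmx_pdeg_pid_add (by omega) (hmx_supp_pdeg (hG K (k + 1)).1))) (D := 1)
        (Filter.Eventually.of_forall fun _ => pdeg_ofMat_le _)).ptrunc d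
      exact (cL.congr' (hevR.mono fun K hK => hK.2.2)).unique cR

end Claimed.Agent.R316.S9
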