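import Claimed.Agent.R316.Pack028

/-!
# Row 316, Section 9, package JET (6): differences of substitutions, products of truncations

Both `bind₁_sub_ordGe'` and `n1_bind₁_sub_le` follow from `bind₁_eq_sum` and the telescoping identity
`Q^(m + e_i) - Q'^(m + e_i) = (Q^m - Q'^m) Q_i + Q'^m (Q_i - Q'_i)` (induction on the exponent `m`).
-/

set_option autoImplicit false
open MvPolynomial

namespace Claimed.Agent.R316.S9

variable {n : ℕ}

theorem dif_prod_add_single (Q : PMap n) (m : Fin n →₀ ℕ) (i : Fin n) :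
    ∏ j, Q j ^ (m + Finsupp.single i 1 : Fin n →₀ ℕ) j = (∏ j, Q j ^ m j) * Q i := by
  simp only [Finsupp.add_apply, pow_add, Finset.prod_mul_distrib]
  congr 1
  rw [Finset.prod_eq_single i]
  · simp
  · intro j _ hj
    rw [Finsupp.single_eq_of_ne hj, pow_zero]
  · intro h
    exact absurd (Finset.mem_univ i) h

theorem dif_exists_add_single {k : ℕ} {m : Fin n →₀ ℕ} (hm : m.degree = k + 1) :
    ∃ (i : Fin n) (m' : Fin n →₀ ℕ), m = m' + Finsupp.single i 1 ∧ m'.degree = k := by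
  have hne : m ≠ 0 := by
    rintro rfl
    simp at hm
  obtain ⟨i, hi⟩ := DFunLike.ne_iff.1 hne
  have e : m - Finsupp.single i 1 + Finsupp.single i 1 = m := Finsupp.sub_add_single_one_cancel hi
  refine ⟨i, m - Finsupp.single i 1, e.symm, ?_⟩
  have h2 := congrArg Finsupp.degree e
  rw [map_add, Finsupp.degree_single, hm] at h2
  omega

theorem dif_prod_ordGe {Q : PMap n} (hQ : Fix0 Q) (m : Fin n →₀ ℕ) :
    OrdGe m.degree (∏ i, Q i ^ m i) := by
  have h1 : OrdGe (∑ i, 1 * m i) (∏ i, Q i ^ m i) :=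
    OrdGe.prod fun i _ => (ordGe_one_iff.mpr (hQ i)).pow (m i)
  simpa [Finsupp.degree_eq_sum] using h1

theorem dif_prod_sub_ordGe {b : ℕ} {Q Q' : PMap n} (hQ : Fix0 Q) (hQ' : Fix0 Q')
    (h : ∀ i, OrdGe b (Q i - Q' i)) (k : ℕ) :
    ∀ m : Fin n →₀ ℕ, m.degree = k + 1 → OrdGe (k + b) (∏ i, Q i ^ m i - ∏ i, Q' i ^ m i) := by
  induction k with
  | zero =>
    intro m hm
    obtain ⟨i, m', rfl, hm'⟩ := dif_exists_add_single hm
    have h0 : m' = 0 := (Finsupp.degree_eq_zero_iff m').1 hm'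
    subst h0
    rw [dif_prod_add_single, dif_prod_add_single]
    simp only [Finsupp.coe_zero, Pi.zero_apply, pow_zero, Finset.prod_const_one, one_mul, zero_add]
    exact h i
  | succ k ih =>
    intro m hm
    obtain ⟨i, m', rfl, hm'⟩ := dif_exists_add_single hm
    rw [dif_prod_add_single, dif_prod_add_single]
    have e : (∏ j, Q j ^ m' j) * Q i - (∏ j, Q' j ^ m' j) * Q' i
        = (∏ j, Q j ^ m' j - ∏ j, Q' j ^ m' j) * Q i + (∏ j, Q' j ^ m' j) * (Q i - Q' i) := by ring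
    rw [e]
    have h1 := (ih m' hm').mul (ordGe_one_iff.mpr (hQ i))
    have h2 := (dif_prod_ordGe hQ' m').mul (h i)
    rw [hm'] at h2
    exact (h1.mono (by omega)).add (h2.mono (by omega))

/-- DIFF-1: order of a difference of substitutions. -/
theorem bind₁_sub_ordGe' {a b : ℕ} {Q Q' : PMap n} (hQ : Fix0 Q) (hQ' : Fix0 Q')
    (h : ∀ i, OrdGe b (Q i - Q' i)) {f : MP n} (hf : OrdGe (a + 1) f) :
    OrdGe (a + b) (bind₁ Q f - bind₁ Q' f) := by
  rw [bind₁_eq_sum, bind₁_eq_sum, ← Finset.sum_sub_distrib]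
  apply OrdGe.sum
  intro m hm
  rw [← mul_sub]
  apply OrdGe.mul_left
  have hdeg : a + 1 ≤ m.degree := by
    by_contra hlt
    exact (mem_support_iff.mp hm) (hf m (by omega))
  obtain ⟨k, hk⟩ : ∃ k, m.degree = k + 1 := ⟨m.degree - 1, by omega⟩
  exact (dif_prod_sub_ordGe hQ hQ' h k m hk).mono (by omega)

theorem dif_n1_prod_le {B : ℝ} {Q : PMap n} (hQ : ∀ i, n1 (Q i) ≤ B) (m : Fin n →₀ ℕ) :
    n1 (∏ i, Q i ^ m i) ≤ B ^ m.degree :=
  ((n1_prod_le _ _).trans (Finset.prod_le_prod (fun _ _ => n1_nonneg _) fun _ _ => n1_pow_le _ _)).trans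
    (prod_pow_le_pow_degree _ (fun _ => n1_nonneg _) hQ m)

theorem dif_n1_prod_sub_le {B e : ℝ} (hB : 1 ≤ B) {Q Q' : PMap n} (hQ : ∀ i, n1 (Q i) ≤ B)
    (hQ' : ∀ i, n1 (Q' i) ≤ B) (he : ∀ i, n1 (Q i - Q' i) ≤ e) (k : ℕ) :
    ∀ m : Fin n →₀ ℕ, m.degree = k + 1 →
      n1 (∏ i, Q i ^ m i - ∏ i, Q' i ^ m i) ≤ ((k : ℝ) + 1) * B ^ k * e := by
  induction k with
  | zero =>
    intro m hm
    obtain ⟨i, m', rfl, hm'⟩ := dif_exists_add_single hm
    have h0 : m' = 0 := (Finsupp.degree_eq_zero_iff m').1 hm'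
    subst h0
    rw [dif_prod_add_single, dif_prod_add_single]
    simp only [Finsupp.coe_zero, Pi.zero_apply, pow_zero, Finset.prod_const_one, one_mul,
      Nat.cast_zero, zero_add, mul_one]
    exact he i
  | succ k ih =>
    intro m hm
    obtain ⟨i, m', rfl, hm'⟩ := dif_exists_add_single hm
    rw [dif_prod_add_single, dif_prod_add_single]
    have e1 : (∏ j, Q j ^ m' j) * Q i - (∏ j, Q' j ^ m' j) * Q' i
        = (∏ j, Q j ^ m' j - ∏ j, Q' j ^ m' j) * Q i + (∏ j, Q' j ^ m' j) * (Q i - Q' i) := by ring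
    rw [e1]
    have he0 : 0 ≤ e := (n1_nonneg _).trans (he i)
    have hB0 : 0 ≤ B := by linarith
    have h1 : n1 ((∏ j, Q j ^ m' j - ∏ j, Q' j ^ m' j) * Q i) ≤ (((k : ℝ) + 1) * B ^ k * e) * B :=
      (n1_mul_le _ _).trans (mul_le_mul (ih m' hm') (hQ i) (n1_nonneg _) (by positivity))
    have h2 : n1 ((∏ j, Q' j ^ m' j) * (Q i - Q' i)) ≤ B ^ (k + 1) * e := by
      refine (n1_mul_le _ _).trans (mul_le_mul ?_ (he i) (n1_nonneg _) (by positivity))
      rw [← hm']
      exact dif_n1_prod_le hQ' m'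
    refine (n1_add_le _ _).trans ((add_le_add h1 h2).trans (le_of_eq ?_))
    push_cast
    ring

/-- DIFF-2: Lipschitz bound of a substitution. -/
theorem n1_bind₁_sub_le {B e : ℝ} (hB : 1 ≤ B) {Q Q' : PMap n} (hQ : ∀ i, n1 (Q i) ≤ B)
    (hQ' : ∀ i, n1 (Q' i) ≤ B) (he : ∀ i, n1 (Q i - Q' i) ≤ e) (f : MP n) :
    n1 (bind₁ Q f - bind₁ Q' f) ≤ f.totalDegree * n1 f * B ^ (f.totalDegree - 1) * e := by
  have hB0 : 0 ≤ B := by linarith
  have he0 : 0 ≤ (f.totalDegree : ℝ) * e := by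
    rcases isEmpty_or_nonempty (Fin n) with hn | ⟨⟨i⟩⟩
    · rw [MvPolynomial.eq_C_of_isEmpty f, totalDegree_C]
      simp
    · exact mul_nonneg (Nat.cast_nonneg _) ((n1_nonneg _).trans (he i))
  rw [bind₁_eq_sum, bind₁_eq_sum, ← Finset.sum_sub_distrib]
  refine (n1_sum_le _ _).trans ?_
  have hR : (f.totalDegree : ℝ) * n1 f * B ^ (f.totalDegree - 1) * e
      = ∑ m ∈ f.support, ‖coeff m f‖ * ((f.totalDegree : ℝ) * B ^ (f.totalDegree - 1) * e) := by
    rw [← Finset.sum_mul, n1]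
    ring
  rw [hR]
  refine Finset.sum_le_sum fun m hm => ?_
  rw [← mul_sub, n1_C_mul]
  refine mul_le_mul_of_nonneg_left ?_ (norm_nonneg _)
  have hle : m.degree ≤ f.totalDegree := le_totalDegree hm
  rcases Nat.eq_zero_or_pos m.degree with h0 | hpos
  · have hm0 : m = 0 := (Finsupp.degree_eq_zero_iff m).1 h0
    subst hm0
    simp only [Finsupp.coe_zero, Pi.zero_apply, pow_zero, Finset.prod_const_one, sub_self]
    have : n1 (0 : MP n) = 0 := by simp [n1]
    rw [this]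
    calc (0 : ℝ) ≤ ((f.totalDegree : ℝ) * e) * B ^ (f.totalDegree - 1) := by positivity
      _ = _ := by ring
  · obtain ⟨k, hk⟩ : ∃ k, m.degree = k + 1 := ⟨m.degree - 1, by omega⟩
    obtain ⟨i, -, -, -⟩ := dif_exists_add_single hk
    have hee : 0 ≤ e := (n1_nonneg _).trans (he i)
    refine (dif_n1_prod_sub_le hB hQ hQ' he k m hk).trans ?_
    refine mul_le_mul_of_nonneg_right ?_ hee
    have h1 : ((k : ℝ) + 1) ≤ f.totalDegree := by
      have : k + 1 ≤ f.totalDegree := by omega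
      exact_mod_cast this
    exact mul_le_mul h1 (pow_le_pow_right₀ hB (by omega)) (by positivity) (by positivity)

/-- DIFF-3 -/
theorem ptr_mul_ptr (d : ℕ) (f g : MP n) : ptr d (ptr d f * ptr d g) = ptr d (f * g) :=
  ptr_mul_congr (by rw [ptr_ptr, min_self]) (by rw [ptr_ptr, min_self])

/-- DIFF-4 -/
theorem ptr_bind₁_ptr (d : ℕ) {Q : PMap n} (hQ : Fix0 Q) (f : MP n) :
    ptr d (bind₁ Q (ptr d f)) = ptr d (bind₁ Q f) :=
  ptr_bind₁_congr (by rw [ptr_ptr, min_self]) hQ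

/-- DIFF-5: substitution of a diagonal linear map. -/
theorem coeff_bind₁_diag (D : Fin n → ℂ) (f : MP n) (m : Fin n →₀ ℕ) :
    coeff m (bind₁ (fun i => C (D i) * X i) f) = (∏ l, D l ^ m l) * coeff m f := by
  classical
  induction f using MvPolynomial.induction_on' with
  | monomial u a =>
    have e : bind₁ (fun i => C (D i) * X i) (monomial u a) = monomial u (a * ∏ l, D l ^ u l) := by
      rw [bind₁_eq_sum]
      by_cases ha : a = 0
      · simp [ha]
      · rw [support_monomial, if_neg ha, Finset.sum_singleton, coeff_monomial, if_pos rfl]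
        simp only [mul_pow, Finset.prod_mul_distrib, ← map_pow, ← map_prod]
        rw [← mul_assoc, ← map_mul, monomial_eq, Finsupp.prod_fintype _ _ (fun i => pow_zero _)]
    rw [e, coeff_monomial, coeff_monomial]
    split_ifs with h
    · subst h; ring
    · simp
  | add p q hp hq =>
    rw [map_add, coeff_add, coeff_add, hp, hq]
    ring

end Claimed.Agent.R316.S9
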