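import Claimed.Agent.R316.Pack028
import Claimed.Agent.R316.S9.Diff

/-!
# Row 316, Section 9, package SHEAR: realization of constant-volume jets (Lemma 9.2)

ROUTE (explicit, replaces the duality proof of the paper):

* POLAR   : polarization identity in a commutative ring,
  `p! ∏_{a<p} y a = ∑_{S ⊆ Fin p} (-1)^(p - card S) (∑_{a ∈ S} y a)^p`.
* POWSPAN : hence every monomial of degree `p` is `(1/p!) ∑ ± (linear form)^p`.
* KOSZUL  : for `X` homogeneous of degree `m` with `div X = 0`: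
  `(n + m - 1) X_i = ∑_j ∂_j (z_j X_i - z_i X_j)`   (Euler: `IsHomogeneous.sum_X_mul_pderiv`).
* so `X` is a combination, with explicitly bounded coefficients and a number of terms depending only
  on `n, m`, of the fields `∂_j (l^(m+1)) e_i - ∂_i (l^(m+1)) e_j = (m+1) l^m (l_j e_i - l_i e_j)`,
  which are shear fields `l^m v`, `l(v) = 0`.
* SHEARMAP: `z ↦ z + c l(z)^m v` with `l(v) = 0` is an automorphism with inverse `z - c l^m v`, `jdet = 1`.
* DISCR   : if `G` (`jdet G = 1`, tangent to the identity) agrees with a constant volume jet `P` through degree `m - 1`,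
  the homogeneous part of degree `m` of `P - G` is divergence free.
* induction on `m = 2..d`, then compose with the linear part.
-/

set_option autoImplicit false
open MvPolynomial

namespace Claimed.Agent.R316.S9

variable {n : ℕ}


/-- divergence of a polynomial vector field. -/
noncomputable def pdiv (X : PMap n) : MP n := ∑ i, pderiv i (X i)

/-- the linear form with coefficients `l`. -/
noncomputable def lform (l : Fin n → ℂ) : MP n := ∑ j, C (l j) * X j

/-- the shear `z + c l(z)^m v`. -/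
noncomputable def shearMap (l v : Fin n → ℂ) (m : ℕ) (c : ℂ) : PMap n :=
  fun i => X i + C (c * v i) * lform l ^ m

theorem bind₁_lform (Q : PMap n) (l : Fin n → ℂ) : bind₁ Q (lform l) = ∑ j, C (l j) * Q j := by
  simp [lform]

theorem pderiv_lform (l : Fin n → ℂ) (t : Fin n) : pderiv t (lform l) = C (l t) := by
  classical
  simp only [lform, map_sum, pderiv_C_mul, pderiv_X, Pi.single_apply]
  rw [Finset.sum_eq_single t]
  · simp
  · intro j _ hj
    simp [hj]
  · intro h
    exact absurd (Finset.mem_univ t) h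

theorem pderiv_lform_pow (l : Fin n → ℂ) (t : Fin n) (p : ℕ) :
    pderiv t (lform l ^ p) = C ((p : ℂ) * l t) * lform l ^ (p - 1) := by
  rw [pderiv_pow, pderiv_lform, map_mul, map_natCast]
  ring

theorem comp_shearMap_apply (l v : Fin n → ℂ) (m : ℕ) (c : ℂ) (Q : PMap n) (i : Fin n) :
    comp (shearMap l v m c) Q i = Q i + C (c * v i) * (∑ j, C (l j) * Q j) ^ m := by
  simp only [comp, shearMap, map_add, map_mul, map_pow, bind₁_X_right, bind₁_C_right, bind₁_lform]

theorem lform_shearMap (l v : Fin n → ℂ) (m : ℕ) (c : ℂ) (hlv : ∑ j, l j * v j = 0) :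
    ∑ j, C (l j) * shearMap l v m c j = lform l := by
  simp only [shearMap, mul_add, Finset.sum_add_distrib]
  have : ∑ j, C (l j) * (C (c * v j) * lform l ^ m) = C (c * ∑ j, l j * v j) * lform l ^ m := by
    rw [Finset.mul_sum, map_sum, Finset.sum_mul]
    apply Finset.sum_congr rfl
    intro j _
    rw [← mul_assoc, ← map_mul]
    congr 2
    ring
  rw [this, hlv, mul_zero, map_zero, zero_mul, add_zero]
  rfl

/-- SH-MAP: shears are volume preserving automorphisms. -/
theorem shearMap_spec (l v : Fin n → ℂ) (m : ℕ) (c : ℂ) (hlv : ∑ j, l j * v j = 0) :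
    comp (shearMap l v m c) (shearMap l v m (-c)) = pid ∧ jdet (shearMap l v m c) = 1 := by
  classical
  constructor
  · funext i
    rw [comp_shearMap_apply, lform_shearMap l v m (-c) hlv]
    simp only [shearMap, pid, neg_mul, map_neg]
    ring
  · obtain ⟨u, hu⟩ : ∃ u : Fin n → MP n, u = fun i => C (c * v i) * (C (m : ℂ) * lform l ^ (m - 1)) :=
      ⟨_, rfl⟩
    obtain ⟨w, hw⟩ : ∃ w : Fin n → MP n, w = fun j => C (l j) := ⟨_, rfl⟩
    have hj : jmat (shearMap l v m c)
        = 1 + (Matrix.replicateCol Unit u : Matrix (Fin n) Unit (MP n))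
          * (Matrix.replicateRow Unit w : Matrix Unit (Fin n) (MP n)) := by
      refine Matrix.ext fun i j => ?_
      rw [Matrix.add_apply, Matrix.mul_apply, Finset.univ_unique, Finset.sum_singleton,
        Matrix.replicateCol_apply, Matrix.replicateRow_apply, hu, hw, Matrix.one_apply]
      simp only [jmat, shearMap, map_add, pderiv_X, pderiv_C_mul, pderiv_lform_pow,
        Pi.single_apply]
      rw [map_mul (C : ℂ →+* MP n) (m : ℂ) (l j)]
      ring
    rw [jdet, hj, Matrix.det_one_add_replicateCol_mul_replicateRow]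
    have : w ⬝ᵥ u = C (c * ∑ j, l j * v j) * (C (m : ℂ) * lform l ^ (m - 1)) := by
      simp only [dotProduct, hu, hw]
      rw [Finset.mul_sum, map_sum, Finset.sum_mul]
      apply Finset.sum_congr rfl
      intro j _
      rw [← mul_assoc, ← map_mul]
      congr 2
      ring
    rw [this, hlv, mul_zero, map_zero, zero_mul, add_zero]



theorem polar_inner (p : ℕ) (f : Fin p → Fin p) :
    (∑ S : Finset (Fin p), if (∀ i, f i ∈ S) then (-1 : ℤ) ^ (p - S.card) else 0)
      = if Function.Surjective f then 1 else 0 := by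
  classical
  have h1 : (∑ S : Finset (Fin p), if (∀ i, f i ∈ S) then (-1 : ℤ) ^ (p - S.card) else 0)
      = ∑ U : Finset (Fin p), if (∀ i, f i ∈ Uᶜ) then (-1 : ℤ) ^ (p - (Uᶜ).card) else 0 :=
    (Equiv.sum_comp ((compl_involutive : Function.Involutive
      (compl : Finset (Fin p) → Finset (Fin p))).toPerm _)
      (fun S : Finset (Fin p) => if (∀ i, f i ∈ S) then (-1 : ℤ) ^ (p - S.card) else 0)).symm
  rw [h1]
  have h2 : ∀ U : Finset (Fin p), (if (∀ i, f i ∈ Uᶜ) then (-1 : ℤ) ^ (p - (Uᶜ).card) else 0)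
      = if U ∈ ((Finset.univ.image f)ᶜ).powerset then (-1 : ℤ) ^ U.card else 0 := by
    intro U
    have hc : p - (Uᶜ).card = U.card := by
      have := Finset.card_le_univ U
      rw [Finset.card_compl, Fintype.card_fin] at *
      omega
    have hiff : (∀ i, f i ∈ Uᶜ) ↔ U ∈ ((Finset.univ.image f)ᶜ).powerset := by
      rw [Finset.mem_powerset]
      constructor
      · intro h x hx
        rw [Finset.mem_compl, Finset.mem_image]
        rintro ⟨i, -, rfl⟩
        exact (Finset.mem_compl.1 (h i)) hx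
      · intro h i
        rw [Finset.mem_compl]
        intro hi
        exact (Finset.mem_compl.1 (h hi)) (Finset.mem_image_of_mem f (Finset.mem_univ i))
    rw [hc]
    by_cases hh : ∀ i, f i ∈ Uᶜ
    · rw [if_pos hh, if_pos (hiff.1 hh)]
    · rw [if_neg hh, if_neg (fun h' => hh (hiff.2 h'))]
  simp_rw [h2]
  rw [Finset.sum_ite_mem, Finset.univ_inter, Finset.sum_powerset_neg_one_pow_card]
  have h3 : ((Finset.univ.image f)ᶜ = ∅) ↔ Function.Surjective f := by
    rw [Finset.compl_eq_empty_iff, Finset.eq_univ_iff_forall]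
    constructor
    · intro h x
      obtain ⟨i, -, hi⟩ := Finset.mem_image.1 (h x)
      exact ⟨i, hi⟩
    · intro h x
      obtain ⟨i, hi⟩ := h x
      exact Finset.mem_image.2 ⟨i, Finset.mem_univ _, hi⟩
  by_cases hs : Function.Surjective f
  · rw [if_pos hs, if_pos (h3.2 hs)]
  · rw [if_neg hs, if_neg (fun h' => hs (h3.1 h'))]

/-- SH-POLAR: polarization identity. -/
theorem polarization {R : Type*} [CommRing R] (p : ℕ) (y : Fin p → R) :
    (p.factorial : R) * ∏ a, y a =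
      ∑ S : Finset (Fin p), (-1) ^ (p - S.card) * (∑ a ∈ S, y a) ^ p := by
  classical
  have hpow : ∀ S : Finset (Fin p), (∑ a ∈ S, y a) ^ p
      = ∑ f : Fin p → Fin p, if (∀ i, f i ∈ S) then ∏ i, y (f i) else 0 := by
    intro S
    have e : (∑ a ∈ S, y a) ^ p = ∏ _i : Fin p, ∑ a ∈ S, y a := by simp
    rw [e, Finset.prod_univ_sum, ← Finset.sum_filter]
    apply Finset.sum_congr _ fun _ _ => rfl
    ext f
    simp [Fintype.mem_piFinset]
  simp_rw [hpow, Finset.mul_sum]
  rw [Finset.sum_comm]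
  have hin : ∀ f : Fin p → Fin p,
      ∑ S : Finset (Fin p), (-1 : R) ^ (p - S.card) * (if (∀ i, f i ∈ S) then ∏ i, y (f i) else 0)
        = (if Function.Surjective f then 1 else 0) * ∏ i, y (f i) := by
    intro f
    have h := congrArg (Int.cast : ℤ → R) (polar_inner p f)
    rw [Int.cast_sum] at h
    have h' : ((if Function.Surjective f then (1 : ℤ) else 0 : ℤ) : R)
        = if Function.Surjective f then 1 else 0 := by split_ifs <;> simp
    rw [h'] at h
    rw [← h, Finset.sum_mul]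
    apply Finset.sum_congr rfl
    intro S _
    split_ifs <;> simp
  simp_rw [hin, ite_mul, one_mul, zero_mul]
  rw [← Finset.sum_filter]
  have hb : ∑ f ∈ Finset.univ.filter (fun f : Fin p → Fin p => Function.Surjective f),
      ∏ i, y (f i) = ∑ σ : Equiv.Perm (Fin p), ∏ i, y (σ i) := by
    symm
    apply Finset.sum_bij (fun (σ : Equiv.Perm (Fin p)) _ => (σ : Fin p → Fin p))
    · intro σ _
      simp [σ.surjective]
    · intro σ _ σ' _ h
      exact Equiv.coe_fn_injective h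
    · intro f hf
      have hs : Function.Surjective f := (Finset.mem_filter.1 hf).2
      exact ⟨Equiv.ofBijective f (Finite.surjective_iff_bijective.1 hs), Finset.mem_univ _, rfl⟩
    · intro σ _
      rfl
  rw [hb]
  simp_rw [Equiv.prod_comp]
  rw [Finset.sum_const, Finset.card_univ, Fintype.card_perm, Fintype.card_fin, nsmul_eq_mul]



/-- first order expansion of a determinant, one column. -/
theorem det_updateCol_sub_mem {R : Type*} [CommRing R] (I₁ J K : Ideal R)
    (hJK : ∀ a ∈ I₁, ∀ b ∈ J, a * b ∈ K) (M : Matrix (Fin n) (Fin n) R)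
    (hM : ∀ i j, M i j - (1 : Matrix (Fin n) (Fin n) R) i j ∈ I₁) (b : Fin n → R)
    (hb : ∀ i, b i ∈ J) (k : Fin n) : (M.updateCol k b).det - b k ∈ K := by
  classical
  rw [← Matrix.cramer_apply, Matrix.cramer_eq_adjugate_mulVec]
  have hadj : ∀ i, M.adjugate k i - (1 : Matrix (Fin n) (Fin n) R) k i ∈ I₁ := by
    intro i
    rw [← Ideal.Quotient.eq]
    have h1 : (Ideal.Quotient.mk I₁).mapMatrix M = 1 := by
      refine Matrix.ext fun a b => ?_
      have := (Ideal.Quotient.eq (I := I₁)).2 (hM a b)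
      rw [RingHom.mapMatrix_apply, Matrix.map_apply, this, Matrix.one_apply, Matrix.one_apply]
      split_ifs <;> simp
    have h2 := RingHom.map_adjugate (Ideal.Quotient.mk I₁) M
    rw [h1, Matrix.adjugate_one] at h2
    have h3 := congrFun (congrFun h2 k) i
    rw [RingHom.mapMatrix_apply, Matrix.map_apply] at h3
    rw [h3, Matrix.one_apply, Matrix.one_apply]
    split_ifs <;> simp
  have e : (M.adjugate.mulVec b) k - b k
      = ∑ i, (M.adjugate k i - (1 : Matrix (Fin n) (Fin n) R) k i) * b i := by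
    simp only [Matrix.mulVec, dotProduct, sub_mul, Finset.sum_sub_distrib, Matrix.one_apply,
      ite_mul, one_mul, zero_mul, Finset.sum_ite_eq, Finset.mem_univ, if_true]
  rw [e]
  exact Ideal.sum_mem _ fun i _ => hJK _ (hadj i) _ (hb i)

/-- first order expansion of a determinant near the identity. -/
theorem det_add_sub_trace_mem {R : Type*} [CommRing R] (I₁ J K : Ideal R)
    (hJK : ∀ a ∈ I₁, ∀ b ∈ J, a * b ∈ K) (hJI : J ≤ I₁) (B E : Matrix (Fin n) (Fin n) R)
    (hB : ∀ i j, B i j - (1 : Matrix (Fin n) (Fin n) R) i j ∈ I₁) (hE : ∀ i j, E i j ∈ J) :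
    (B + E).det - B.det - ∑ k, E k k ∈ K := by
  classical
  have key : ∀ T : Finset (Fin n),
      (Matrix.of fun i j => B i j + if j ∈ T then E i j else 0).det - B.det - ∑ k ∈ T, E k k ∈ K := by
    intro T
    induction T using Finset.induction_on with
    | empty =>
      have : (Matrix.of fun i j => B i j + if j ∈ (∅ : Finset (Fin n)) then E i j else 0) = B := by
        refine Matrix.ext fun i j => ?_
        simp
      rw [this]
      simp
    | insert k T hk ih =>
      obtain ⟨M, hMdef⟩ : ∃ M : Matrix (Fin n) (Fin n) R,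
          M = Matrix.of fun i j => B i j + if j ∈ T then E i j else 0 := ⟨_, rfl⟩
      rw [← hMdef] at ih
      have h1 : (Matrix.of fun i j => B i j + if j ∈ insert k T then E i j else 0)
          = M.updateCol k ((fun i => M i k) + fun i => E i k) := by
        refine Matrix.ext fun i j => ?_
        rw [Matrix.updateCol_apply, hMdef]
        by_cases hj : j = k
        · subst hj
          simp [hk]
        · simp [hj]
      rw [h1, Matrix.det_updateCol_add, Matrix.updateCol_eq_self, Finset.sum_insert hk]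
      have hM1 : ∀ i j, M i j - (1 : Matrix (Fin n) (Fin n) R) i j ∈ I₁ := by
        intro i j
        rw [hMdef, Matrix.of_apply]
        have : B i j + (if j ∈ T then E i j else 0) - (1 : Matrix (Fin n) (Fin n) R) i j
            = (B i j - (1 : Matrix (Fin n) (Fin n) R) i j) + if j ∈ T then E i j else 0 := by ring
        rw [this]
        refine I₁.add_mem (hB i j) ?_
        split_ifs
        · exact hJI (hE i j)
        · exact I₁.zero_mem
      have h2 := det_updateCol_sub_mem I₁ J K hJK M hM1 (fun i => E i k) (fun i => hE i k) k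
      have : M.det + (M.updateCol k fun i => E i k).det - B.det - (E k k + ∑ x ∈ T, E x x)
          = (M.det - B.det - ∑ x ∈ T, E x x) + ((M.updateCol k fun i => E i k).det - E k k) := by
        ring
      rw [this]
      exact K.add_mem ih h2
  have h := key Finset.univ
  have e : (Matrix.of fun i j => B i j + if j ∈ (Finset.univ : Finset (Fin n)) then E i j else 0)
      = B + E := by
    refine Matrix.ext fun i j => ?_
    simp
  rwa [e] at h


theorem pderiv_homogeneousComponent (i : Fin n) (k : ℕ) (f : MP n) :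
    pderiv i (homogeneousComponent (k + 1) f) = homogeneousComponent k (pderiv i f) := by
  ext μ
  rw [coeff_pderiv, coeff_homogeneousComponent, coeff_homogeneousComponent, coeff_pderiv, map_add,
    Finsupp.degree_single]
  by_cases h : μ.degree = k
  · rw [if_pos h, if_pos (by omega)]
  · rw [if_neg h, if_neg (by omega), zero_mul]

theorem homogeneousComponent_eq_zero_of_ordGe {k m : ℕ} (hk : k < m) {f : MP n} (hf : OrdGe m f) :
    homogeneousComponent k f = 0 := by
  ext μ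
  rw [coeff_homogeneousComponent, coeff_zero]
  split_ifs with h
  · exact hf μ (by omega)
  · rfl

theorem jmat_sub_one_mem (G : PMap n) (hG : plin G = 1) (i j : Fin n) :
    jmat G i j - (1 : Matrix (Fin n) (Fin n) (MP n)) i j ∈ ordIdeal n 1 := by
  rw [mem_ordIdeal, ordGe_one_iff, coeff_sub]
  have h1 : coeff 0 (jmat G i j) = plin G i j := by
    simp only [jmat, plin]
    rw [coeff_pderiv]
    simp
  rw [h1, hG, Matrix.one_apply, Matrix.one_apply]
  split_ifs <;> simp

/-- SH-DISCR: the first discrepancy between two jets of constant volume one is divergence free. -/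
theorem discrepancy_div_free {m : ℕ} (hm : 2 ≤ m) (P G : PMap n) (hPG : JEq (m - 1) P G)
    (hlin : plin P = 1) (hP0 : Fix0 P)
    (hP : ptr (m - 1) (jdet P) = 1) (hG : ptr (m - 1) (jdet G) = 1) :
    pdiv (fun i => homogeneousComponent m (P i - G i)) = 0 := by
  obtain ⟨k, rfl⟩ : ∃ k, m = k + 2 := ⟨m - 2, by omega⟩
  have hk : k + 2 - 1 = k + 1 := by omega
  rw [hk] at hPG hP hG
  have hlinG : plin G = 1 := by rw [← hPG.plin (by omega), hlin]
  have hY : ∀ i, OrdGe (k + 2) (P i - G i) := jeq_iff.mp hPG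
  have hE : ∀ i j, (jmat P - jmat G) i j ∈ ordIdeal n (k + 1) := by
    intro i j
    rw [mem_ordIdeal, Matrix.sub_apply]
    simp only [jmat]
    rw [← map_sub]
    exact (hY i).pderiv j
  have h1 := det_add_sub_trace_mem (ordIdeal n 1) (ordIdeal n (k + 1)) (ordIdeal n (k + 2))
    (fun a ha b hb => by
      rw [mem_ordIdeal] at ha hb ⊢
      exact (ha.mul hb).mono (by omega))
    (fun a ha => by
      rw [mem_ordIdeal] at ha ⊢
      exact ha.mono (by omega))
    (jmat G) (jmat P - jmat G) (jmat_sub_one_mem G hlinG) hE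
  rw [add_sub_cancel] at h1
  have h2 : jdet P - jdet G ∈ ordIdeal n (k + 2) := by
    rw [mem_ordIdeal]
    exact ptr_eq_iff.mp (hP.trans hG.symm)
  have h3 : ∑ i, (jmat P - jmat G) i i ∈ ordIdeal n (k + 2) := by
    have := (ordIdeal n (k + 2)).sub_mem h2 h1
    simp only [jdet] at this
    rwa [sub_sub_cancel] at this
  rw [mem_ordIdeal] at h3
  have h4 := homogeneousComponent_eq_zero_of_ordGe (k := k + 1) (by omega) h3
  rw [map_sum] at h4
  rw [pdiv, ← h4]
  apply Finset.sum_congr rfl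
  intro i _
  rw [pderiv_homogeneousComponent, Matrix.sub_apply]
  simp only [jmat]
  rw [map_sub]

/-- REP: a homogeneous polynomial of degree `p` is a bounded combination of products of `p` variables. -/
theorem exists_rep (p : ℕ) : ∀ W : MP n, W.IsHomogeneous p →
    ∃ w : (Fin p → Fin n) → ℂ, W = ∑ k, C (w k) * ∏ b, X (k b) ∧ ∀ k, ‖w k‖ ≤ n1 W := by
  induction p with
  | zero =>
    intro W hW
    refine ⟨fun _ => coeff 0 W, ?_, fun _ => norm_coeff_le_n1 W 0⟩
    have h0 : W.totalDegree = 0 := Nat.le_zero.1 hW.totalDegree_le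
    rw [Fintype.sum_unique]
    simp only [Finset.univ_eq_empty, Finset.prod_empty, mul_one]
    exact totalDegree_eq_zero_iff_eq_C.1 h0
  | succ p ih =>
    intro W hW
    have hd : ∀ j, (pderiv j W).IsHomogeneous p := fun j => by
      have := hW.pderiv (i := j)
      simpa using this
    choose w hw hwb using fun j => ih (pderiv j W) (hd j)
    have hp : ((p : ℂ) + 1) ≠ 0 := by
      have : ((p + 1 : ℕ) : ℂ) ≠ 0 := Nat.cast_ne_zero.2 (Nat.succ_ne_zero p)
      simpa using this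
    refine ⟨fun k => w (k 0) (Fin.tail k) / ((p : ℂ) + 1), ?_, ?_⟩
    · have hE := hW.sum_X_mul_pderiv
      have h1 : C ((p : ℂ) + 1) * W = ∑ j, X j * pderiv j W := by
        rw [hE, nsmul_eq_mul]
        simp
      have h2 : C ((p : ℂ) + 1) * ∑ k : Fin (p + 1) → Fin n,
          C (w (k 0) (Fin.tail k) / ((p : ℂ) + 1)) * ∏ b, X (k b) = ∑ j, X j * pderiv j W := by
        rw [← Equiv.sum_comp (Fin.consEquiv fun _ => Fin n), Fintype.sum_prod_type, Finset.mul_sum]
        apply Finset.sum_congr rfl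
        intro j _
        conv_rhs => rw [hw j]
        rw [Finset.mul_sum, Finset.mul_sum]
        apply Finset.sum_congr rfl
        intro k _
        have hc : (Fin.consEquiv fun _ : Fin (p + 1) => Fin n) (j, k)
            = (Fin.cons j k : Fin (p + 1) → Fin n) := rfl
        rw [hc]
        simp only [Fin.cons_zero, Fin.tail_cons, Fin.prod_univ_succ, Fin.cons_succ]
        rw [← mul_assoc, ← map_mul, mul_div_cancel₀ _ hp]
        ring
      have hC : (C ((p : ℂ) + 1) : MP n) ≠ 0 := by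
        rw [Ne, C_eq_zero]
        exact hp
      exact mul_left_cancel₀ hC (h1.trans h2.symm)
    · intro k
      rw [norm_div]
      have hn : ‖(p : ℂ) + 1‖ = (p : ℝ) + 1 := by
        have : ((p : ℂ) + 1) = ((p + 1 : ℕ) : ℂ) := by push_cast; ring
        rw [this, Complex.norm_natCast]
        push_cast; ring
      rw [hn, div_le_iff₀ (by positivity)]
      calc ‖w (k 0) (Fin.tail k)‖ ≤ n1 (pderiv (k 0) W) := hwb _ _
        _ ≤ W.totalDegree * n1 W := n1_pderiv_le W _
        _ ≤ ((p : ℝ) + 1) * n1 W := by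
            apply mul_le_mul_of_nonneg_right _ (n1_nonneg W)
            have := hW.totalDegree_le
            exact_mod_cast this
        _ = n1 W * ((p : ℝ) + 1) := by ring

/-- the vector of the linear form `∑_{b ∈ S} z_{k b}`. -/
noncomputable def polVec {p : ℕ} (k : Fin p → Fin n) (S : Finset (Fin p)) : Fin n → ℂ :=
  fun t => ∑ b ∈ S, if k b = t then 1 else 0

theorem lform_polVec {p : ℕ} (k : Fin p → Fin n) (S : Finset (Fin p)) :
    lform (polVec k S) = ∑ b ∈ S, X (k b) := by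
  classical
  simp only [lform, polVec, map_sum, Finset.sum_mul]
  rw [Finset.sum_comm]
  apply Finset.sum_congr rfl
  intro b _
  rw [Finset.sum_eq_single (k b)]
  · simp
  · intro t _ ht
    rw [if_neg (Ne.symm ht)]
    simp
  · intro h
    exact absurd (Finset.mem_univ _) h

/-- Stage A: gradients of homogeneous polynomials in terms of powers of linear forms. -/
theorem exists_grad_rep (m : ℕ) (W : MP n) (hW : W.IsHomogeneous (m + 1)) :
    ∃ w : (Fin (m + 1) → Fin n) → ℂ, (∀ k, ‖w k‖ ≤ n1 W) ∧ ∀ t,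
      C (((m + 1).factorial : ℕ) : ℂ) * pderiv t W = ∑ k, ∑ S : Finset (Fin (m + 1)),
        C (w k * (-1) ^ (m + 1 - S.card) * ((m : ℂ) + 1) * polVec k S t) * lform (polVec k S) ^ m := by
  obtain ⟨w, hw, hwb⟩ := exists_rep (m + 1) W hW
  refine ⟨w, hwb, fun t => ?_⟩
  have h1 : C (((m + 1).factorial : ℕ) : ℂ) * W = ∑ k, ∑ S : Finset (Fin (m + 1)),
      C (w k * (-1) ^ (m + 1 - S.card)) * lform (polVec k S) ^ (m + 1) := by
    conv_lhs => rw [hw]
    rw [Finset.mul_sum]
    apply Finset.sum_congr rfl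
    intro k _
    have hpol := polarization (R := MP n) (m + 1) (fun b => X (k b))
    have e : C (((m + 1).factorial : ℕ) : ℂ) * (C (w k) * ∏ b, X (k b))
        = C (w k) * ((((m + 1).factorial : ℕ) : MP n) * ∏ b, X (k b)) := by
      rw [map_natCast]; ring
    rw [e, hpol, Finset.mul_sum]
    apply Finset.sum_congr rfl
    intro S _
    rw [lform_polVec, map_mul, map_pow, map_neg, map_one]
    ring
  have h2 := congrArg (pderiv t) h1
  rw [pderiv_C_mul, map_sum] at h2
  rw [h2]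
  apply Finset.sum_congr rfl
  intro k _
  rw [map_sum]
  apply Finset.sum_congr rfl
  intro S _
  rw [pderiv_C_mul, pderiv_lform_pow, ← mul_assoc, ← map_mul, Nat.add_sub_cancel]
  congr 2
  push_cast
  ring

/-- the Koszul potential `z_j Y_i - z_i Y_j`. -/
noncomputable def kosz (Y : PMap n) (i j : Fin n) : MP n := X j * Y i - X i * Y j

theorem kosz_homog {m : ℕ} (Y : PMap n) (hY : ∀ i, (Y i).IsHomogeneous m) (i j : Fin n) :
    (kosz Y i j).IsHomogeneous (m + 1) := by
  unfold kosz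
  have h1 : ∀ a b : Fin n, (X a * Y b : MP n).IsHomogeneous (m + 1) := fun a b => by
    rw [add_comm]
    exact (isHomogeneous_X ℂ a).mul (hY b)
  exact (h1 j i).sub (h1 i j)

theorem kosz_antisymm (Y : PMap n) (i j : Fin n) : kosz Y j i = - kosz Y i j := by
  unfold kosz; ring

theorem n1_kosz_le (Y : PMap n) (i j : Fin n) : n1 (kosz Y i j) ≤ 2 * nrm Y := by
  unfold kosz
  have h1 : ∀ a b : Fin n, n1 (X a * Y b : MP n) ≤ nrm Y := fun a b =>
    calc n1 (X a * Y b : MP n) ≤ n1 (X a : MP n) * n1 (Y b) := n1_mul_le _ _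
      _ = n1 (Y b) := by rw [n1_X, one_mul]
      _ ≤ nrm Y := n1_le_nrm Y b
  calc n1 (X j * Y i - X i * Y j) ≤ n1 (X j * Y i) + n1 (X i * Y j) := n1_sub_le _ _
    _ ≤ 2 * nrm Y := by linarith [h1 j i, h1 i j]

/-- KOSZUL. -/
theorem koszul {m : ℕ} (Y : PMap n) (hY : ∀ i, (Y i).IsHomogeneous m) (hdiv : pdiv Y = 0)
    (s : Fin n) : ∑ t, pderiv t (kosz Y s t) = C ((n : ℂ) + m - 1) * Y s := by
  classical
  have h1 : ∀ t, pderiv t (kosz Y s t)
      = Y s + X t * pderiv t (Y s) - (if t = s then Y t else 0) - X s * pderiv t (Y t) := by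
    intro t
    unfold kosz
    rw [map_sub, pderiv_mul, pderiv_mul, pderiv_X_self, pderiv_X, Pi.single_apply]
    by_cases h : s = t
    · subst h; simp
    · rw [if_neg h, if_neg (Ne.symm h)]; ring
  simp_rw [h1]
  rw [Finset.sum_sub_distrib, Finset.sum_sub_distrib, Finset.sum_add_distrib, Finset.sum_const,
    Finset.card_univ, Fintype.card_fin, (hY s).sum_X_mul_pderiv, Finset.sum_ite_eq' , ← Finset.mul_sum]
  have : ∑ t, pderiv t (Y t) = 0 := hdiv
  rw [this, if_pos (Finset.mem_univ s), nsmul_eq_mul, nsmul_eq_mul, map_sub, map_add, map_natCast,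
    map_natCast, map_one]
  ring

/-- index set of the shear fields. -/
abbrev SpIdx (n m : ℕ) := Fin n × Fin n × (Fin (m + 1) → Fin n) × Finset (Fin (m + 1))

/-- linear form of a shear field. -/
noncomputable def spL {m : ℕ} (a : SpIdx n m) : Fin n → ℂ := polVec a.2.2.1 a.2.2.2

/-- direction of a shear field. -/
noncomputable def spV {m : ℕ} (a : SpIdx n m) : Fin n → ℂ := fun s =>
  (if s = a.1 then spL a a.2.1 else 0) - (if s = a.2.1 then spL a a.1 else 0)

theorem spL_spV {m : ℕ} (a : SpIdx n m) : ∑ j, spL a j * spV a j = 0 := by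
  classical
  simp only [spV, mul_sub, mul_ite, mul_zero, Finset.sum_sub_distrib, Finset.sum_ite_eq',
    Finset.mem_univ, if_true]
  ring

theorem shear_span_aux (m : ℕ) (hm : 2 ≤ m) (Y : PMap n) (hY : ∀ i, (Y i).IsHomogeneous m)
    (hdiv : pdiv Y = 0) : ∃ c : SpIdx n m → ℂ, (∀ a, ‖c a‖ ≤ (2 * ((m : ℝ) + 1)) * nrm Y) ∧
      ∀ s, Y s = ∑ a, C (c a * spV a s) * lform (spL a) ^ m := by
  classical
  choose w hwb hw using fun i j => exists_grad_rep m (kosz Y i j) (kosz_homog Y hY i j)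
  obtain ⟨q, hq⟩ : ∃ q : ℕ, q + 1 = n + m := ⟨n + m - 1, by omega⟩
  have hq1 : 1 ≤ q := by omega
  have hqC : ((n : ℂ) + m - 1) = q := by
    have : ((q + 1 : ℕ) : ℂ) = ((n + m : ℕ) : ℂ) := by rw [hq]
    push_cast at this
    linear_combination -this
  obtain ⟨N, hN⟩ : ∃ N : ℕ, N = (m + 1).factorial * (2 * q) := ⟨_, rfl⟩
  have hN1 : 1 ≤ N := by
    rw [hN]
    exact Nat.mul_pos (Nat.factorial_pos _) (by omega)
  have hN0 : (N : ℂ) ≠ 0 := Nat.cast_ne_zero.2 (by omega)
  refine ⟨fun a => w a.1 a.2.1 a.2.2.1 * (-1) ^ (m + 1 - a.2.2.2.card) * ((m : ℂ) + 1) * (N : ℂ)⁻¹,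
    ?_, ?_⟩
  · intro a
    rw [norm_mul, norm_mul, norm_mul, norm_pow, norm_neg, norm_one, one_pow, mul_one, norm_inv,
      Complex.norm_natCast]
    have h1 : ‖(m : ℂ) + 1‖ = (m : ℝ) + 1 := by
      have : ((m : ℂ) + 1) = ((m + 1 : ℕ) : ℂ) := by push_cast; ring
      rw [this, Complex.norm_natCast]
      push_cast; ring
    rw [h1]
    have h2 : ((N : ℝ))⁻¹ ≤ 1 := inv_le_one_of_one_le₀ (by exact_mod_cast hN1)
    have h3 : ‖w a.1 a.2.1 a.2.2.1‖ ≤ 2 * nrm Y := (hwb _ _ _).trans (n1_kosz_le Y _ _)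
    have h4 : 0 ≤ ((N : ℝ))⁻¹ := by positivity
    calc ‖w a.1 a.2.1 a.2.2.1‖ * ((m : ℝ) + 1) * ((N : ℝ))⁻¹
        ≤ (2 * nrm Y) * ((m : ℝ) + 1) * 1 := by
          apply mul_le_mul _ h2 h4 (by have := nrm_nonneg Y; positivity)
          exact mul_le_mul_of_nonneg_right h3 (by positivity)
      _ = (2 * ((m : ℝ) + 1)) * nrm Y := by ring
  · intro s
    have hC : (C (N : ℂ) : MP n) ≠ 0 := by
      rw [Ne, C_eq_zero]
      exact hN0
    apply mul_left_cancel₀ hC
    -- the right-hand side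
    have hR : C (N : ℂ) * ∑ a : SpIdx n m, C (w a.1 a.2.1 a.2.2.1 * (-1) ^ (m + 1 - a.2.2.2.card)
          * ((m : ℂ) + 1) * (N : ℂ)⁻¹ * spV a s) * lform (spL a) ^ m
        = ∑ i, ∑ j, ((if s = i then C (((m + 1).factorial : ℕ) : ℂ) * pderiv j (kosz Y i j) else 0)
          - (if s = j then C (((m + 1).factorial : ℕ) : ℂ) * pderiv i (kosz Y i j) else 0)) := by
      rw [Finset.mul_sum, Fintype.sum_prod_type]
      apply Finset.sum_congr rfl
      intro i _
      rw [Fintype.sum_prod_type]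
      apply Finset.sum_congr rfl
      intro j _
      rw [Fintype.sum_prod_type, hw i j j, hw i j i]
      have e1 : (if s = i then ∑ k, ∑ S : Finset (Fin (m + 1)),
            C (w i j k * (-1) ^ (m + 1 - S.card) * ((m : ℂ) + 1) * polVec k S j)
              * lform (polVec k S) ^ m else 0)
          = ∑ k, ∑ S : Finset (Fin (m + 1)),
            C (w i j k * (-1) ^ (m + 1 - S.card) * ((m : ℂ) + 1)
              * (if s = i then polVec k S j else 0)) * lform (polVec k S) ^ m := by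
        split_ifs <;> simp
      have e2 : (if s = j then ∑ k, ∑ S : Finset (Fin (m + 1)),
            C (w i j k * (-1) ^ (m + 1 - S.card) * ((m : ℂ) + 1) * polVec k S i)
              * lform (polVec k S) ^ m else 0)
          = ∑ k, ∑ S : Finset (Fin (m + 1)),
            C (w i j k * (-1) ^ (m + 1 - S.card) * ((m : ℂ) + 1)
              * (if s = j then polVec k S i else 0)) * lform (polVec k S) ^ m := by
        split_ifs <;> simp
      rw [e1, e2, ← Finset.sum_sub_distrib]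
      apply Finset.sum_congr rfl
      intro k _
      rw [← Finset.sum_sub_distrib]
      apply Finset.sum_congr rfl
      intro S _
      rw [← sub_mul, ← map_sub, ← mul_assoc, ← map_mul]
      congr 2
      simp only [spV, spL]
      field_simp
    rw [hR]
    simp_rw [Finset.sum_sub_distrib]
    have s1 : ∑ i, ∑ j, (if s = i then C (((m + 1).factorial : ℕ) : ℂ) * pderiv j (kosz Y i j) else 0)
        = C (((m + 1).factorial : ℕ) : ℂ) * ∑ t, pderiv t (kosz Y s t) := by
      rw [Finset.sum_eq_single s]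
      · simp [Finset.mul_sum]
      · intro i _ hi
        simp [Ne.symm hi]
      · intro h
        exact absurd (Finset.mem_univ _) h
    have s2 : ∑ i, ∑ j, (if s = j then C (((m + 1).factorial : ℕ) : ℂ) * pderiv i (kosz Y i j) else 0)
        = - (C (((m + 1).factorial : ℕ) : ℂ) * ∑ t, pderiv t (kosz Y s t)) := by
      rw [Finset.mul_sum, ← Finset.sum_neg_distrib]
      apply Finset.sum_congr rfl
      intro i _
      rw [Finset.sum_ite_eq, if_pos (Finset.mem_univ s), kosz_antisymm Y s i, map_neg, mul_neg]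
    rw [s1, s2, koszul Y hY hdiv s, hqC, hN]
    push_cast
    simp only [map_mul, map_natCast, map_ofNat]
    ring

/-- SH-SPAN (Andersen's lemma with bounds): divergence free homogeneous fields are bounded
combinations of a number of shear fields depending only on `n, m`. -/
theorem shear_span (n m : ℕ) (hm : 2 ≤ m) : ∃ (r : ℕ) (l v : Fin r → Fin n → ℂ) (A : ℝ),
    (∀ a, ∑ j, l a j * v a j = 0) ∧
    ∀ X : PMap n, (∀ i, (X i).IsHomogeneous m) → pdiv X = 0 →
      ∃ c : Fin r → ℂ, (∀ a, ‖c a‖ ≤ A * nrm X) ∧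
        ∀ i, X i = ∑ a, C (c a * v a i) * lform (l a) ^ m := by
  classical
  obtain ⟨e⟩ : Nonempty (SpIdx n m ≃ Fin (Fintype.card (SpIdx n m))) := ⟨Fintype.equivFin _⟩
  refine ⟨Fintype.card (SpIdx n m), fun a => spL (e.symm a), fun a => spV (e.symm a),
    2 * ((m : ℝ) + 1), fun a => spL_spV _, ?_⟩
  intro Y hY hdiv
  obtain ⟨c, hc, hs⟩ := shear_span_aux m hm Y hY hdiv
  refine ⟨fun a => c (e.symm a), fun a => hc _, fun i => ?_⟩
  rw [hs i]
  exact (Equiv.sum_comp e.symm fun a => C (c a * spV a i) * lform (spL a) ^ m).symm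

/-! ### assembling shears -/

theorem bind₁_pid (f : MP n) : bind₁ (pid : PMap n) f = f :=
  congrFun (congrArg DFunLike.coe (bind₁_X_left (R := ℂ) (σ := Fin n))) f

/-- JET-ADD: `(id + F) ∘ Q = Q + F` modulo order `m + 1`. -/
theorem jeq_comp_pid_add {m : ℕ} (hm : 1 ≤ m) (F Q : PMap n) (hF : ∀ i, OrdGe m (F i))
    (hQ : Fix0 Q) (hQ2 : ∀ i, OrdGe 2 (Q i - X i)) : JEq m (comp (pid + F) Q) (Q + F) := by
  obtain ⟨a, rfl⟩ : ∃ a, m = a + 1 := ⟨m - 1, by omega⟩
  rw [jeq_iff]
  intro i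
  have e : comp (pid + F) Q i - (Q + F) i = bind₁ Q (F i) - bind₁ (pid : PMap n) (F i) := by
    rw [bind₁_pid]
    simp only [comp, Pi.add_apply, pid, map_add, bind₁_X_right]
    ring
  rw [e]
  exact bind₁_sub_ordGe' hQ fix0_pid hQ2 (hF i)

/-- a polynomial automorphism of volume one with prescribed `m`-jet `id + Z` and bounds. -/
structure ShReal (m : ℕ) (Z S Si : PMap n) (D : ℕ) (y : ℝ) (E : ℕ) : Prop where
  fixS : Fix0 S
  fixSi : Fix0 Si
  s_si : comp S Si = pid
  si_s : comp Si S = pid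
  jd : jdet S = 1
  jet : JEq m S (pid + Z)
  degS : pdeg S ≤ D
  degSi : pdeg Si ≤ D
  nS : nrm S ≤ y ^ E
  nSi : nrm Si ≤ y ^ E

theorem jeq_add_right {m : ℕ} {P Q : PMap n} (h : JEq m P Q) (R : PMap n) :
    JEq m (P + R) (Q + R) := by
  rw [jeq_iff] at h ⊢
  intro i
  have : (P + R) i - (Q + R) i = P i - Q i := by simp
  rw [this]
  exact h i

theorem ShReal.comp {m : ℕ} (hm : 1 ≤ m) {Z₁ Z₂ S₁ Si₁ S₂ Si₂ : PMap n} {D₁ D₂ E₁ E₂ : ℕ} {y : ℝ}
    (hy : 1 ≤ y) (h₁ : ShReal m Z₁ S₁ Si₁ D₁ y E₁) (h₂ : ShReal m Z₂ S₂ Si₂ D₂ y E₂)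
    (hZ₁ : ∀ i, OrdGe m (Z₁ i)) (hZ₂ : ∀ i, OrdGe 2 (Z₂ i)) :
    ShReal m (Z₁ + Z₂) (S9.comp S₁ S₂) (S9.comp Si₂ Si₁) (D₁ * D₂) y
      (E₁ + E₂ * D₁ + (E₂ + E₁ * D₂)) where
  fixS := h₁.fixS.comp h₂.fixS
  fixSi := h₂.fixSi.comp h₁.fixSi
  s_si := by
    rw [comp_assoc, ← comp_assoc S₂, h₂.s_si, pid_comp, h₁.s_si]
  si_s := by
    rw [comp_assoc, ← comp_assoc Si₁, h₁.si_s, pid_comp, h₂.si_s]
  jd := by
    rw [jdet_comp, h₁.jd, h₂.jd, map_one, one_mul]
  jet := by
    have hS2 : ∀ i, OrdGe 2 (S₂ i - X i) := by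
      intro i
      have h := jeq_iff.mp h₂.jet i
      have e : S₂ i - X i = (S₂ i - ((pid : PMap n) + Z₂) i) + Z₂ i := by
        simp only [Pi.add_apply, pid]; ring
      rw [e]
      exact (h.mono (by omega)).add (hZ₂ i)
    have j1 : JEq m (S9.comp S₁ S₂) (S9.comp (pid + Z₁) S₂) := h₁.jet.comp_left h₂.fixS
    have j2 := jeq_comp_pid_add hm Z₁ S₂ hZ₁ h₂.fixS hS2
    have j3 : JEq m (S₂ + Z₁) (pid + Z₂ + Z₁) := jeq_add_right h₂.jet Z₁
    have e : (pid : PMap n) + (Z₁ + Z₂) = pid + Z₂ + Z₁ := by abel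
    rw [e]
    exact (j1.trans j2).trans j3
  degS := (pdeg_comp_le S₁ S₂).trans (Nat.mul_le_mul h₁.degS h₂.degS)
  degSi := by
    rw [Nat.mul_comm]
    exact (pdeg_comp_le Si₂ Si₁).trans (Nat.mul_le_mul h₂.degSi h₁.degSi)
  nS := le_pow_of_le_pow hy (nrm_comp_le_pow hy h₁.nS h₂.nS h₁.degS) (by omega)
  nSi := le_pow_of_le_pow hy (nrm_comp_le_pow hy h₂.nSi h₁.nSi h₂.degSi) (by omega)

theorem ordGe_lform (l : Fin n → ℂ) : OrdGe 1 (lform l) := by
  rw [ordGe_one_iff]
  simp only [lform, coeff_sum, coeff_C_mul, coeff_zero_X, mul_zero, Finset.sum_const_zero]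

theorem ordGe_lform_pow (l : Fin n → ℂ) (m : ℕ) : OrdGe m (lform l ^ m) := by
  have := (ordGe_lform l).pow m
  rwa [one_mul] at this

theorem totalDegree_lform_le (l : Fin n → ℂ) : (lform l).totalDegree ≤ 1 := by
  apply totalDegree_finsetSum_le
  intro j _
  refine (totalDegree_mul _ _).trans ?_
  simp

theorem totalDegree_shField_le (l : Fin n → ℂ) (m : ℕ) (a : ℂ) :
    (C a * lform l ^ m).totalDegree ≤ m := by
  refine (totalDegree_mul _ _).trans ?_
  rw [totalDegree_C, zero_add]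
  refine (totalDegree_pow _ _).trans ?_
  calc m * (lform l).totalDegree ≤ m * 1 := Nat.mul_le_mul_left _ (totalDegree_lform_le l)
    _ = m := Nat.mul_one m

theorem pdeg_shearMap_le (l v : Fin n → ℂ) {m : ℕ} (hm : 1 ≤ m) (c : ℂ) :
    pdeg (shearMap l v m c) ≤ m := by
  rw [pdeg_le_iff]
  intro i
  refine (totalDegree_add _ _).trans (max_le ?_ (totalDegree_shField_le l m _))
  simpa using hm

theorem fix0_shearMap (l v : Fin n → ℂ) {m : ℕ} (hm : 1 ≤ m) (c : ℂ) :
    Fix0 (shearMap l v m c) := by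
  intro i
  simp only [shearMap]
  rw [coeff_add, coeff_zero_X, zero_add]
  exact ((ordGe_lform_pow l m).mul_left _) 0 (by simp; omega)

theorem n1_lform_le (l : Fin n → ℂ) : n1 (lform l) ≤ ∑ j, ‖l j‖ := by
  refine (n1_sum_le _ _).trans (Finset.sum_le_sum fun j _ => ?_)
  rw [n1_C_mul, n1_X, mul_one]

theorem nrm_shearMap_le (l v : Fin n → ℂ) (m : ℕ) (c : ℂ) :
    nrm (shearMap l v m c) ≤ n + ‖c‖ * ((∑ i, ‖v i‖) * (∑ j, ‖l j‖) ^ m) := by
  have h1 : ∀ i, n1 (shearMap l v m c i) ≤ 1 + ‖c‖ * (‖v i‖ * (∑ j, ‖l j‖) ^ m) := by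
    intro i
    simp only [shearMap]
    refine (n1_add_le _ _).trans ?_
    rw [n1_X, n1_C_mul, norm_mul, mul_assoc]
    have h2 : n1 (lform l ^ m) ≤ (∑ j, ‖l j‖) ^ m :=
      (n1_pow_le _ _).trans (pow_le_pow_left₀ (n1_nonneg _) (n1_lform_le l) m)
    have : ‖c‖ * (‖v i‖ * n1 (lform l ^ m)) ≤ ‖c‖ * (‖v i‖ * (∑ j, ‖l j‖) ^ m) :=
      mul_le_mul_of_nonneg_left (mul_le_mul_of_nonneg_left h2 (norm_nonneg _)) (norm_nonneg _)
    linarith
  calc nrm (shearMap l v m c) ≤ ∑ i : Fin n, (1 + ‖c‖ * (‖v i‖ * (∑ j, ‖l j‖) ^ m)) :=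
        Finset.sum_le_sum fun i _ => h1 i
    _ = n + ‖c‖ * ((∑ i, ‖v i‖) * (∑ j, ‖l j‖) ^ m) := by
        rw [Finset.sum_add_distrib, ← Finset.mul_sum, ← Finset.sum_mul]
        simp

/-- one shear. -/
theorem shReal_shearMap (l v : Fin n → ℂ) {m : ℕ} (hm : 1 ≤ m) (c : ℂ)
    (hlv : ∑ j, l j * v j = 0) {y : ℝ} {E : ℕ} (h1 : nrm (shearMap l v m c) ≤ y ^ E)
    (h2 : nrm (shearMap l v m (-c)) ≤ y ^ E) :
    ShReal m (fun i => C (c * v i) * lform l ^ m) (shearMap l v m c) (shearMap l v m (-c)) m y E where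
  fixS := fix0_shearMap l v hm c
  fixSi := fix0_shearMap l v hm (-c)
  s_si := (shearMap_spec l v m c hlv).1
  si_s := by
    have := (shearMap_spec l v m (-c) hlv).1
    rwa [neg_neg] at this
  jd := (shearMap_spec l v m c hlv).2
  jet := JEq.refl _ _
  degS := pdeg_shearMap_le l v hm c
  degSi := pdeg_shearMap_le l v hm (-c)
  nS := h1
  nSi := h2

theorem natCast_le_pow_self {y : ℝ} (hy : 2 ≤ y) (k : ℕ) : (k : ℝ) ≤ y ^ k := by
  calc (k : ℝ) ≤ (2 : ℝ) ^ k := by exact_mod_cast (Nat.lt_two_pow_self).le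
    _ ≤ y ^ k := pow_le_pow_left₀ (by norm_num) hy k

theorem shReal_pid (m : ℕ) {y : ℝ} (hy : 2 ≤ y) : ShReal m (0 : PMap n) pid pid 1 y n where
  fixS := fix0_pid
  fixSi := fix0_pid
  s_si := pid_comp _
  si_s := pid_comp _
  jd := jdet_pid
  jet := by rw [add_zero]; exact JEq.refl _ _
  degS := pdeg_pid_le
  degSi := pdeg_pid_le
  nS := by rw [nrm_pid]; exact natCast_le_pow_self hy n
  nSi := by rw [nrm_pid]; exact natCast_le_pow_self hy n

/-- composition of `r` shears. -/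
theorem shears_real {m : ℕ} (hm : 2 ≤ m) (c₀ : ℕ) : ∀ r : ℕ, ∃ E : ℕ, ∀ (y : ℝ), 2 ≤ y →
    ∀ (l v : Fin r → Fin n → ℂ) (c : Fin r → ℂ), (∀ a, ∑ j, l a j * v a j = 0) →
    (∀ a, nrm (shearMap (l a) (v a) m (c a)) ≤ y ^ c₀ ∧
      nrm (shearMap (l a) (v a) m (-c a)) ≤ y ^ c₀) →
    ∃ S Si : PMap n,
      ShReal m (fun i => ∑ a, C (c a * v a i) * lform (l a) ^ m) S Si (m ^ r) y E := by
  intro r
  induction r with
  | zero =>
    refine ⟨n, fun y hy l v c _ _ => ⟨pid, pid, ?_⟩⟩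
    have e : (fun i => ∑ a : Fin 0, C (c a * v a i) * lform (l a) ^ m) = (0 : PMap n) := by
      funext i; simp
    rw [e, pow_zero]
    exact shReal_pid m hy
  | succ r ih =>
    obtain ⟨E, hE⟩ := ih
    refine ⟨c₀ + E * m + (E + c₀ * m ^ r), fun y hy l v c hlv hb => ?_⟩
    obtain ⟨S, Si, hS⟩ := hE y hy (fun a => l a.succ) (fun a => v a.succ) (fun a => c a.succ)
      (fun a => hlv a.succ) (fun a => hb a.succ)
    have h0 := shReal_shearMap (l 0) (v 0) (by omega : 1 ≤ m) (c 0) (hlv 0) (hb 0).1 (hb 0).2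
    have hc := ShReal.comp (by omega : 1 ≤ m) (by linarith : (1 : ℝ) ≤ y) h0 hS
      (fun i => (ordGe_lform_pow _ m).mul_left _)
      (fun i => OrdGe.sum fun a _ => ((ordGe_lform_pow _ m).mul_left _).mono hm)
    refine ⟨comp (shearMap (l 0) (v 0) m (c 0)) S, comp Si (shearMap (l 0) (v 0) m (-c 0)), ?_⟩
    have e : (fun i => ∑ a : Fin (r + 1), C (c a * v a i) * lform (l a) ^ m)
        = (fun i => C (c 0 * v 0 i) * lform (l 0) ^ m)
          + fun i => ∑ a : Fin r, C (c a.succ * v a.succ i) * lform (l a.succ) ^ m := by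
      funext i
      rw [Fin.sum_univ_succ]
      rfl
    rw [e, pow_succ, Nat.mul_comm]
    exact hc

theorem exists_pow_bound (M : ℝ) : ∃ c : ℕ, ∀ x : ℝ, 0 ≤ x → M + M * x ≤ (2 + x) ^ c := by
  obtain ⟨c, hc⟩ := pow_unbounded_of_one_lt M (by norm_num : (1 : ℝ) < 2)
  refine ⟨c + 1, fun x hx => ?_⟩
  calc M + M * x = M * (1 + x) := by ring
    _ ≤ 2 ^ c * (1 + x) := mul_le_mul_of_nonneg_right hc.le (by linarith)
    _ ≤ (2 + x) ^ c * (2 + x) := by
        apply mul_le_mul (pow_le_pow_left₀ (by norm_num) (by linarith) c) (by linarith)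
          (by linarith) (by positivity)
    _ = (2 + x) ^ (c + 1) := by ring

theorem pdeg_pid_add_le {m : ℕ} (hm : 1 ≤ m) (Y : PMap n) (hY : ∀ i, (Y i).totalDegree ≤ m) :
    pdeg (pid + Y) ≤ m := by
  rw [pdeg_le_iff]
  intro i
  refine (totalDegree_add _ _).trans (max_le ?_ (hY i))
  simpa [pid] using hm

/-- SH-STEP: realization of `pid + X + higher order`, `X` homogeneous divergence free of degree `m`. -/
theorem shear_step (n m : ℕ) (hm : 2 ≤ m) : ∃ Ds c : ℕ, ∀ X : PMap n,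
    (∀ i, (X i).IsHomogeneous m) → pdiv X = 0 →
    ∃ S Si : PMap n, Fix0 S ∧ Fix0 Si ∧ comp S Si = pid ∧ comp Si S = pid ∧ jdet S = 1 ∧
      ptrunc m S = pid + X ∧ pdeg S ≤ Ds ∧ pdeg Si ≤ Ds ∧ nrm S + nrm Si ≤ (2 + nrm X) ^ c := by
  obtain ⟨r, l, v, A, hlv, hspan⟩ := shear_span n m hm
  obtain ⟨K, hK⟩ : ∃ K : ℝ, K = ∑ a, (∑ i, ‖v a i‖) * (∑ j, ‖l a j‖) ^ m := ⟨_, rfl⟩
  have hKa : ∀ a, (∑ i, ‖v a i‖) * (∑ j, ‖l a j‖) ^ m ≤ K := by
    intro a
    rw [hK]
    exact Finset.single_le_sum (f := fun a => (∑ i, ‖v a i‖) * (∑ j, ‖l a j‖) ^ m)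
      (fun a _ => by positivity) (Finset.mem_univ a)
  have hK0 : 0 ≤ K := by rw [hK]; positivity
  obtain ⟨c₀, hc₀⟩ := exists_pow_bound (max (n : ℝ) (|A| * K))
  obtain ⟨E, hE⟩ := shears_real (n := n) hm c₀ r
  refine ⟨m ^ r, E + 1, fun Y hY hdiv => ?_⟩
  obtain ⟨c, hc, hs⟩ := hspan Y hY hdiv
  have hx : 0 ≤ nrm Y := nrm_nonneg Y
  have hy : (2 : ℝ) ≤ 2 + nrm Y := by linarith
  have hb : ∀ (a : Fin r) (c' : ℂ), ‖c'‖ = ‖c a‖ →
      nrm (shearMap (l a) (v a) m c') ≤ (2 + nrm Y) ^ c₀ := by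
    intro a c' hc'
    refine (nrm_shearMap_le _ _ _ _).trans (le_trans ?_ (hc₀ (nrm Y) hx))
    rw [hc']
    have h1 : ‖c a‖ ≤ |A| * nrm Y := (hc a).trans (mul_le_mul_of_nonneg_right (le_abs_self A) hx)
    have h2 : ‖c a‖ * ((∑ i, ‖v a i‖) * (∑ j, ‖l a j‖) ^ m) ≤ (|A| * nrm Y) * K :=
      mul_le_mul h1 (hKa a) (by positivity) (by positivity)
    have h3 : (|A| * nrm Y) * K ≤ max (n : ℝ) (|A| * K) * nrm Y := by
      calc (|A| * nrm Y) * K = (|A| * K) * nrm Y := by ring
        _ ≤ max (n : ℝ) (|A| * K) * nrm Y := mul_le_mul_of_nonneg_right (le_max_right _ _) hx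
    have h4 : (n : ℝ) ≤ max (n : ℝ) (|A| * K) := le_max_left _ _
    linarith
  obtain ⟨S, Si, hS⟩ := hE (2 + nrm Y) hy l v c hlv
    (fun a => ⟨hb a (c a) rfl, hb a (-c a) (norm_neg _)⟩)
  have hZ : (fun i => ∑ a, C (c a * v a i) * lform (l a) ^ m) = Y := by
    funext i
    exact (hs i).symm
  rw [hZ] at hS
  refine ⟨S, Si, hS.fixS, hS.fixSi, hS.s_si, hS.si_s, hS.jd, ?_, hS.degS, hS.degSi,
    add_le_pow_succ hy hS.nS hS.nSi⟩
  have := hS.jet
  rw [JEq, ptrunc_eq_self (pdeg_pid_add_le (by omega) Y fun i => (hY i).totalDegree_le)] at this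
  exact this

/-! ### tangent to the identity -/

theorem ShReal.rejet {m m' : ℕ} {Z Z' S Si : PMap n} {D E : ℕ} {y : ℝ}
    (h : ShReal m Z S Si D y E) (hj : JEq m' S (pid + Z')) : ShReal m' Z' S Si D y E :=
  ⟨h.fixS, h.fixSi, h.s_si, h.si_s, h.jd, hj, h.degS, h.degSi, h.nS, h.nSi⟩

theorem ordGe_sub_homComp {k : ℕ} {f : MP n} (h : OrdGe k f) :
    OrdGe (k + 1) (f - homogeneousComponent k f) := by
  intro m hm
  rw [coeff_sub, coeff_homogeneousComponent]
  split_ifs with h1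
  · simp
  · rw [sub_zero]; exact h m (by omega)

theorem ordGe_homComp (k : ℕ) (f : MP n) : OrdGe k (homogeneousComponent k f) := by
  intro m hm
  rw [coeff_homogeneousComponent, if_neg (by omega)]

theorem n1_homComp_le (d : ℕ) (f : MP n) : n1 (homogeneousComponent d f) ≤ n1 f := by
  classical
  have hS : (homogeneousComponent d f).support ⊆ f.support := by
    intro m hm
    rw [mem_support_iff, coeff_homogeneousComponent] at hm
    rw [mem_support_iff]
    intro h; apply hm; simp [h]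
  rw [n1_eq_sum_of_subset hS]
  refine Finset.sum_le_sum fun m _ => ?_
  rw [coeff_homogeneousComponent]; split_ifs
  · exact le_rfl
  · simp

theorem jeq_one_of_plin_eq {P Q : PMap n} (hP : Fix0 P) (hQ : Fix0 Q) (h : plin P = plin Q) :
    JEq 1 P Q := by
  funext i
  simp only [ptrunc]
  rw [ptr_one_eq, ptr_one_eq, hP i, hQ i]
  congr 1
  refine Finset.sum_congr rfl fun l _ => ?_
  have := congrFun (congrFun h i) l
  simp only [plin] at this
  rw [this]

/-- the induction behind SH-ID. -/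
theorem shear_tangent_aux (n : ℕ) : ∀ k : ℕ, ∃ Ds c : ℕ, ∀ P : PMap n, Fix0 P → plin P = 1 →
    ptr k (jdet P) = 1 → ∃ G Gi : PMap n, ShReal (k + 1) (P - pid) G Gi Ds (2 + nrm P) c := by
  intro k
  induction k with
  | zero =>
    refine ⟨1, n, fun P hP0 hlin _ => ⟨pid, pid, ?_⟩⟩
    have hy : (2 : ℝ) ≤ 2 + nrm P := by linarith [nrm_nonneg P]
    refine (shReal_pid 1 hy).rejet ?_
    rw [add_sub_cancel]
    exact jeq_one_of_plin_eq fix0_pid hP0 (by rw [plin_pid, hlin])
  | succ k ih =>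
    obtain ⟨D, c, ih⟩ := ih
    obtain ⟨D', c', hstep⟩ := shear_step n (k + 2) (by omega)
    refine ⟨D' * D, (c + 2) * c' + c * D' + (c + (c + 2) * c' * D), fun P hP0 hlin hjd => ?_⟩
    have hjd' : ptr k (jdet P) = 1 := by
      have := congrArg (ptr k) hjd
      rw [ptr_ptr, ptr_one, min_eq_left (Nat.le_succ k)] at this
      exact this
    obtain ⟨G', Gi', hG'⟩ := ih P hP0 hlin hjd'
    have hx : 0 ≤ nrm P := nrm_nonneg P
    have hy : (2 : ℝ) ≤ 2 + nrm P := by linarith
    have hy1 : (1 : ℝ) ≤ 2 + nrm P := by linarith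
    have hGP : JEq (k + 1) G' P := by
      have := hG'.jet
      rwa [add_sub_cancel] at this
    obtain ⟨Y, hYdef⟩ : ∃ Y : PMap n, Y = fun i => homogeneousComponent (k + 2) (P i - G' i) :=
      ⟨_, rfl⟩
    have hYhom : ∀ i, (Y i).IsHomogeneous (k + 2) := by
      intro i
      rw [hYdef]
      exact homogeneousComponent_isHomogeneous _ _
    have hYdiv : pdiv Y = 0 := by
      rw [hYdef]
      refine discrepancy_div_free (by omega) P G' hGP.symm hlin hP0 hjd ?_
      rw [hG'.jd, ptr_one]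
    obtain ⟨S, Si, hS0, hSi0, hSSi, hSiS, hSjd, hSjet, hSdeg, hSideg, hSn⟩ := hstep Y hYhom hYdiv
    -- norms
    have hYn : nrm Y ≤ nrm P + nrm G' := by
      rw [hYdef]
      refine le_trans ?_ (nrm_sub_le P G')
      exact Finset.sum_le_sum fun i _ => n1_homComp_le _ _
    have hYy : 2 + nrm Y ≤ (2 + nrm P) ^ (c + 2) := by
      have h1 : (2 + nrm P) ≤ (2 + nrm P) ^ (c + 1) := le_self_pow₀ hy1 (by omega)
      have h2 : nrm G' ≤ (2 + nrm P) ^ (c + 1) := le_pow_of_le_pow hy1 hG'.nS (by omega)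
      have := add_le_pow_succ hy h1 h2
      linarith
    have hSS : nrm S + nrm Si ≤ (2 + nrm P) ^ ((c + 2) * c') := by
      rw [pow_mul]
      exact hSn.trans (pow_le_pow_left₀ (by linarith [nrm_nonneg Y]) hYy c')
    have hS1 : ShReal (k + 2) Y S Si D' (2 + nrm P) ((c + 2) * c') :=
      ⟨hS0, hSi0, hSSi, hSiS, hSjd, by
        rw [JEq, hSjet, ptrunc_eq_self (pdeg_pid_add_le (by omega) Y
          fun i => (hYhom i).totalDegree_le)], hSdeg, hSideg,
        by linarith [nrm_nonneg Si], by linarith [nrm_nonneg S]⟩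
    have hG2 : ShReal (k + 2) (G' - pid) G' Gi' D (2 + nrm P) c :=
      hG'.rejet (by rw [add_sub_cancel]; exact JEq.refl _ _)
    have hord2 : ∀ i, OrdGe 2 ((G' - (pid : PMap n)) i) := by
      have : JEq 1 G' pid := jeq_one_of_plin_eq hG'.fixS fix0_pid
        (by rw [hGP.plin (by omega), hlin, plin_pid])
      exact jeq_iff.mp this
    have hc := ShReal.comp (by omega : 1 ≤ k + 2) hy1 hS1 hG2
      (fun i => by rw [hYdef]; exact ordGe_homComp _ _) hord2
    refine ⟨comp S G', comp Gi' Si, hc.rejet ?_⟩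
    refine hc.jet.trans ?_
    rw [add_sub_cancel, jeq_iff]
    intro i
    have e : (((pid : PMap n) + (Y + (G' - (pid : PMap n))) : PMap n)) i - P i
        = -((P i - G' i) - homogeneousComponent (k + 2) (P i - G' i)) := by
      rw [hYdef]
      simp only [Pi.add_apply, Pi.sub_apply]
      ring
    rw [e]
    exact (ordGe_sub_homComp (jeq_iff.mp hGP.symm i)).neg

/-- SH-ID: realization of constant volume jets tangent to the identity. -/
theorem shear_tangent (n d : ℕ) (hd : 1 ≤ d) : ∃ Ds c : ℕ, ∀ P : PMap n, Fix0 P → pdeg P ≤ d →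
    plin P = 1 → ptr (d - 1) (jdet P) = 1 →
    ∃ G Gi : PMap n, Fix0 G ∧ Fix0 Gi ∧ comp G Gi = pid ∧ comp Gi G = pid ∧ jdet G = 1 ∧
      ptrunc d G = P ∧ pdeg G ≤ Ds ∧ pdeg Gi ≤ Ds ∧ nrm G + nrm Gi ≤ (2 + nrm P) ^ c := by
  obtain ⟨k, rfl⟩ : ∃ k, d = k + 1 := ⟨d - 1, by omega⟩
  obtain ⟨Ds, c, h⟩ := shear_tangent_aux n k
  refine ⟨Ds, c + 1, fun P hP0 hdeg hlin hjd => ?_⟩
  obtain ⟨G, Gi, hG⟩ := h P hP0 hlin hjd
  have hy : (2 : ℝ) ≤ 2 + nrm P := by linarith [nrm_nonneg P]
  refine ⟨G, Gi, hG.fixS, hG.fixSi, hG.s_si, hG.si_s, hG.jd, ?_, hG.degS, hG.degSi,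
    add_le_pow_succ hy hG.nS hG.nSi⟩
  have := hG.jet
  rw [add_sub_cancel, JEq, ptrunc_eq_self hdeg] at this
  exact this

/-- **Lemma 9.2 (realization of constant-volume jets).** -/
theorem shear_main (n d : ℕ) (hd : 1 ≤ d) : ∃ Ds c : ℕ, ∀ (P : PMap n) (B : Mat n), Fix0 P →
    pdeg P ≤ d → B * plin P = 1 → ptr (d - 1) (jdet P) = C (plin P).det →
    ∃ G Gi : PMap n, Fix0 G ∧ Fix0 Gi ∧ comp G Gi = pid ∧ comp Gi G = pid ∧
      ptrunc d G = P ∧ pdeg G ≤ Ds ∧ pdeg Gi ≤ Ds ∧ nrm G + nrm Gi ≤ (2 + nrm P + mnorm B) ^ c := by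
  obtain ⟨Ds, c, h⟩ := shear_tangent n d hd
  refine ⟨Ds, 1 + 3 * c * 1 + (3 * c + 1 * Ds) + 1, fun P B hP0 hdeg hB hjd => ?_⟩
  have hLB : plin P * B = 1 := mul_eq_one_comm.mp hB
  obtain ⟨P', hP'⟩ : ∃ P' : PMap n, P' = comp (ofMat B) P := ⟨_, rfl⟩
  have hP'0 : Fix0 P' := by rw [hP']; exact (fix0_ofMat B).comp hP0
  have hP'deg : pdeg P' ≤ d := by
    rw [hP']
    calc pdeg (comp (ofMat B) P) ≤ pdeg (ofMat B) * pdeg P := pdeg_comp_le _ _
      _ ≤ 1 * d := Nat.mul_le_mul (pdeg_ofMat_le B) hdeg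
      _ = d := Nat.one_mul d
  have hP'lin : plin P' = 1 := by rw [hP', plin_comp _ hP0, plin_ofMat, hB]
  have hP'jd : ptr (d - 1) (jdet P') = 1 := by
    rw [hP', jdet_ofMat_comp, ptr_C_mul, hjd, ← C_mul, ← Matrix.det_mul, hB, Matrix.det_one, C_1]
  obtain ⟨G', Gi', hG0, hGi0, hGGi, hGiG, -, hGjet, hGdeg, hGideg, hGn⟩ :=
    h P' hP'0 hP'deg hP'lin hP'jd
  have hx : 0 ≤ nrm P := nrm_nonneg P
  have hb : 0 ≤ mnorm B := mnorm_nonneg B
  obtain ⟨y, hydef⟩ : ∃ y : ℝ, y = 2 + nrm P + mnorm B := ⟨_, rfl⟩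
  rw [← hydef]
  have hy : (2 : ℝ) ≤ y := by rw [hydef]; linarith
  have hy1 : (1 : ℝ) ≤ y := by linarith
  have hBn : nrm (ofMat B) ≤ y ^ 1 := nrm_ofMat_le_pow (by rw [hydef]; linarith)
  have hLn : nrm (ofMat (plin P)) ≤ y ^ 1 :=
    nrm_ofMat_le_pow ((mnorm_plin_le P).trans (by rw [hydef]; linarith))
  have hPn : nrm P ≤ y ^ 1 := by rw [pow_one, hydef]; linarith
  have hP'n : nrm P' ≤ y ^ 2 := by
    rw [hP']
    exact nrm_comp_le_pow hy1 hBn hPn (pdeg_ofMat_le B)
  have hP'y : 2 + nrm P' ≤ y ^ 3 :=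
    add_le_pow_succ hy (hy.trans (le_self_pow₀ hy1 (by norm_num))) hP'n
  have hGG : nrm G' + nrm Gi' ≤ y ^ (3 * c) := by
    rw [pow_mul]
    exact hGn.trans (pow_le_pow_left₀ (by linarith [nrm_nonneg P']) hP'y c)
  have hG'n : nrm G' ≤ y ^ (3 * c) := by linarith [nrm_nonneg Gi']
  have hGi'n : nrm Gi' ≤ y ^ (3 * c) := by linarith [nrm_nonneg G']
  refine ⟨comp (ofMat (plin P)) G', comp Gi' (ofMat B), (fix0_ofMat _).comp hG0,
    hGi0.comp (fix0_ofMat _), ?_, ?_, ?_, ?_, ?_, ?_⟩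
  · rw [comp_assoc, ← comp_assoc G', hGGi, pid_comp, ofMat_mul, hLB, ofMat_one]
  · rw [comp_assoc, ← comp_assoc (ofMat B), ofMat_mul, hB, ofMat_one, pid_comp, hGiG]
  · have h1 : JEq d G' P' := by
      rw [JEq, hGjet, ptrunc_eq_self hP'deg]
    have h2 : JEq d (comp (ofMat (plin P)) G') (comp (ofMat (plin P)) P') :=
      JEq.comp_right _ h1
    rw [hP', ofMat_comp_cancel hLB, JEq, ptrunc_eq_self hdeg] at h2
    exact h2
  · calc pdeg (comp (ofMat (plin P)) G') ≤ pdeg (ofMat (plin P)) * pdeg G' := pdeg_comp_le _ _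
      _ ≤ 1 * Ds := Nat.mul_le_mul (pdeg_ofMat_le _) hGdeg
      _ = Ds := Nat.one_mul Ds
  · calc pdeg (comp Gi' (ofMat B)) ≤ pdeg Gi' * pdeg (ofMat B) := pdeg_comp_le _ _
      _ ≤ Ds * 1 := Nat.mul_le_mul hGideg (pdeg_ofMat_le _)
      _ = Ds := Nat.mul_one Ds
  · refine add_le_pow_succ hy ?_ ?_
    · exact le_pow_of_le_pow hy1 (nrm_comp_le_pow hy1 hLn hG'n (pdeg_ofMat_le _)) (by omega)
    · exact le_pow_of_le_pow hy1 (nrm_comp_le_pow hy1 hGi'n hBn hGideg) (by omega)

end Claimed.Agent.R316.S9
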