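import Claimed.Agent.R316.S9.Align1
import Claimed.Agent.R316.Pack028

/-!
# Row 316, Section 9, package ALIGN: Lemma 9.3 (linear alignment) along the grid

Finite horizon `K`: `Lp k = 1` for `k ≥ K`; backwards, if `k` and `k+1` are regular apply `align1` with
`Z = Dmi (k+1) * Lp (k+1) * Dm (k+1) - 1` (small by `conj_small` and the closing condition), put
`Lpi k = K`-matrix of `align1`, `Lp k` = its inverse (`unipat_inverse`); otherwise `Lp k = Lpi k = 1`.
All bounds are uniform in `K`; pass to the limit along `Filter.hyperfilter ℕ` (`exists_lim_mat`).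
-/

set_option autoImplicit false
open scoped ComplexOrder Matrix

namespace Claimed.Agent.R316.S9

variable {n : ℕ}

/-- the diagonal step derivative `D = diag (exp (- μ_i T / 2))`. -/
noncomputable def Dm (μ : Fin n → ℝ) (T : ℝ) : Mat n := rdiag fun i => Real.exp (-(μ i * T) / 2)

/-- its inverse. -/
noncomputable def Dmi (μ : Fin n → ℝ) (T : ℝ) : Mat n := rdiag fun i => Real.exp (μ i * T / 2)

/-- the bound of the alignment matrices in terms of `R / ε`. -/
noncomputable def Bd (n : ℕ) (r : ℝ) : ℝ := (1 + 4 * (n : ℝ) ^ 2 * Real.sqrt r) ^ n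

/-- linear data along the grid. -/
structure LinData (n : ℕ) where
  /-- regular steps -/
  reg : ℕ → Prop
  /-- sorted rates of step `k` -/
  μ : ℕ → Fin n → ℝ
  /-- logarithmic time length of step `k` -/
  T : ℕ → ℝ
  /-- jump at the grid point `k+1`: old tangent components to new ones -/
  U : ℕ → Mat n
  /-- weights of step `k` -/
  w : ℕ → Fin n → ℝ
  /-- passage threshold `ε₀ θ_j` -/
  ε : ℕ → ℝ
  /-- upper bound of the rates -/
  R : ℕ → ℝ
  hU : ∀ k, U k ∈ Matrix.unitaryGroup (Fin n) ℂ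
  hT : ∀ k, 0 < T k
  hμ0 : ∀ k i, 0 ≤ μ k i
  jump : ∀ k, LoewnerLE (U k * rdiag (μ k) * (U k)ᴴ) (rdiag (μ (k + 1)))
  hε : ∀ k, reg k → 0 < ε k
  hεR : ∀ k, reg k → ε k ≤ R k
  hR : ∀ k, reg k → reg (k + 1) → ∀ i, μ (k + 1) i ≤ R k
  W2 : ∀ k, reg k → ∀ i l, μ k l - ε k ≤ μ k i → w k l ≤ w k i
  W3 : ∀ k, reg k → reg (k + 1) → ∀ i l, μ k l - ε k ≤ μ (k + 1) i → w k l ≤ w (k + 1) i
  close : ∀ k, reg k → reg (k + 1) →
    12 * R k * (Bd n (R (k + 1) / ε (k + 1)) * Real.exp (-(ε (k + 1) * T (k + 1)) / 2)) ≤ ε k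

/-! ### one backward step -/

/-- one backward step of the alignment: `L'` is the matrix of step `k + 1`, `L`, `Li` the matrix of
step `k` and its inverse. -/
structure AlStep (X : LinData n) (k : ℕ) (L' L Li : Mat n) : Prop where
  mul : L * Li = 1
  mul' : Li * L = 1
  pat : UniPat (X.w k) L
  pat' : UniPat (X.w k) Li
  bd : mnorm (L - 1) ≤ Bd n (X.R k / X.ε k)
  bd' : mnorm (Li - 1) ≤ Bd n (X.R k / X.ε k)
  triv : ¬ (X.reg k ∧ X.reg (k + 1)) → L = 1 ∧ Li = 1
  van : X.reg k → X.reg (k + 1) → ∀ i l, X.w (k + 1) i < X.w k l →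
    (Dmi (X.μ (k + 1)) (X.T (k + 1)) * L' * Dm (X.μ (k + 1)) (X.T (k + 1)) * X.U k * Li) i l = 0

theorem alm_Bd_nonneg (n : ℕ) (r : ℝ) : 0 ≤ Bd n r := by
  unfold Bd
  positivity

theorem alm_unipat_one (w : Fin n → ℝ) : UniPat w (1 : Mat n) :=
  ⟨fun i => Matrix.one_apply_eq i, fun _ _ hil h => absurd (Matrix.one_apply_ne hil) h⟩

theorem alm_mnorm_zero : mnorm (0 : Mat n) = 0 := by
  simp [mnorm]

theorem alm_mnorm_le {A : Mat n} {b : ℝ} (h : mnorm (A - 1) ≤ b) : mnorm A ≤ n + b := by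
  have h1 : A = 1 + (A - 1) := by abel
  calc mnorm A = mnorm (1 + (A - 1)) := by rw [← h1]
    _ ≤ mnorm (1 : Mat n) + mnorm (A - 1) := mnorm_add_le _ _
    _ ≤ n + b := add_le_add mnorm_one_le h

theorem alm_step (X : LinData n) (k : ℕ) (L' : Mat n) (hL' : UniPat (X.w (k + 1)) L')
    (hb : mnorm (L' - 1) ≤ Bd n (X.R (k + 1) / X.ε (k + 1))) : ∃ L Li, AlStep X k L' L Li := by
  by_cases hreg : X.reg k ∧ X.reg (k + 1)
  · obtain ⟨hk, hk'⟩ := hreg
    obtain ⟨Z, hZ⟩ : ∃ Z : Mat n,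
      Z = Dmi (X.μ (k + 1)) (X.T (k + 1)) * L' * Dm (X.μ (k + 1)) (X.T (k + 1)) - 1 := ⟨_, rfl⟩
    have hc := (conj_small (X.w (k + 1)) (X.μ (k + 1)) (X.T (k + 1)) (X.ε (k + 1)) (X.hT _)
      (X.W2 (k + 1) hk') L' hL').2
    have hZn : mnorm Z ≤
        Bd n (X.R (k + 1) / X.ε (k + 1)) * Real.exp (-(X.ε (k + 1) * X.T (k + 1)) / 2) := by
      rw [hZ]
      exact hc.trans (mul_le_mul_of_nonneg_right hb (Real.exp_pos _).le)
    obtain ⟨K, hK1, hK2, hK3⟩ := align1 (X.U k) Z (X.μ k) (X.μ (k + 1)) (X.w k) (X.w (k + 1))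
      (X.R k) (X.ε k) _ (X.hU k) (X.jump k) (X.hμ0 k)
      (fun i => ⟨X.hμ0 (k + 1) i, X.hR k hk hk' i⟩) (X.hε k hk) (X.hεR k hk) (X.W3 k hk hk') hZn
      (X.close k hk hk')
    have hν : mnorm (K - 1) ≤ 4 * (n : ℝ) ^ 2 * Real.sqrt (X.R k / X.ε k) := by
      calc mnorm (K - 1) ≤ ∑ _i : Fin n, ∑ _j : Fin n, 4 * Real.sqrt (X.R k / X.ε k) := by
            refine Finset.sum_le_sum fun i _ => Finset.sum_le_sum fun j _ => ?_
            by_cases hij : i = j
            · rw [hij, Matrix.sub_apply, hK1.1 j, Matrix.one_apply_eq, sub_self, norm_zero]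
              positivity
            · rw [Matrix.sub_apply, Matrix.one_apply_ne hij, sub_zero]
              exact hK2 i j hij
        _ = 4 * (n : ℝ) ^ 2 * Real.sqrt (X.R k / X.ε k) := by
            simp only [Finset.sum_const, Finset.card_univ, Fintype.card_fin, nsmul_eq_mul]
            ring
    obtain ⟨L, hL1, hL2, hL3, hL4⟩ := unipat_inverse (X.w k) K hK1 _ hν
    refine ⟨L, K, hL2, hL3, hL1, hK1, hL4, ?_, fun h => absurd ⟨hk, hk'⟩ h, fun _ _ i l hil => ?_⟩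
    · by_cases hn : n = 0
      · have h0 : (n : ℝ) = 0 := by exact_mod_cast hn
        rw [h0] at hν
        have h1 : mnorm (K - 1) ≤ 0 := by simpa using hν
        exact h1.trans (alm_Bd_nonneg _ _)
      · have h0 : 0 ≤ 4 * (n : ℝ) ^ 2 * Real.sqrt (X.R k / X.ε k) := by positivity
        have h1 := le_self_pow₀ (a := 1 + 4 * (n : ℝ) ^ 2 * Real.sqrt (X.R k / X.ε k))
          (by linarith) hn
        unfold Bd
        linarith
    · have := hK3 i l hil
      rwa [hZ, add_sub_cancel] at this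
  · refine ⟨1, 1, mul_one _, mul_one _, alm_unipat_one _, alm_unipat_one _, ?_, ?_,
      fun _ => ⟨rfl, rfl⟩, fun h h' => absurd ⟨h, h'⟩ hreg⟩
    · rw [sub_self, alm_mnorm_zero]
      exact alm_Bd_nonneg _ _
    · rw [sub_self, alm_mnorm_zero]
      exact alm_Bd_nonneg _ _

/-! ### finite horizons -/

theorem alm_horizon (X : LinData n) (j : ℕ) : ∀ a : ℕ, ∃ seq : ℕ → Mat n × Mat n,
    (∀ k, UniPat (X.w k) (seq k).1 ∧ mnorm ((seq k).1 - 1) ≤ Bd n (X.R k / X.ε k)) ∧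
    ∀ k, a ≤ k → k < a + j → AlStep X k (seq (k + 1)).1 (seq k).1 (seq k).2 := by
  induction j with
  | zero =>
    intro a
    refine ⟨fun _ => (1, 1), fun k => ⟨alm_unipat_one _, ?_⟩, fun k h1 h2 => by omega⟩
    rw [sub_self, alm_mnorm_zero]
    exact alm_Bd_nonneg _ _
  | succ j ih =>
    intro a
    obtain ⟨seq, h1, h2⟩ := ih (a + 1)
    obtain ⟨L, Li, hs⟩ := alm_step X a (seq (a + 1)).1 (h1 (a + 1)).1 (h1 (a + 1)).2
    refine ⟨Function.update seq a (L, Li), fun k => ?_, fun k hk1 hk2 => ?_⟩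
    · by_cases hk : k = a
      · subst hk
        rw [Function.update_self]
        exact ⟨hs.pat, hs.bd⟩
      · rw [Function.update_of_ne hk]
        exact h1 k
    · by_cases hk : k = a
      · subst hk
        rw [Function.update_self, Function.update_of_ne (by omega)]
        exact hs
      · rw [Function.update_of_ne hk, Function.update_of_ne (by omega)]
        exact h2 k (by omega) (by omega)

/-! ### passage to the limit -/

theorem alm_entry {ι : Type} {𝓕 : Filter ι} {A : ι → Mat n} {L : Mat n}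
    (h : Filter.Tendsto A 𝓕 (nhds L)) (i j : Fin n) :
    Filter.Tendsto (fun K => A K i j) 𝓕 (nhds (L i j)) :=
  ((continuous_id.matrix_elem i j).tendsto L).comp h

theorem alm_unipat_limit {ι : Type} {𝓕 : Filter ι} [𝓕.NeBot] (w : Fin n → ℝ) {A : ι → Mat n}
    {L : Mat n} (h : Filter.Tendsto A 𝓕 (nhds L)) (hs : ∀ᶠ K in 𝓕, UniPat w (A K)) :
    UniPat w L := by
  refine ⟨fun i => ?_, fun i l hil h0 => ?_⟩
  · exact tendsto_nhds_unique (alm_entry h i i)
      (tendsto_const_nhds.congr' (hs.mono fun K hK => (hK.1 i).symm))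
  · obtain ⟨K, hK1, hK2⟩ := (((alm_entry h i l).eventually_ne h0).and hs).exists
    exact hK2.2 i l hil hK1

theorem alm_limit {ι : Type} {𝓕 : Filter ι} [𝓕.NeBot] (X : LinData n) (k : ℕ)
    {A' A Ai : ι → Mat n} {L' L Li : Mat n} (h' : Filter.Tendsto A' 𝓕 (nhds L'))
    (h : Filter.Tendsto A 𝓕 (nhds L)) (hi : Filter.Tendsto Ai 𝓕 (nhds Li))
    (hs : ∀ᶠ K in 𝓕, AlStep X k (A' K) (A K) (Ai K)) : AlStep X k L' L Li where
  mul := tendsto_nhds_unique (h.mul hi)
    (tendsto_const_nhds.congr' (hs.mono fun K hK => hK.mul.symm))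
  mul' := tendsto_nhds_unique (hi.mul h)
    (tendsto_const_nhds.congr' (hs.mono fun K hK => hK.mul'.symm))
  pat := alm_unipat_limit _ h (hs.mono fun K hK => hK.pat)
  pat' := alm_unipat_limit _ hi (hs.mono fun K hK => hK.pat')
  bd := mnorm_le_of_tendsto (h.sub_const 1) (hs.mono fun K hK => hK.bd)
  bd' := mnorm_le_of_tendsto (hi.sub_const 1) (hs.mono fun K hK => hK.bd')
  triv := fun hn =>
    ⟨tendsto_nhds_unique h (tendsto_const_nhds.congr' (hs.mono fun K hK => (hK.triv hn).1.symm)),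
      tendsto_nhds_unique hi (tendsto_const_nhds.congr' (hs.mono fun K hK => (hK.triv hn).2.symm))⟩
  van := fun hk hk' i l hil => by
    have h1 : Filter.Tendsto (fun K => Dmi (X.μ (k + 1)) (X.T (k + 1)) * A' K *
        Dm (X.μ (k + 1)) (X.T (k + 1)) * X.U k * Ai K) 𝓕
        (nhds (Dmi (X.μ (k + 1)) (X.T (k + 1)) * L' * Dm (X.μ (k + 1)) (X.T (k + 1)) * X.U k * Li)) :=
      (((h'.const_mul _).mul_const _).mul_const _).mul hi
    exact tendsto_nhds_unique (alm_entry h1 i l)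
      (tendsto_const_nhds.congr' (hs.mono fun K hK => (hK.van hk hk' i l hil).symm))

/-- **Lemma 9.3 (linear alignment).** -/
theorem align_main (X : LinData n) : ∃ Lp Lpi : ℕ → Mat n, ∀ k,
    Lp k * Lpi k = 1 ∧ Lpi k * Lp k = 1 ∧ UniPat (X.w k) (Lp k) ∧ UniPat (X.w k) (Lpi k) ∧
    mnorm (Lp k - 1) ≤ Bd n (X.R k / X.ε k) ∧ mnorm (Lpi k - 1) ≤ Bd n (X.R k / X.ε k) ∧
    (¬ (X.reg k ∧ X.reg (k + 1)) → Lp k = 1 ∧ Lpi k = 1) ∧
    (X.reg k → X.reg (k + 1) → ∀ i l, X.w (k + 1) i < X.w k l →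
      (Dmi (X.μ (k + 1)) (X.T (k + 1)) * Lp (k + 1) * Dm (X.μ (k + 1)) (X.T (k + 1)) * X.U k * Lpi k) i l
        = 0) := by
  choose seq h1 h2 using fun K => alm_horizon X K 0
  have hev : ∀ k, ∀ᶠ K in (Filter.hyperfilter ℕ : Filter ℕ),
      AlStep X k (seq K (k + 1)).1 (seq K k).1 (seq K k).2 := by
    intro k
    have h3 : ∀ᶠ K in (Filter.hyperfilter ℕ : Filter ℕ), k < K :=
      Nat.hyperfilter_le_atTop (Filter.eventually_gt_atTop k)
    exact h3.mono fun K hK => h2 K k (Nat.zero_le _) (by omega)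
  have hl1 : ∀ k, ∃ A : Mat n,
      Filter.Tendsto (fun K => (seq K k).1) (Filter.hyperfilter ℕ : Filter ℕ) (nhds A) := fun k =>
    exists_lim_mat (Filter.hyperfilter ℕ) _ (n + Bd n (X.R k / X.ε k))
      (Filter.Eventually.of_forall fun K => alm_mnorm_le (h1 K k).2)
  have hl2 : ∀ k, ∃ A : Mat n,
      Filter.Tendsto (fun K => (seq K k).2) (Filter.hyperfilter ℕ : Filter ℕ) (nhds A) := fun k =>
    exists_lim_mat (Filter.hyperfilter ℕ) _ (n + Bd n (X.R k / X.ε k))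
      ((hev k).mono fun K hK => alm_mnorm_le hK.bd')
  choose Lp hLp using hl1
  choose Lpi hLpi using hl2
  refine ⟨Lp, Lpi, fun k => ?_⟩
  have hs := alm_limit X k (hLp (k + 1)) (hLp k) (hLpi k) (hev k)
  exact ⟨hs.mul, hs.mul', hs.pat, hs.pat', hs.bd, hs.bd', hs.triv, hs.van⟩

end Claimed.Agent.R316.S9
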