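import Claimed.Agent.R316.Pack025_2

/-!
# Row 316, Section 9, package ALIGN1: one step linear algebra

Paper: dynamics.tex (9.10) `loewner-jump`, "the sorted rates are nondecreasing", and the one step
part of Lemma 9.3 (linear alignment).

SIMPLIFICATION with respect to the paper: instead of the nested graph extension (9.19) we construct
the INVERSE `K = (L^+)⁻¹` column by column.  With `B = (1 + Z) U` we need
`(B K) i l = 0` whenever `wn i < wo l`.  Column `l` of `K` is `e_l + κ`, `κ` supported on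
`E = {l' | wo l' < wo l}`, and `κ` has to solve the linear system
`∑_{l' ∈ E} B i l' κ l' = - B i l` for `i ∈ I = {i | wn i < wo l}`.
The matrix `B[I, E]` has a right inverse of norm `≤ sqrt (5 R / ε)` because for a row vector `a`
supported in `I` one has `‖(a B)|_E‖² ≥ ε / (5 R) ‖a‖²`:
let `r = max_{i ∈ I} μn i`; every `l'' ∉ E` has `μo l'' > r + ε` (passage rule), and the Loewner jump
applied to `v = a (1 + Z)` gives
`(r + ε) (‖v‖² - ‖(vU)|_E‖²) ≤ ∑ μo |(vU)_l|² ≤ ∑ μn |v_i|² ≤ (r + 2 R ζ + R ζ²) ‖a‖²`.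
-/

set_option autoImplicit false
open scoped ComplexOrder Matrix

namespace Claimed.Agent.R316.S9

variable {n : ℕ}

/-! ### quadratic forms -/

theorem al1_dot_self {ι : Type} [Fintype ι] (v : ι → ℂ) :
    star v ⬝ᵥ v = ((∑ i, ‖v i‖ ^ 2 : ℝ) : ℂ) := by
  simp only [dotProduct, Pi.star_apply, RCLike.star_def]
  push_cast
  refine Finset.sum_congr rfl fun i _ => ?_
  rw [Complex.conj_mul']

theorem al1_qf_rdiag (μ : Fin n → ℝ) (v : Fin n → ℂ) :
    star v ⬝ᵥ (rdiag μ *ᵥ v) = ((∑ j, μ j * ‖v j‖ ^ 2 : ℝ) : ℂ) := by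
  simp only [rdiag, Matrix.mulVec_diagonal, dotProduct, Pi.star_apply, RCLike.star_def]
  push_cast
  refine Finset.sum_congr rfl fun i _ => ?_
  rw [← Complex.conj_mul']
  ring

theorem al1_qf_conj {ι κ : Type} [Fintype ι] [Fintype κ] (U : Matrix ι κ ℂ) (D : Matrix κ κ ℂ)
    (v : ι → ℂ) :
    star v ⬝ᵥ ((U * D * Uᴴ) *ᵥ v) = star (Uᴴ *ᵥ v) ⬝ᵥ (D *ᵥ (Uᴴ *ᵥ v)) := by
  rw [Matrix.star_mulVec, Matrix.conjTranspose_conjTranspose, ← Matrix.dotProduct_mulVec,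
    Matrix.mulVec_mulVec, Matrix.mulVec_mulVec, Matrix.mul_assoc]

theorem al1_norm_unitary (U : Mat n) (hU : U ∈ Matrix.unitaryGroup (Fin n) ℂ) (v : Fin n → ℂ) :
    ∑ l, ‖(Uᴴ *ᵥ v) l‖ ^ 2 = ∑ j, ‖v j‖ ^ 2 := by
  have h1 : U * Uᴴ = 1 := (Matrix.mem_unitaryGroup_iff).mp hU
  have h2 := al1_qf_conj U 1 v
  rw [Matrix.mul_one, h1, Matrix.one_mulVec, Matrix.one_mulVec, al1_dot_self, al1_dot_self] at h2
  exact_mod_cast h2.symm

/-- the Loewner order, tested on a vector -/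
theorem al1_loewner_apply {A B : Mat n} (h : LoewnerLE A B) (v : Fin n → ℂ) :
    star v ⬝ᵥ (A *ᵥ v) ≤ star v ⬝ᵥ (B *ᵥ v) := by
  have := h.dotProduct_mulVec_nonneg v
  rw [Matrix.sub_mulVec, dotProduct_sub] at this
  exact sub_nonneg.mp this

/-- the Loewner jump, tested on a vector -/
theorem al1_jump_apply (U : Mat n) (μo μn : Fin n → ℝ)
    (h : LoewnerLE (U * rdiag μo * Uᴴ) (rdiag μn)) (v : Fin n → ℂ) :
    ∑ l, μo l * ‖(Uᴴ *ᵥ v) l‖ ^ 2 ≤ ∑ j, μn j * ‖v j‖ ^ 2 := by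
  have := al1_loewner_apply h v
  rw [al1_qf_conj, al1_qf_rdiag, al1_qf_rdiag] at this
  exact_mod_cast this

/-- WEYL: monotonicity of the sorted rates under the Loewner jump.
(dimension count: if `μn i < μo i`, the span of `e_0..e_i` and `U` (span of `e_i..e_{n-1}`) meet.) -/
theorem weyl_sorted (U : Mat n) (hU : U ∈ Matrix.unitaryGroup (Fin n) ℂ) (μo μn : Fin n → ℝ)
    (ho : Monotone μo) (hn : Monotone μn) (h : LoewnerLE (U * rdiag μo * Uᴴ) (rdiag μn)) (i : Fin n) :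
    μo i ≤ μn i := by
  classical
  by_contra hcon
  rw [not_le] at hcon
  -- a nonzero vector supported on `≤ i` whose image under `Uᴴ` is supported on `≥ i`
  obtain ⟨g, hg⟩ : ∃ g : (Fin n → ℂ) →ₗ[ℂ] (Fin n → ℂ), ∀ v l, g v l =
      if l < i then (Uᴴ *ᵥ v) l else if i < l then v l else 0 := by
    refine ⟨{ toFun := fun v l => if l < i then (Uᴴ *ᵥ v) l else if i < l then v l else 0
              map_add' := ?_, map_smul' := ?_ }, fun v l => rfl⟩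
    · intro v w
      funext l
      simp only [Matrix.mulVec_add, Pi.add_apply]
      split_ifs <;> simp
    · intro c v
      funext l
      simp only [Matrix.mulVec_smul, Pi.smul_apply, RingHom.id_apply, smul_eq_mul]
      split_ifs <;> simp
  have hns : ¬ Function.Surjective g := by
    intro hs
    obtain ⟨v, hv⟩ := hs (Pi.single i 1)
    have := congrFun hv i
    rw [hg, if_neg (lt_irrefl i), if_neg (lt_irrefl i), Pi.single_eq_same] at this
    exact zero_ne_one this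
  have hni : ¬ Function.Injective g := fun hi => hns (LinearMap.injective_iff_surjective.mp hi)
  rw [← LinearMap.ker_eq_bot, Submodule.eq_bot_iff] at hni
  push Not at hni
  obtain ⟨v, hv, hv0⟩ := hni
  rw [LinearMap.mem_ker] at hv
  have hv1 : ∀ l, l < i → (Uᴴ *ᵥ v) l = 0 := fun l hl => by
    have := congrFun hv l
    rwa [hg, if_pos hl] at this
  have hv2 : ∀ l, i < l → v l = 0 := fun l hl => by
    have := congrFun hv l
    rwa [hg, if_neg (not_lt.mpr hl.le), if_pos hl] at this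
  have hpos : 0 < ∑ j, ‖v j‖ ^ 2 := by
    obtain ⟨j, hj⟩ : ∃ j, v j ≠ 0 := by
      by_contra hc
      push Not at hc
      exact hv0 (funext hc)
    exact Finset.sum_pos' (fun j _ => by positivity) ⟨j, Finset.mem_univ j, by positivity⟩
  have h1 := al1_jump_apply U μo μn h v
  have h2 : ∑ j, μn j * ‖v j‖ ^ 2 ≤ μn i * ∑ j, ‖v j‖ ^ 2 := by
    rw [Finset.mul_sum]
    refine Finset.sum_le_sum fun j _ => ?_
    rcases le_or_gt j i with hj | hj
    · exact mul_le_mul_of_nonneg_right (hn hj) (by positivity)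
    · rw [hv2 j hj]; simp
  have h3 : μo i * ∑ l, ‖(Uᴴ *ᵥ v) l‖ ^ 2 ≤ ∑ l, μo l * ‖(Uᴴ *ᵥ v) l‖ ^ 2 := by
    rw [Finset.mul_sum]
    refine Finset.sum_le_sum fun l _ => ?_
    rcases lt_or_ge l i with hl | hl
    · rw [hv1 l hl]; simp
    · exact mul_le_mul_of_nonneg_right (ho hl) (by positivity)
  rw [al1_norm_unitary U hU] at h3
  nlinarith

/-- SOLVE: a matrix whose adjoint is bounded below has a bounded right inverse. -/
theorem solve_bounded {I E : Type} [Fintype I] [Fintype E] [DecidableEq I] [DecidableEq E]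
    (A : Matrix I E ℂ) (c : ℝ) (hc : 0 < c)
    (hA : ∀ a : I → ℂ, c ^ 2 * ∑ i, ‖a i‖ ^ 2 ≤ ∑ l, ‖(Aᴴ *ᵥ a) l‖ ^ 2) (b : I → ℂ) :
    ∃ κ : E → ℂ, A *ᵥ κ = b ∧ c ^ 2 * ∑ l, ‖κ l‖ ^ 2 ≤ ∑ i, ‖b i‖ ^ 2 := by
  have hc2 : 0 < c ^ 2 := by positivity
  -- `star a ⬝ᵥ (A Aᴴ a) = |Aᴴ a|²`
  have hq : ∀ a : I → ℂ, star a ⬝ᵥ ((A * Aᴴ) *ᵥ a) = ((∑ l, ‖(Aᴴ *ᵥ a) l‖ ^ 2 : ℝ) : ℂ) := by
    intro a
    have := al1_qf_conj A 1 a
    rw [Matrix.mul_one, Matrix.one_mulVec, al1_dot_self] at this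
    exact this
  have hinj : Function.Injective (A * Aᴴ).mulVecLin := by
    rw [← LinearMap.ker_eq_bot, LinearMap.ker_eq_bot']
    intro a ha
    rw [Matrix.mulVecLin_apply] at ha
    have h1 := hq a
    rw [ha, dotProduct_zero] at h1
    have h2 : ∑ l, ‖(Aᴴ *ᵥ a) l‖ ^ 2 = 0 := by exact_mod_cast h1.symm
    have h3 := hA a
    rw [h2] at h3
    have h4 : ∑ i, ‖a i‖ ^ 2 ≤ 0 := by
      by_contra hcon
      rw [not_le] at hcon
      nlinarith
    have h5 : ∑ i, ‖a i‖ ^ 2 = 0 := le_antisymm h4 (Finset.sum_nonneg fun i _ => by positivity)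
    rw [Finset.sum_eq_zero_iff_of_nonneg (fun i _ => by positivity)] at h5
    funext i
    have := h5 i (Finset.mem_univ i)
    simpa using this
  obtain ⟨a, ha⟩ := LinearMap.injective_iff_surjective.mp hinj b
  rw [Matrix.mulVecLin_apply] at ha
  refine ⟨Aᴴ *ᵥ a, by rw [Matrix.mulVec_mulVec, ha], ?_⟩
  obtain ⟨x, hx⟩ : ∃ x, x = ∑ l, ‖(Aᴴ *ᵥ a) l‖ ^ 2 := ⟨_, rfl⟩
  obtain ⟨y, hy⟩ : ∃ y, y = ∑ i, ‖a i‖ ^ 2 := ⟨_, rfl⟩
  obtain ⟨z, hz⟩ : ∃ z, z = ∑ i, ‖b i‖ ^ 2 := ⟨_, rfl⟩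
  have hx0 : 0 ≤ x := by rw [hx]; exact Finset.sum_nonneg fun i _ => by positivity
  have hz0 : 0 ≤ z := by rw [hz]; exact Finset.sum_nonneg fun i _ => by positivity
  have h1 : c ^ 2 * y ≤ x := by rw [hx, hy]; exact hA a
  have h2 : x ^ 2 ≤ y * z := by
    have e1 := hq a
    rw [ha, ← hx] at e1
    have e2 : x ≤ ∑ i, ‖a i‖ * ‖b i‖ := by
      have : ‖((x : ℝ) : ℂ)‖ ≤ ∑ i, ‖a i‖ * ‖b i‖ := by
        rw [← e1, dotProduct]
        refine (norm_sum_le _ _).trans (Finset.sum_le_sum fun i _ => ?_)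
        rw [norm_mul, Pi.star_apply, norm_star]
      rwa [Complex.norm_real, Real.norm_of_nonneg hx0] at this
    have e3 := Finset.sum_mul_sq_le_sq_mul_sq Finset.univ (fun i => ‖a i‖) (fun i => ‖b i‖)
    rw [hy, hz]
    exact (pow_le_pow_left₀ hx0 e2 2).trans e3
  rw [← hx, ← hz]
  rcases eq_or_lt_of_le hx0 with h0 | h0
  · rw [← h0, mul_zero]; exact hz0
  · have h3 : x * (c ^ 2 * x) ≤ x * z := by nlinarith
    exact le_of_mul_le_mul_left h3 h0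

/-- unipotent pattern: ones on the diagonal, off-diagonal entries only from a row of strictly
smaller weight to a column of larger weight. -/
def UniPat (w : Fin n → ℝ) (L : Mat n) : Prop :=
  (∀ i, L i i = 1) ∧ ∀ i l, i ≠ l → L i l ≠ 0 → w i < w l

/-! ### the `ℓ¹` norm (local copies; `Norm` is downstream) -/

theorem al1_mnorm_nonneg (A : Mat n) : 0 ≤ mnorm A :=
  Finset.sum_nonneg fun _ _ => Finset.sum_nonneg fun _ _ => norm_nonneg _

theorem al1_mnorm_add_le (A B : Mat n) : mnorm (A + B) ≤ mnorm A + mnorm B := by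
  simp only [mnorm, ← Finset.sum_add_distrib]
  exact Finset.sum_le_sum fun i _ => Finset.sum_le_sum fun j _ => norm_add_le _ _

theorem al1_mnorm_mul_le (A B : Mat n) : mnorm (A * B) ≤ mnorm A * mnorm B := by
  simp only [mnorm, Matrix.mul_apply]
  calc ∑ i, ∑ j, ‖∑ l, A i l * B l j‖ ≤ ∑ i, ∑ j, ∑ l, ‖A i l‖ * ‖B l j‖ :=
        Finset.sum_le_sum fun i _ => Finset.sum_le_sum fun j _ =>
          (norm_sum_le _ _).trans (Finset.sum_le_sum fun l _ => norm_mul_le _ _)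
    _ = ∑ i, ∑ l, ‖A i l‖ * ∑ j, ‖B l j‖ := by
        refine Finset.sum_congr rfl fun i _ => ?_
        rw [Finset.sum_comm]
        exact Finset.sum_congr rfl fun l _ => by rw [Finset.mul_sum]
    _ ≤ ∑ i, ∑ l, ‖A i l‖ * ∑ l', ∑ j, ‖B l' j‖ := by
        refine Finset.sum_le_sum fun i _ => Finset.sum_le_sum fun l _ =>
          mul_le_mul_of_nonneg_left ?_ (norm_nonneg _)
        exact Finset.single_le_sum (f := fun l => ∑ j, ‖B l j‖)
          (fun _ _ => Finset.sum_nonneg fun _ _ => norm_nonneg _) (Finset.mem_univ l)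
    _ = (∑ i, ∑ j, ‖A i j‖) * ∑ i, ∑ j, ‖B i j‖ := by
        rw [Finset.sum_mul]
        exact Finset.sum_congr rfl fun i _ => by rw [Finset.sum_mul]

theorem al1_mnorm_neg (A : Mat n) : mnorm (-A) = mnorm A := by
  simp only [mnorm, Matrix.neg_apply, norm_neg]

theorem al1_mnorm_sum_le {ι : Type} (s : Finset ι) (A : ι → Mat n) :
    mnorm (∑ k ∈ s, A k) ≤ ∑ k ∈ s, mnorm (A k) := by
  classical
  induction s using Finset.induction_on with
  | empty => simp [mnorm]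
  | insert a s ha ih =>
    rw [Finset.sum_insert ha, Finset.sum_insert ha]
    exact (al1_mnorm_add_le _ _).trans (by linarith)

theorem al1_mnorm_pow_le (A : Mat n) (ν : ℝ) (h : mnorm A ≤ ν) (k : ℕ) :
    mnorm (A ^ (k + 1)) ≤ ν ^ (k + 1) := by
  have hν : 0 ≤ ν := (al1_mnorm_nonneg A).trans h
  induction k with
  | zero => simpa using h
  | succ k ih =>
    rw [pow_succ A, pow_succ ν]
    exact (al1_mnorm_mul_le _ _).trans (mul_le_mul ih h (al1_mnorm_nonneg _) (by positivity))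

theorem al1_geom_le (ν : ℝ) (hν : 0 ≤ ν) (m : ℕ) :
    ∑ k ∈ Finset.range (m + 1), ν ^ k ≤ (1 + ν) ^ m := by
  induction m with
  | zero => simp
  | succ m ih =>
    rw [Finset.sum_range_succ', pow_succ (1 + ν)]
    have h1 : ∑ k ∈ Finset.range (m + 1), ν ^ (k + 1) = ν * ∑ k ∈ Finset.range (m + 1), ν ^ k := by
      rw [Finset.mul_sum]
      exact Finset.sum_congr rfl fun k _ => by ring
    have h2 : (1 : ℝ) ≤ (1 + ν) ^ m := one_le_pow₀ (by linarith)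
    rw [h1]
    nlinarith

/-- the rank of an index with respect to the weights -/
noncomputable def al1Rank (w : Fin n → ℝ) (i : Fin n) : ℕ :=
  (Finset.univ.filter fun j => w j < w i).card

theorem al1Rank_lt (w : Fin n → ℝ) (i : Fin n) : al1Rank w i < n := by
  have : (Finset.univ.filter fun j => w j < w i) ⊂ (Finset.univ : Finset (Fin n)) := by
    rw [Finset.ssubset_univ_iff]
    intro h
    have := Finset.mem_univ i
    rw [← h, Finset.mem_filter] at this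
    exact lt_irrefl _ this.2
  have h2 := Finset.card_lt_card this
  rw [Finset.card_univ, Fintype.card_fin] at h2
  exact h2

theorem al1Rank_lt_iff (w : Fin n → ℝ) (i l : Fin n) : al1Rank w i < al1Rank w l ↔ w i < w l := by
  constructor
  · intro h
    by_contra hc
    rw [not_lt] at hc
    refine absurd h (not_lt.mpr (Finset.card_le_card ?_))
    intro j hj
    rw [Finset.mem_filter] at hj ⊢
    exact ⟨hj.1, hj.2.trans_le hc⟩
  · intro h
    refine Finset.card_lt_card ?_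
    rw [Finset.ssubset_iff_of_subset]
    · exact ⟨i, by simp [h], by simp⟩
    · intro j hj
      rw [Finset.mem_filter] at hj ⊢
      exact ⟨hj.1, hj.2.trans h⟩

theorem al1_pow_pattern (w : Fin n → ℝ) (N : Mat n) (hN : ∀ i l, N i l ≠ 0 → w i < w l) (k : ℕ) :
    ∀ i l, (N ^ k) i l ≠ 0 → al1Rank w i + k ≤ al1Rank w l := by
  induction k with
  | zero =>
    intro i l h
    rw [pow_zero, Matrix.one_apply] at h
    by_cases hil : i = l
    · rw [hil]; simp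
    · rw [if_neg hil] at h; exact absurd rfl h
  | succ k ih =>
    intro i l h
    rw [pow_succ, Matrix.mul_apply] at h
    obtain ⟨j, -, hj⟩ := Finset.exists_ne_zero_of_sum_ne_zero h
    have h1 := ih i j (left_ne_zero_of_mul hj)
    have h2 := (al1Rank_lt_iff w j l).mpr (hN j l (right_ne_zero_of_mul hj))
    omega

/-- UNIP: inverse of a unipotent pattern matrix. -/
theorem unipat_inverse (w : Fin n → ℝ) (K : Mat n) (hK : UniPat w K) (ν : ℝ)
    (hν : mnorm (K - 1) ≤ ν) :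
    ∃ L : Mat n, UniPat w L ∧ L * K = 1 ∧ K * L = 1 ∧ mnorm (L - 1) ≤ (1 + ν) ^ n := by
  have hν0 : 0 ≤ ν := (al1_mnorm_nonneg _).trans hν
  obtain ⟨x, hx⟩ : ∃ x : Mat n, x = -(K - 1) := ⟨_, rfl⟩
  have hxp : ∀ i l, x i l ≠ 0 → w i < w l := by
    intro i l h
    by_cases hil : i = l
    · exfalso
      apply h
      rw [hx, hil, Matrix.neg_apply, Matrix.sub_apply, hK.1 l, Matrix.one_apply_eq, sub_self, neg_zero]
    · refine hK.2 i l hil ?_
      intro h0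
      apply h
      rw [hx, Matrix.neg_apply, Matrix.sub_apply, h0, Matrix.one_apply_ne hil, sub_self, neg_zero]
  have hpat := al1_pow_pattern w x hxp
  have hnil : x ^ (n + 1) = 0 := by
    ext i l
    by_contra h
    have h1 := hpat (n + 1) i l h
    have h2 := al1Rank_lt w l
    omega
  have hxK : x - 1 = -K := by rw [hx]; abel
  have hL1 : (∑ k ∈ Finset.range (n + 1), x ^ k) - 1 = ∑ k ∈ Finset.range n, x ^ (k + 1) := by
    rw [Finset.sum_range_succ', pow_zero, add_sub_cancel_right]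
  refine ⟨∑ k ∈ Finset.range (n + 1), x ^ k, ⟨?_, ?_⟩, ?_, ?_, ?_⟩
  · intro i
    have : ((∑ k ∈ Finset.range (n + 1), x ^ k) - 1) i i = 0 := by
      rw [hL1, Matrix.sum_apply]
      refine Finset.sum_eq_zero fun k _ => ?_
      by_contra h
      have := hpat (k + 1) i i h
      omega
    rw [Matrix.sub_apply, Matrix.one_apply_eq, sub_eq_zero] at this
    exact this
  · intro i l hil h
    rw [Matrix.sum_apply] at h
    obtain ⟨k, -, hk⟩ := Finset.exists_ne_zero_of_sum_ne_zero h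
    have h1 := hpat k i l hk
    rcases Nat.eq_zero_or_pos k with h0 | h0
    · rw [h0, pow_zero, Matrix.one_apply_ne hil] at hk
      exact absurd rfl hk
    · exact (al1Rank_lt_iff w i l).mp (by omega)
  · have := geom_sum_mul x (n + 1)
    rw [hnil, hxK, mul_neg, zero_sub, neg_inj] at this
    exact this
  · have := mul_geom_sum x (n + 1)
    rw [hnil, hxK, neg_mul, zero_sub, neg_inj] at this
    exact this
  · rw [hL1]
    have hxn : mnorm x ≤ ν := by rw [hx, al1_mnorm_neg]; exact hν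
    refine (al1_mnorm_sum_le _ _).trans ?_
    refine (Finset.sum_le_sum fun k _ => al1_mnorm_pow_le x ν hxn k).trans ?_
    have := al1_geom_le ν hν0 n
    rw [Finset.sum_range_succ', pow_zero] at this
    linarith

/-! ### operator bound of the `ℓ¹` norm -/

theorem al1_entry_le_mnorm (A : Mat n) (i j : Fin n) : ‖A i j‖ ≤ mnorm A :=
  (Finset.single_le_sum (f := fun j => ‖A i j‖) (fun _ _ => norm_nonneg _) (Finset.mem_univ j)).trans
    (Finset.single_le_sum (f := fun i => ∑ j, ‖A i j‖)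
      (fun _ _ => Finset.sum_nonneg fun _ _ => norm_nonneg _) (Finset.mem_univ i))

theorem al1_sum_sq_entries_le (M : Mat n) : ∑ j, ∑ i, ‖M j i‖ ^ 2 ≤ mnorm M ^ 2 := by
  calc ∑ j, ∑ i, ‖M j i‖ ^ 2 ≤ ∑ j, ∑ i, ‖M j i‖ * mnorm M := by
        refine Finset.sum_le_sum fun j _ => Finset.sum_le_sum fun i _ => ?_
        rw [sq]
        exact mul_le_mul_of_nonneg_left (al1_entry_le_mnorm M j i) (norm_nonneg _)
    _ = mnorm M ^ 2 := by
        rw [sq]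
        conv_rhs => rw [mnorm, Finset.sum_mul]
        exact Finset.sum_congr rfl fun j _ => by rw [Finset.sum_mul]; rfl

theorem al1_mulVec_sq_le (M : Mat n) (v : Fin n → ℂ) :
    ∑ j, ‖(M *ᵥ v) j‖ ^ 2 ≤ mnorm M ^ 2 * ∑ i, ‖v i‖ ^ 2 := by
  have h1 : ∀ j, ‖(M *ᵥ v) j‖ ^ 2 ≤ (∑ i, ‖M j i‖ ^ 2) * ∑ i, ‖v i‖ ^ 2 := by
    intro j
    have e1 : ‖(M *ᵥ v) j‖ ≤ ∑ i, ‖M j i‖ * ‖v i‖ := by
      rw [Matrix.mulVec, dotProduct]
      exact (norm_sum_le _ _).trans (Finset.sum_le_sum fun i _ => (norm_mul _ _).le)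
    exact (pow_le_pow_left₀ (norm_nonneg _) e1 2).trans (Finset.sum_mul_sq_le_sq_mul_sq _ _ _)
  calc ∑ j, ‖(M *ᵥ v) j‖ ^ 2 ≤ ∑ j, (∑ i, ‖M j i‖ ^ 2) * ∑ i, ‖v i‖ ^ 2 :=
        Finset.sum_le_sum fun j _ => h1 j
    _ = (∑ j, ∑ i, ‖M j i‖ ^ 2) * ∑ i, ‖v i‖ ^ 2 := by rw [Finset.sum_mul]
    _ ≤ _ := mul_le_mul_of_nonneg_right (al1_sum_sq_entries_le M)
        (Finset.sum_nonneg fun i _ => by positivity)

theorem al1_mnorm_conjTranspose (M : Mat n) : mnorm Mᴴ = mnorm M := by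
  simp only [mnorm, Matrix.conjTranspose_apply, norm_star]
  exact Finset.sum_comm

/-! ### extension by zero -/

/-- extension by zero -/
noncomputable def al1Ext (p : Fin n → Prop) [DecidablePred p] (a : {j // p j} → ℂ) : Fin n → ℂ :=
  fun j => if h : p j then a ⟨j, h⟩ else 0

theorem al1Ext_val (p : Fin n → Prop) [DecidablePred p] (a : {j // p j} → ℂ) (i : {j // p j}) :
    al1Ext p a i.1 = a i := by
  rw [al1Ext, dif_pos i.2]

theorem al1Ext_of_not (p : Fin n → Prop) [DecidablePred p] (a : {j // p j} → ℂ) (j : Fin n)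
    (h : ¬ p j) : al1Ext p a j = 0 := dif_neg h

theorem al1_sum_ext {M : Type} [AddCommMonoid M] (p : Fin n → Prop) [DecidablePred p]
    (a : {j // p j} → ℂ) (F : Fin n → ℂ → M) (hF : ∀ j, F j 0 = 0) :
    ∑ i : {j // p j}, F i.1 (a i) = ∑ j, F j (al1Ext p a j) := by
  have h1 : ∑ j, F j (al1Ext p a j) = ∑ j ∈ Finset.univ.filter p, F j (al1Ext p a j) := by
    rw [Finset.sum_filter]
    refine Finset.sum_congr rfl fun j _ => ?_
    by_cases h : p j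
    · rw [if_pos h]
    · rw [if_neg h, al1Ext_of_not p a j h, hF]
  rw [h1, Finset.sum_subtype (p := p) (Finset.univ.filter p) (fun x => by simp)]
  exact Finset.sum_congr rfl fun i _ => by rw [al1Ext_val]

theorem al1_sum_subtype {M : Type} [AddCommMonoid M] (p : Fin n → Prop) [DecidablePred p]
    (g : Fin n → M) : ∑ i : {j // p j}, g i.1 = ∑ j, if p j then g j else 0 := by
  rw [← Finset.sum_filter, Finset.sum_subtype (p := p) (Finset.univ.filter p) (fun x => by simp)]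

/-- SOLVE with supports. -/
theorem al1_solve_supported (B : Mat n) (PI PE : Fin n → Prop) [DecidablePred PI] [DecidablePred PE]
    (c : ℝ) (hc : 0 < c)
    (hA : ∀ a : Fin n → ℂ, (∀ j, ¬ PI j → a j = 0) →
      c ^ 2 * ∑ j, ‖a j‖ ^ 2 ≤ ∑ l, if PE l then ‖(Bᴴ *ᵥ a) l‖ ^ 2 else 0) (b : Fin n → ℂ) :
    ∃ κ : Fin n → ℂ, (∀ l, ¬ PE l → κ l = 0) ∧ (∀ i, PI i → (B *ᵥ κ) i = b i) ∧
      c ^ 2 * ∑ l, ‖κ l‖ ^ 2 ≤ ∑ i, ‖b i‖ ^ 2 := by
  obtain ⟨A, hAdef⟩ : ∃ A : Matrix {j // PI j} {l // PE l} ℂ, A = fun i l => B i.1 l.1 := ⟨_, rfl⟩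
  have hA' : ∀ a : {j // PI j} → ℂ, c ^ 2 * ∑ i, ‖a i‖ ^ 2 ≤ ∑ l, ‖(Aᴴ *ᵥ a) l‖ ^ 2 := by
    intro a
    have k1 : ∑ i, ‖a i‖ ^ 2 = ∑ j, ‖al1Ext PI a j‖ ^ 2 :=
      al1_sum_ext PI a (fun _ z => ‖z‖ ^ 2) (fun _ => by simp)
    have k2 : ∀ l : {l // PE l}, (Aᴴ *ᵥ a) l = (Bᴴ *ᵥ al1Ext PI a) l.1 := by
      intro l
      rw [Matrix.mulVec, dotProduct, Matrix.mulVec, dotProduct]
      simp only [Matrix.conjTranspose_apply, hAdef]
      exact al1_sum_ext PI a (fun j z => star (B j l.1) * z) (fun _ => by simp)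
    have k3 : ∑ l, ‖(Aᴴ *ᵥ a) l‖ ^ 2 = ∑ l : {l // PE l}, ‖(Bᴴ *ᵥ al1Ext PI a) l.1‖ ^ 2 :=
      Finset.sum_congr rfl fun l _ => by rw [k2 l]
    rw [k1, k3, al1_sum_subtype PE (fun l => ‖(Bᴴ *ᵥ al1Ext PI a) l‖ ^ 2)]
    exact hA _ (al1Ext_of_not PI a)
  obtain ⟨κ, hκ1, hκ2⟩ := solve_bounded A c hc hA' (fun i => b i.1)
  refine ⟨al1Ext PE κ, al1Ext_of_not PE κ, ?_, ?_⟩
  · intro i hi
    have := congrFun hκ1 ⟨i, hi⟩
    rw [← this, Matrix.mulVec, dotProduct, Matrix.mulVec, dotProduct]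
    simp only [hAdef]
    exact (al1_sum_ext PE κ (fun l z => B i l * z) (fun _ => by simp)).symm
  · have k1 : ∑ l, ‖κ l‖ ^ 2 = ∑ l, ‖al1Ext PE κ l‖ ^ 2 :=
      al1_sum_ext PE κ (fun _ z => ‖z‖ ^ 2) (fun _ => by simp)
    rw [← k1]
    refine hκ2.trans ?_
    rw [al1_sum_subtype PI (fun i => ‖b i‖ ^ 2)]
    refine Finset.sum_le_sum fun i _ => ?_
    split_ifs
    · exact le_rfl
    · positivity

/-! ### the lower bound -/

theorem al1_arith (R ε ζ r N Y C Xs SE Sc Q : ℝ) (hε : 0 < ε) (hεR : ε ≤ R) (hζ0 : 0 ≤ ζ)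
    (hζ : 12 * R * ζ ≤ ε) (hr0 : 0 ≤ r) (hrR : r ≤ R) (hN : 0 ≤ N) (hY : Y ≤ ζ ^ 2 * N)
    (hC0 : 0 ≤ C) (hC : C ≤ ζ * N) (hX : N - 2 * C ≤ Xs) (hS : SE + Sc = Xs)
    (h3 : (r + ε) * Sc ≤ Q) (h4 : Q ≤ r * N + 2 * R * C + R * Y) (hSE : 0 ≤ SE) :
    ε / (5 * R) * N ≤ SE := by
  have hR : 0 < R := hε.trans_le hεR
  have hζ1 : ζ ≤ 1 / 12 := by
    have : 12 * R * ζ ≤ R * 1 := by linarith
    have h2 : R * (12 * ζ) ≤ R * 1 := by linarith
    have := le_of_mul_le_mul_left h2 hR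
    linarith
  have e1 : (r + ε) * (N - 2 * C) ≤ (r + ε) * Xs := mul_le_mul_of_nonneg_left hX (by linarith)
  have e2 : (r + ε) * SE = (r + ε) * Xs - (r + ε) * Sc := by rw [← hS]; ring
  have e3 : (r + ε) * C ≤ 2 * R * C := mul_le_mul_of_nonneg_right (by linarith) hC0
  have e4 : R * C ≤ R * (ζ * N) := mul_le_mul_of_nonneg_left hC hR.le
  have e5 : R * Y ≤ R * (ζ ^ 2 * N) := mul_le_mul_of_nonneg_left hY hR.le
  have e6 : R * (ζ * N) ≤ ε / 12 * N := by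
    have : R * ζ ≤ ε / 12 := by linarith
    calc R * (ζ * N) = (R * ζ) * N := by ring
      _ ≤ ε / 12 * N := mul_le_mul_of_nonneg_right this hN
  have e7 : R * (ζ ^ 2 * N) ≤ ε / 144 * N := by
    have h1 : R * ζ ≤ ε / 12 := by linarith
    have h2 : (R * ζ) * ζ ≤ ε / 12 * (1 / 12) :=
      mul_le_mul h1 hζ1 hζ0 (by positivity)
    calc R * (ζ ^ 2 * N) = ((R * ζ) * ζ) * N := by ring
      _ ≤ (ε / 12 * (1 / 12)) * N := mul_le_mul_of_nonneg_right h2 hN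
      _ = ε / 144 * N := by ring
  have e8 : (r + ε) * SE ≤ 2 * R * SE := mul_le_mul_of_nonneg_right (by linarith) hSE
  have e9 : 71 / 144 * (ε * N) ≤ 2 * R * SE := by nlinarith
  have e10 : ε / (5 * R) * N = (ε * N) / (5 * R) := by ring
  rw [e10, div_le_iff₀ (by positivity)]
  have : 0 ≤ ε * N := by positivity
  nlinarith

theorem al1_lower (U Z : Mat n) (μo μn : Fin n → ℝ) (R ε ζ r : ℝ)
    (hU : U ∈ Matrix.unitaryGroup (Fin n) ℂ)
    (hjump : LoewnerLE (U * rdiag μo * Uᴴ) (rdiag μn))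
    (hμo : ∀ l, 0 ≤ μo l) (hμn : ∀ i, 0 ≤ μn i ∧ μn i ≤ R) (hε : 0 < ε) (hεR : ε ≤ R)
    (hZ : mnorm Z ≤ ζ) (hζ : 12 * R * ζ ≤ ε)
    (PI PE : Fin n → Prop) [DecidablePred PE] (hr0 : 0 ≤ r) (hrR : r ≤ R)
    (h1 : ∀ j, PI j → μn j ≤ r) (h2 : ∀ l, ¬ PE l → r + ε ≤ μo l)
    (a : Fin n → ℂ) (ha : ∀ j, ¬ PI j → a j = 0) :
    ε / (5 * R) * ∑ j, ‖a j‖ ^ 2 ≤ ∑ l, if PE l then ‖(((1 + Z) * U)ᴴ *ᵥ a) l‖ ^ 2 else 0 := by
  have hR : 0 < R := hε.trans_le hεR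
  have hζ0 : 0 ≤ ζ := (al1_mnorm_nonneg Z).trans hZ
  obtain ⟨y, hy⟩ : ∃ y : Fin n → ℂ, y = Zᴴ *ᵥ a := ⟨_, rfl⟩
  obtain ⟨x, hx⟩ : ∃ x : Fin n → ℂ, x = a + y := ⟨_, rfl⟩
  have hBx : ((1 + Z) * U)ᴴ *ᵥ a = Uᴴ *ᵥ x := by
    rw [Matrix.conjTranspose_mul, Matrix.conjTranspose_add, Matrix.conjTranspose_one,
      ← Matrix.mulVec_mulVec, Matrix.add_mulVec, Matrix.one_mulVec, hx, hy]
  rw [hBx]
  have hN : 0 ≤ ∑ j, ‖a j‖ ^ 2 := Finset.sum_nonneg fun j _ => by positivity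
  have hY : ∑ j, ‖y j‖ ^ 2 ≤ ζ ^ 2 * ∑ j, ‖a j‖ ^ 2 := by
    rw [hy]
    refine (al1_mulVec_sq_le Zᴴ a).trans (mul_le_mul_of_nonneg_right ?_ hN)
    rw [al1_mnorm_conjTranspose]
    exact pow_le_pow_left₀ (al1_mnorm_nonneg Z) hZ 2
  have hC0 : 0 ≤ ∑ j, ‖a j‖ * ‖y j‖ := Finset.sum_nonneg fun j _ => by positivity
  have hC : ∑ j, ‖a j‖ * ‖y j‖ ≤ ζ * ∑ j, ‖a j‖ ^ 2 := by
    have e1 := Finset.sum_mul_sq_le_sq_mul_sq Finset.univ (fun j => ‖a j‖) (fun j => ‖y j‖)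
    have e2 : (∑ j, ‖a j‖ * ‖y j‖) ^ 2 ≤ (ζ * ∑ j, ‖a j‖ ^ 2) ^ 2 := by
      refine e1.trans ?_
      calc (∑ j, ‖a j‖ ^ 2) * ∑ j, ‖y j‖ ^ 2 ≤ (∑ j, ‖a j‖ ^ 2) * (ζ ^ 2 * ∑ j, ‖a j‖ ^ 2) :=
            mul_le_mul_of_nonneg_left hY hN
        _ = _ := by ring
    exact (pow_le_pow_iff_left₀ hC0 (by positivity) two_ne_zero).mp e2
  have hxj : ∀ j, x j = a j + y j := fun j => by rw [hx]; rfl
  have hX : ∑ j, ‖a j‖ ^ 2 - 2 * ∑ j, ‖a j‖ * ‖y j‖ ≤ ∑ j, ‖x j‖ ^ 2 := by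
    rw [Finset.mul_sum, ← Finset.sum_sub_distrib]
    refine Finset.sum_le_sum fun j _ => ?_
    have e1 : ‖a j‖ ≤ ‖x j‖ + ‖y j‖ := by
      have : a j = x j - y j := by rw [hxj]; ring
      rw [this]
      exact norm_sub_le _ _
    have e2 := norm_nonneg (a j)
    have e3 := norm_nonneg (y j)
    have e4 := norm_nonneg (x j)
    rcases le_total (‖a j‖) (2 * ‖y j‖) with h | h
    · nlinarith
    · have : ‖a j‖ - ‖y j‖ ≤ ‖x j‖ := by linarith
      have h5 : 0 ≤ ‖a j‖ - ‖y j‖ := by linarith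
      nlinarith [mul_self_le_mul_self h5 this]
  have hS : (∑ l, if PE l then ‖(Uᴴ *ᵥ x) l‖ ^ 2 else 0)
      + (∑ l, if PE l then 0 else ‖(Uᴴ *ᵥ x) l‖ ^ 2) = ∑ j, ‖x j‖ ^ 2 := by
    rw [← al1_norm_unitary U hU x, ← Finset.sum_add_distrib]
    refine Finset.sum_congr rfl fun l _ => ?_
    split_ifs <;> simp
  have h3 : (r + ε) * (∑ l, if PE l then 0 else ‖(Uᴴ *ᵥ x) l‖ ^ 2) ≤ ∑ j, μn j * ‖x j‖ ^ 2 := by
    refine le_trans ?_ (al1_jump_apply U μo μn hjump x)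
    rw [Finset.mul_sum]
    refine Finset.sum_le_sum fun l _ => ?_
    split_ifs with h
    · rw [mul_zero]
      exact mul_nonneg (hμo l) (by positivity)
    · exact mul_le_mul_of_nonneg_right (h2 l h) (by positivity)
  have h4 : ∑ j, μn j * ‖x j‖ ^ 2 ≤ r * ∑ j, ‖a j‖ ^ 2 + 2 * R * ∑ j, ‖a j‖ * ‖y j‖
      + R * ∑ j, ‖y j‖ ^ 2 := by
    rw [Finset.mul_sum, Finset.mul_sum, Finset.mul_sum, ← Finset.sum_add_distrib,
      ← Finset.sum_add_distrib]
    refine Finset.sum_le_sum fun j _ => ?_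
    have e2 := norm_nonneg (a j)
    have e3 := norm_nonneg (y j)
    have e4 := norm_nonneg (x j)
    obtain ⟨m0, m1⟩ := hμn j
    by_cases hj : PI j
    · have e1 : ‖x j‖ ≤ ‖a j‖ + ‖y j‖ := by rw [hxj]; exact norm_add_le _ _
      have e5 : ‖x j‖ ^ 2 ≤ (‖a j‖ + ‖y j‖) ^ 2 := pow_le_pow_left₀ e4 e1 2
      have e6 : μn j * ‖x j‖ ^ 2 ≤ μn j * (‖a j‖ + ‖y j‖) ^ 2 := mul_le_mul_of_nonneg_left e5 m0
      have e7 : μn j * ‖a j‖ ^ 2 ≤ r * ‖a j‖ ^ 2 := mul_le_mul_of_nonneg_right (h1 j hj) (by positivity)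
      have e8 : μn j * (2 * (‖a j‖ * ‖y j‖) + ‖y j‖ ^ 2) ≤ R * (2 * (‖a j‖ * ‖y j‖) + ‖y j‖ ^ 2) :=
        mul_le_mul_of_nonneg_right m1 (by positivity)
      nlinarith
    · have e1 : x j = y j := by rw [hxj, ha j hj, zero_add]
      rw [e1, ha j hj, norm_zero]
      have : μn j * ‖y j‖ ^ 2 ≤ R * ‖y j‖ ^ 2 := mul_le_mul_of_nonneg_right m1 (by positivity)
      simpa using this
  have hSE : 0 ≤ ∑ l, if PE l then ‖(Uᴴ *ᵥ x) l‖ ^ 2 else 0 :=
    Finset.sum_nonneg fun l _ => by split_ifs <;> positivity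
  exact al1_arith R ε ζ r _ _ _ _ _ _ _ hε hεR hζ0 hζ hr0 hrR hN hY hC0 hC hX hS h3 h4 hSE

theorem al1_col_norm (U Z : Mat n) (ζ : ℝ) (hU : U ∈ Matrix.unitaryGroup (Fin n) ℂ)
    (hZ : mnorm Z ≤ ζ) (l : Fin n) : ∑ i, ‖((1 + Z) * U) i l‖ ^ 2 ≤ 2 + 2 * ζ ^ 2 := by
  have hUs : Uᴴ ∈ Matrix.unitaryGroup (Fin n) ℂ := by
    rw [← Matrix.star_eq_conjTranspose]
    exact Unitary.star_mem hU
  obtain ⟨u, hu⟩ : ∃ u : Fin n → ℂ, u = U *ᵥ Pi.single l 1 := ⟨_, rfl⟩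
  have hu1 : ∑ i, ‖u i‖ ^ 2 = 1 := by
    have := al1_norm_unitary Uᴴ hUs (Pi.single l 1)
    rw [Matrix.conjTranspose_conjTranspose, ← hu] at this
    rw [this, Finset.sum_eq_single l]
    · simp
    · intro j _ hj
      rw [Pi.single_eq_of_ne hj]; simp
    · intro h; exact absurd (Finset.mem_univ l) h
  have hB : ∀ i, ((1 + Z) * U) i l = u i + (Z *ᵥ u) i := by
    intro i
    have : ((1 + Z) * U) *ᵥ Pi.single l 1 = u + Z *ᵥ u := by
      rw [← Matrix.mulVec_mulVec, ← hu, Matrix.add_mulVec, Matrix.one_mulVec]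
    have h2 := congrFun this i
    rw [Matrix.mulVec_single_one] at h2
    exact h2
  have hZu : ∑ i, ‖(Z *ᵥ u) i‖ ^ 2 ≤ ζ ^ 2 := by
    have := al1_mulVec_sq_le Z u
    rw [hu1, mul_one] at this
    exact this.trans (pow_le_pow_left₀ (al1_mnorm_nonneg Z) hZ 2)
  calc ∑ i, ‖((1 + Z) * U) i l‖ ^ 2 ≤ ∑ i, (2 * ‖u i‖ ^ 2 + 2 * ‖(Z *ᵥ u) i‖ ^ 2) := by
        refine Finset.sum_le_sum fun i _ => ?_
        rw [hB]
        have e1 := norm_add_le (u i) ((Z *ᵥ u) i)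
        have e2 := pow_le_pow_left₀ (norm_nonneg _) e1 2
        nlinarith [sq_nonneg (‖u i‖ - ‖(Z *ᵥ u) i‖)]
    _ = 2 * ∑ i, ‖u i‖ ^ 2 + 2 * ∑ i, ‖(Z *ᵥ u) i‖ ^ 2 := by
        rw [Finset.sum_add_distrib, Finset.mul_sum, Finset.mul_sum]
    _ ≤ 2 + 2 * ζ ^ 2 := by rw [hu1]; linarith

theorem al1_column (U Z : Mat n) (μo μn wo wn : Fin n → ℝ) (R ε ζ : ℝ)
    (hU : U ∈ Matrix.unitaryGroup (Fin n) ℂ)
    (hjump : LoewnerLE (U * rdiag μo * Uᴴ) (rdiag μn))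
    (hμo : ∀ l, 0 ≤ μo l) (hμn : ∀ i, 0 ≤ μn i ∧ μn i ≤ R) (hε : 0 < ε) (hεR : ε ≤ R)
    (hpass : ∀ i l, μo l - ε ≤ μn i → wo l ≤ wn i)
    (hZ : mnorm Z ≤ ζ) (hζ : 12 * R * ζ ≤ ε) (l : Fin n) :
    ∃ κ : Fin n → ℂ, (∀ l', ¬ wo l' < wo l → κ l' = 0) ∧
      (∀ l', ‖κ l'‖ ≤ 4 * Real.sqrt (R / ε)) ∧
      ∀ i, wn i < wo l → (((1 + Z) * U) *ᵥ κ) i = - ((1 + Z) * U) i l := by
  classical
  have hR : 0 < R := hε.trans_le hεR
  have hζ0 : 0 ≤ ζ := (al1_mnorm_nonneg Z).trans hZ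
  by_cases hI : ∃ i, wn i < wo l
  · obtain ⟨i1, hi1⟩ := hI
    obtain ⟨i0, hi0, hmax⟩ := Finset.exists_max_image (Finset.univ.filter fun i => wn i < wo l) μn
      ⟨i1, by simp [hi1]⟩
    rw [Finset.mem_filter] at hi0
    have h1 : ∀ j, wn j < wo l → μn j ≤ μn i0 := fun j hj => hmax j (by simp [hj])
    have h2 : ∀ l', ¬ wo l' < wo l → μn i0 + ε ≤ μo l' := by
      intro l' hl'
      by_contra hc
      rw [not_le] at hc
      exact hl' ((hpass i0 l' (by linarith)).trans_lt hi0.2)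
    have hc2 : 0 < ε / (5 * R) := by positivity
    have hsq : Real.sqrt (ε / (5 * R)) ^ 2 = ε / (5 * R) := Real.sq_sqrt hc2.le
    obtain ⟨κ, k1, k2, k3⟩ := al1_solve_supported ((1 + Z) * U) (fun i => wn i < wo l)
      (fun l' => wo l' < wo l) (Real.sqrt (ε / (5 * R))) (Real.sqrt_pos.mpr hc2)
      (fun a ha => by
        rw [hsq]
        exact al1_lower U Z μo μn R ε ζ (μn i0) hU hjump hμo hμn hε hεR hZ hζ
          (fun i => wn i < wo l) (fun l' => wo l' < wo l) (hμn i0).1 (hμn i0).2 h1 h2 a ha)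
      (fun i => - ((1 + Z) * U) i l)
    refine ⟨κ, k1, ?_, k2⟩
    intro l'
    rw [hsq] at k3
    have hζ1 : ζ ≤ 1 / 12 := by
      have h2 : R * (12 * ζ) ≤ R * 1 := by linarith
      have := le_of_mul_le_mul_left h2 hR
      linarith
    have e1 : ∑ i, ‖- ((1 + Z) * U) i l‖ ^ 2 ≤ 16 / 5 := by
      simp only [norm_neg]
      refine (al1_col_norm U Z ζ hU hZ l).trans ?_
      nlinarith
    have e2 : ‖κ l'‖ ^ 2 ≤ ∑ l', ‖κ l'‖ ^ 2 :=
      Finset.single_le_sum (f := fun l' => ‖κ l'‖ ^ 2) (fun _ _ => by positivity)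
        (Finset.mem_univ l')
    have e3 : ε / (5 * R) * ‖κ l'‖ ^ 2 ≤ 16 / 5 :=
      (mul_le_mul_of_nonneg_left e2 hc2.le).trans (k3.trans e1)
    have e4 : ‖κ l'‖ ^ 2 ≤ 16 * (R / ε) := by
      have : ε / (5 * R) * ‖κ l'‖ ^ 2 = ‖κ l'‖ ^ 2 * ε / (5 * R) := by ring
      rw [this, div_le_iff₀ (by positivity)] at e3
      rw [← mul_div_assoc, le_div_iff₀ hε]
      linarith
    have e5 : (4 * Real.sqrt (R / ε)) ^ 2 = 16 * (R / ε) := by
      rw [mul_pow, Real.sq_sqrt (by positivity)]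
      norm_num
    rw [← e5] at e4
    exact (pow_le_pow_iff_left₀ (norm_nonneg _) (by positivity) two_ne_zero).mp e4
  · refine ⟨0, fun _ _ => rfl, fun l' => ?_, fun i hi => absurd ⟨i, hi⟩ hI⟩
    rw [Pi.zero_apply, norm_zero]
    positivity

/-- ALIGN1: the one step alignment. -/
theorem align1 (U Z : Mat n) (μo μn wo wn : Fin n → ℝ) (R ε ζ : ℝ)
    (hU : U ∈ Matrix.unitaryGroup (Fin n) ℂ)
    (hjump : LoewnerLE (U * rdiag μo * Uᴴ) (rdiag μn))
    (hμo : ∀ l, 0 ≤ μo l) (hμn : ∀ i, 0 ≤ μn i ∧ μn i ≤ R) (hε : 0 < ε) (hεR : ε ≤ R)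
    (hpass : ∀ i l, μo l - ε ≤ μn i → wo l ≤ wn i)
    (hZ : mnorm Z ≤ ζ) (hζ : 12 * R * ζ ≤ ε) :
    ∃ K : Mat n, UniPat wo K ∧ (∀ l' l, l' ≠ l → ‖K l' l‖ ≤ 4 * Real.sqrt (R / ε)) ∧
      ∀ i l, wn i < wo l → ((1 + Z) * U * K) i l = 0 := by
  choose κ k1 k2 k3 using
    al1_column U Z μo μn wo wn R ε ζ hU hjump hμo hμn hε hεR hpass hZ hζ
  obtain ⟨K, hK⟩ : ∃ K : Mat n, ∀ l' l, K l' l = (1 : Mat n) l' l + κ l l' :=
    ⟨Matrix.of fun l' l => (1 : Mat n) l' l + κ l l', fun _ _ => rfl⟩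
  refine ⟨K, ⟨?_, ?_⟩, ?_, ?_⟩
  · intro i
    rw [hK, Matrix.one_apply_eq, k1 i i (lt_irrefl _), add_zero]
  · intro i l hil h
    rw [hK, Matrix.one_apply_ne hil, zero_add] at h
    by_contra hc
    exact h (k1 l i hc)
  · intro l' l hl
    rw [hK, Matrix.one_apply_ne hl, zero_add]
    exact k2 l l'
  · intro i l hil
    have := k3 l i hil
    rw [Matrix.mulVec, dotProduct] at this
    rw [Matrix.mul_apply]
    simp only [hK, mul_add]
    rw [Finset.sum_add_distrib, this, ← Matrix.mul_apply, Matrix.mul_one, add_neg_cancel]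

/-- CONJ: conjugation of a unipotent pattern matrix by the diagonal contraction is exponentially
close to the identity. -/
theorem conj_small (w μ : Fin n → ℝ) (T ε : ℝ) (hT : 0 < T)
    (hW2 : ∀ i l, μ l - ε ≤ μ i → w l ≤ w i) (L : Mat n) (hL : UniPat w L) :
    UniPat w (rdiag (fun i => Real.exp (μ i * T / 2)) * L * rdiag (fun i => Real.exp (-(μ i * T) / 2)))
      ∧ mnorm (rdiag (fun i => Real.exp (μ i * T / 2)) * L * rdiag (fun i => Real.exp (-(μ i * T) / 2)) - 1)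
        ≤ mnorm (L - 1) * Real.exp (-(ε * T) / 2) := by
  have hent : ∀ i l, (rdiag (fun i => Real.exp (μ i * T / 2)) * L *
      rdiag (fun i => Real.exp (-(μ i * T) / 2))) i l
        = ((Real.exp ((μ i - μ l) * T / 2) : ℝ) : ℂ) * L i l := by
    intro i l
    rw [rdiag, rdiag, Matrix.mul_diagonal, Matrix.diagonal_mul]
    have : (μ i - μ l) * T / 2 = μ i * T / 2 + -(μ l * T) / 2 := by ring
    rw [this, Real.exp_add]
    push_cast
    ring
  refine ⟨⟨?_, ?_⟩, ?_⟩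
  · intro i
    rw [hent, hL.1 i, sub_self, zero_mul, zero_div, Real.exp_zero]
    simp
  · intro i l hil h
    rw [hent] at h
    exact hL.2 i l hil (right_ne_zero_of_mul h)
  · rw [mnorm, mnorm, Finset.sum_mul]
    refine Finset.sum_le_sum fun i _ => ?_
    rw [Finset.sum_mul]
    refine Finset.sum_le_sum fun l _ => ?_
    rw [Matrix.sub_apply, Matrix.sub_apply, hent]
    by_cases hil : i = l
    · rw [hil, hL.1 l, sub_self, zero_mul, zero_div, Real.exp_zero]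
      simp
    · rw [Matrix.one_apply_ne hil, sub_zero, sub_zero, norm_mul, Complex.norm_real,
        Real.norm_of_nonneg (Real.exp_pos _).le, mul_comm]
      by_cases h0 : L i l = 0
      · rw [h0]; simp
      · refine mul_le_mul_of_nonneg_left ?_ (norm_nonneg _)
        rw [Real.exp_le_exp]
        have h1 := hL.2 i l hil h0
        have h2 : μ i < μ l - ε := by
          by_contra hc
          rw [not_lt] at hc
          exact absurd (hW2 i l hc) (not_le.mpr h1)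
        have : (μ i - μ l) * T ≤ -(ε * T) := by nlinarith
        linarith

end Claimed.Agent.R316.S9
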