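import Claimed.Agent.R316.Pack028
import Claimed.Agent.R316.Pack016_2
import Claimed.Agent.R316.S9.Align1

/-!
# Row 316, Section 9, package BRIDGE (1): polynomial maps as holomorphic maps of `CE (Fin n)`

Links the formal jets of `R316/S9` with the functions `PMap.ev` of `R316/Top/S8.lean`.
`PMap.deg = pdeg` and `PMap.cnorm = nrm` hold by `rfl`.
-/

set_option autoImplicit false
open MvPolynomial Filter Topology Asymptotics

namespace Claimed.Agent.R316.S9

variable {n : ℕ}

/-- evaluation on `CE (Fin n)` (the function of `Top/S8.lean`). -/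
noncomputable abbrev ev (P : PMap n) (z : CE (Fin n)) : CE (Fin n) := R316.PMap.ev P z

theorem deg_eq (P : PMap n) : R316.PMap.deg P = pdeg P := rfl

theorem cnorm_eq (P : PMap n) : R316.PMap.cnorm P = nrm P := rfl

theorem ev_apply (P : PMap n) (z : CE (Fin n)) (i : Fin n) :
    ev P z i = eval (fun j => z j) (P i) := rfl

theorem ev_eq_peval (P : PMap n) (z : CE (Fin n)) :
    ev P z = WithLp.toLp 2 (peval P fun j => z j) := rfl

/-- BRP-1 -/
theorem ev_comp (P Q : PMap n) (z : CE (Fin n)) : ev (comp P Q) z = ev P (ev Q z) := by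
  rw [ev_eq_peval, peval_comp]
  rfl

/-- BRP-2 -/
theorem ev_pid (z : CE (Fin n)) : ev (pid : PMap n) z = z := by
  ext i
  rw [ev_apply, pid, eval_X]

/-- BRP-3 -/
theorem ev_zero {P : PMap n} (hP : Fix0 P) : ev P 0 = 0 := by
  ext i
  rw [ev_apply]
  have : (fun j => (0 : CE (Fin n)) j) = (0 : Fin n → ℂ) := rfl
  rw [this, eval_zero, constantCoeff_eq, hP i]
  rfl

/-- BRP-3' -/
theorem fix0_of_ev_zero {P : PMap n} (hP : ev P 0 = 0) : Fix0 P := by
  intro i
  have h := congrArg (fun w : CE (Fin n) => w i) hP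
  simp only [] at h
  rw [ev_apply] at h
  have : (fun j => (0 : CE (Fin n)) j) = (0 : Fin n → ℂ) := rfl
  rw [this, eval_zero, constantCoeff_eq] at h
  exact h

/-- BRP-4 -/
theorem ev_sub (P Q : PMap n) (z : CE (Fin n)) : ev (P - Q) z = ev P z - ev Q z := by
  ext i
  rw [PiLp.sub_apply, ev_apply, ev_apply, ev_apply, Pi.sub_apply, map_sub]

theorem ev_add (P Q : PMap n) (z : CE (Fin n)) : ev (P + Q) z = ev P z + ev Q z := by
  ext i
  rw [PiLp.add_apply, ev_apply, ev_apply, ev_apply, Pi.add_apply, map_add]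

theorem brp_contDiff_eval (f : MP n) :
    ContDiff ℂ ⊤ (fun z : CE (Fin n) => eval (fun j => z j) f) := by
  induction f using MvPolynomial.induction_on with
  | C a => simpa using contDiff_const
  | add p q hp hq => simpa using hp.add hq
  | mul_X p k hp =>
    have : ContDiff ℂ ⊤ (fun z : CE (Fin n) => z k) :=
      (EuclideanSpace.proj k : CE (Fin n) →L[ℂ] ℂ).contDiff
    simpa using hp.mul this

theorem brp_contDiff_ev (P : PMap n) : ContDiff ℂ ⊤ (ev P) :=
  contDiff_euclidean.mpr fun i => brp_contDiff_eval (P i)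

/-- BRP-5: polynomial maps are holomorphic. -/
theorem differentiable_ev (P : PMap n) : Differentiable ℂ (ev P) :=
  (brp_contDiff_ev P).differentiable (by simp)

theorem brp_hasFDerivAt_eval (f : MP n) (z : CE (Fin n)) :
    ∃ L : CE (Fin n) →L[ℂ] ℂ, HasFDerivAt (fun z : CE (Fin n) => eval (fun j => z j) f) L z ∧
      ∀ v : CE (Fin n), L v = ∑ j, eval (fun j => z j) (pderiv j f) * v j := by
  induction f using MvPolynomial.induction_on with
  | C a =>
    refine ⟨0, ?_, fun v => by simp⟩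
    simp only [eval_C]
    exact hasFDerivAt_const a z
  | add p q hp hq =>
    obtain ⟨Lp, hp1, hp2⟩ := hp
    obtain ⟨Lq, hq1, hq2⟩ := hq
    refine ⟨Lp + Lq, ?_, fun v => ?_⟩
    · simp only [map_add]
      exact hp1.add hq1
    · rw [add_apply, hp2, hq2, ← Finset.sum_add_distrib]
      refine Finset.sum_congr rfl fun j _ => ?_
      rw [map_add, map_add, add_mul]
  | mul_X p k hp =>
    obtain ⟨Lp, hp1, hp2⟩ := hp
    have hk : HasFDerivAt (fun z : CE (Fin n) => z k) (EuclideanSpace.proj k : CE (Fin n) →L[ℂ] ℂ) z :=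
      (EuclideanSpace.proj k : CE (Fin n) →L[ℂ] ℂ).hasFDerivAt
    refine ⟨eval (fun j => z j) p • (EuclideanSpace.proj k : CE (Fin n) →L[ℂ] ℂ) + z k • Lp, ?_,
      fun v => ?_⟩
    · simp only [map_mul, eval_X]
      exact hp1.mul hk
    · rw [add_apply, smul_apply,
        smul_apply, hp2, smul_eq_mul, smul_eq_mul, Finset.mul_sum]
      have e1 : ∀ j, eval (fun j => z j) (pderiv j (p * X k)) * v j
          = (if j = k then eval (fun j => z j) p * v k else 0)
            + z k * (eval (fun j => z j) (pderiv j p) * v j) := by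
        intro j
        rw [Derivation.leibniz, pderiv_X, smul_eq_mul, smul_eq_mul, map_add, map_mul, map_mul,
          eval_X]
        by_cases hj : j = k
        · subst hj
          rw [if_pos rfl, Pi.single_eq_same, map_one]
          ring
        · rw [if_neg hj, Pi.single_eq_of_ne (Ne.symm hj), map_zero]
          ring
      rw [Finset.sum_congr rfl fun j _ => e1 j, Finset.sum_add_distrib, Finset.sum_ite_eq' ,
        if_pos (Finset.mem_univ k)]
      rfl

theorem brp_coeff_zero_pderiv (f : MP n) (j : Fin n) :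
    eval (0 : Fin n → ℂ) (pderiv j f) = coeff (Finsupp.single j 1) f := by
  rw [eval_zero, constantCoeff_eq, coeff_pderiv]
  simp

/-- the derivative of `ev P` at the origin -/
theorem brp_hasFDerivAt_ev_zero (P : PMap n) :
    HasFDerivAt (ev P) (Matrix.toEuclideanCLM (n := Fin n) (𝕜 := ℂ) (plin P)) 0 := by
  rw [← hasFDerivWithinAt_univ, hasFDerivWithinAt_euclidean]
  intro i
  rw [hasFDerivWithinAt_univ]
  obtain ⟨L, hL1, hL2⟩ := brp_hasFDerivAt_eval (P i) 0
  refine hL1.congr_fderiv ?_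
  ext v
  rw [hL2]
  have : (fun j => (0 : CE (Fin n)) j) = (0 : Fin n → ℂ) := rfl
  rw [this]
  simp only [brp_coeff_zero_pderiv]
  rfl

/-- BRP-6: the derivative at the origin. -/
theorem fderiv_ev_zero (P : PMap n) (v : CE (Fin n)) :
    fderiv ℂ (ev P) 0 v = WithLp.toLp 2 ((plin P).mulVec fun j => v j) := by
  rw [(brp_hasFDerivAt_ev_zero P).fderiv]
  rfl

/-- BRP-7 -/
theorem jac_ev_zero (P : PMap n) : jac (ev P) 0 = plin P := by
  funext j k
  rw [jac, fderiv_ev_zero]
  have : (fun l => (eb k : CE (Fin n)) l) = Pi.single k 1 := by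
    funext l
    simp [eb, Pi.single_apply]
  rw [this, Matrix.mulVec_single_one]
  rfl

theorem brp_norm_apply_le (z : CE (Fin n)) (i : Fin n) : ‖z i‖ ≤ ‖z‖ := PiLp.norm_apply_le z i

theorem brp_norm_le_sum (z : CE (Fin n)) : ‖z‖ ≤ ∑ i, ‖z i‖ := by
  rw [EuclideanSpace.norm_eq]
  refine Real.sqrt_le_iff.mpr ⟨Finset.sum_nonneg fun i _ => norm_nonneg _, ?_⟩
  exact Finset.sum_sq_le_sq_sum_of_nonneg fun i _ => norm_nonneg _

/-- small points: evaluation of a polynomial of order `≥ k`. -/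
theorem brp_norm_eval_le_of_ordGe {k : ℕ} {f : MP n} (hf : OrdGe k f) (z : Fin n → ℂ) {B : ℝ}
    (hB0 : 0 ≤ B) (hB : B ≤ 1) (hz : ∀ i, ‖z i‖ ≤ B) : ‖eval z f‖ ≤ n1 f * B ^ k := by
  rw [eval_eq', n1, Finset.sum_mul]
  refine (norm_sum_le _ _).trans (Finset.sum_le_sum fun m hm => ?_)
  rw [norm_mul]
  refine mul_le_mul_of_nonneg_left ?_ (norm_nonneg _)
  rw [norm_prod]
  simp only [norm_pow]
  refine (prod_pow_le_pow_degree _ (fun i => norm_nonneg _) hz m).trans ?_
  refine pow_le_pow_of_le_one hB0 hB ?_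
  by_contra hc
  rw [not_le] at hc
  exact (mem_support_iff.mp hm) (hf m hc)

/-- BRP-8: a map vanishing to order `d + 1` is `O(|z|^(d+1))`. -/
theorem isBigO_of_ordGe {d : ℕ} {P : PMap n} (hP : ∀ i, OrdGe (d + 1) (P i)) :
    (fun z => ev P z) =O[𝓝 0] fun z : CE (Fin n) => ‖z‖ ^ (d + 1) := by
  refine IsBigO.of_bound (nrm P) ?_
  filter_upwards [Metric.ball_mem_nhds (0 : CE (Fin n)) one_pos] with z hz
  rw [mem_ball_zero_iff] at hz
  rw [norm_pow, norm_norm]
  refine (brp_norm_le_sum _).trans ?_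
  rw [nrm, Finset.sum_mul]
  refine Finset.sum_le_sum fun i _ => ?_
  rw [ev_apply]
  exact brp_norm_eval_le_of_ordGe (hP i) _ (norm_nonneg z) hz.le (brp_norm_apply_le z)

/-- one variable: a polynomial expression of degree `< d` which is `O(|t|^d)` vanishes. -/
theorem brp_coeffs_zero (d : ℕ) : ∀ a : ℕ → ℂ,
    ((fun t : ℂ => ∑ k ∈ Finset.range d, a k * t ^ k) =O[𝓝[≠] 0] fun t : ℂ => ‖t‖ ^ d) →
    ∀ k < d, a k = 0 := by
  induction d with
  | zero => intro a _ k hk; exact absurd hk (Nat.not_lt_zero k)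
  | succ d ih =>
    intro a h
    have hcont : Tendsto (fun t : ℂ => ∑ k ∈ Finset.range (d + 1), a k * t ^ k) (𝓝[≠] 0)
        (𝓝 (∑ k ∈ Finset.range (d + 1), a k * (0 : ℂ) ^ k)) := by
      have : Continuous (fun t : ℂ => ∑ k ∈ Finset.range (d + 1), a k * t ^ k) := by fun_prop
      exact (this.tendsto 0).mono_left nhdsWithin_le_nhds
    have hval : ∑ k ∈ Finset.range (d + 1), a k * (0 : ℂ) ^ k = a 0 := by
      rw [Finset.sum_range_succ']
      simp
    rw [hval] at hcont
    have hz : Tendsto (fun t : ℂ => ‖t‖ ^ (d + 1)) (𝓝[≠] 0) (𝓝 0) := by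
      have : Continuous (fun t : ℂ => ‖t‖ ^ (d + 1)) := by fun_prop
      have h2 := (this.tendsto 0).mono_left (nhdsWithin_le_nhds (s := {0}ᶜ))
      simpa using h2
    have h0 : a 0 = 0 := tendsto_nhds_unique hcont (h.trans_tendsto hz)
    have hrec : (fun t : ℂ => ∑ k ∈ Finset.range d, a (k + 1) * t ^ k) =O[𝓝[≠] 0]
        fun t : ℂ => ‖t‖ ^ d := by
      obtain ⟨c, hc⟩ := h.bound
      refine IsBigO.of_bound c ?_
      filter_upwards [hc, self_mem_nhdsWithin] with t ht ht0
      have ht0' : t ≠ 0 := ht0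
      have hpos : 0 < ‖t‖ := norm_pos_iff.mpr ht0'
      rw [Finset.sum_range_succ', h0, zero_mul, add_zero] at ht
      have e1 : ∑ k ∈ Finset.range d, a (k + 1) * t ^ (k + 1)
          = t * ∑ k ∈ Finset.range d, a (k + 1) * t ^ k := by
        rw [Finset.mul_sum]
        exact Finset.sum_congr rfl fun k _ => by ring
      rw [e1, norm_mul, norm_pow, norm_norm, pow_succ] at ht
      rw [norm_pow, norm_norm]
      have : ‖t‖ * ‖∑ k ∈ Finset.range d, a (k + 1) * t ^ k‖ ≤ ‖t‖ * (c * ‖t‖ ^ d) := by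
        calc _ ≤ c * (‖t‖ ^ d * ‖t‖) := ht
          _ = _ := by ring
      exact le_of_mul_le_mul_left this hpos
    intro k hk
    rcases Nat.eq_zero_or_pos k with rfl | hk0
    · exact h0
    · obtain ⟨k', rfl⟩ : ∃ k', k = k' + 1 := ⟨k - 1, by omega⟩
      exact ih (fun k => a (k + 1)) hrec k' (by omega)

/-- evaluation along a complex line -/
theorem brp_eval_smul (f : MP n) (d : ℕ) (hd : f.totalDegree ≤ d) (w : Fin n → ℂ) (t : ℂ) :
    eval (fun j => t * w j) f
      = ∑ k ∈ Finset.range (d + 1), eval w (homogeneousComponent k f) * t ^ k := by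
  have h1 : f = ∑ k ∈ Finset.range (d + 1), homogeneousComponent k f := (ptr_eq_self hd).symm
  conv_lhs => rw [h1]
  rw [map_sum]
  refine Finset.sum_congr rfl fun k _ => ?_
  have hh : (homogeneousComponent k f).IsHomogeneous k := homogeneousComponent_isHomogeneous k f
  rw [eval_eq', eval_eq', Finset.sum_mul]
  refine Finset.sum_congr rfl fun m hm => ?_
  have hdeg : m.degree = k := by
    have := hh (mem_support_iff.mp hm)
    rw [← this, Finsupp.degree_eq_weight_one]
    rfl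
  simp only [mul_pow]
  rw [Finset.prod_mul_distrib, Finset.prod_pow_eq_pow_sum, ← Finsupp.degree_eq_sum, hdeg]
  ring

/-- BRP-9: uniqueness of Taylor polynomials. -/
theorem eq_zero_of_isBigO {d : ℕ} {P : PMap n} (hdeg : pdeg P ≤ d)
    (hP : (fun z => ev P z) =O[𝓝 0] fun z : CE (Fin n) => ‖z‖ ^ (d + 1)) : P = 0 := by
  funext i
  have hdi : (P i).totalDegree ≤ d := (totalDegree_le_pdeg P i).trans hdeg
  have key : ∀ (w : Fin n → ℂ) (k : ℕ), k < d + 1 → eval w (homogeneousComponent k (P i)) = 0 := by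
    intro w
    apply brp_coeffs_zero (d + 1) (fun k => eval w (homogeneousComponent k (P i)))
    have ht : Tendsto (fun t : ℂ => t • (WithLp.toLp 2 w : CE (Fin n))) (𝓝[≠] 0) (𝓝 0) := by
      have : Continuous (fun t : ℂ => t • (WithLp.toLp 2 w : CE (Fin n))) := by fun_prop
      have h2 := (this.tendsto 0).mono_left (nhdsWithin_le_nhds (s := {0}ᶜ))
      simpa using h2
    have h1 := hP.comp_tendsto ht
    have h2 : (fun t : ℂ => ∑ k ∈ Finset.range (d + 1),
        eval w (homogeneousComponent k (P i)) * t ^ k) =O[𝓝[≠] 0]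
        ((fun z => ev P z) ∘ fun t : ℂ => t • (WithLp.toLp 2 w : CE (Fin n))) := by
      refine IsBigO.of_bound 1 (Eventually.of_forall fun t => ?_)
      rw [one_mul, ← brp_eval_smul (P i) d hdi w t]
      exact brp_norm_apply_le (ev P (t • (WithLp.toLp 2 w : CE (Fin n)))) i
    refine (h2.trans h1).trans ?_
    refine IsBigO.of_bound (‖(WithLp.toLp 2 w : CE (Fin n))‖ ^ (d + 1))
      (Eventually.of_forall fun t => ?_)
    simp only [Function.comp_apply, norm_smul, norm_pow, norm_norm, norm_mul, mul_pow]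
    rw [mul_comm]
  have h0 : ∀ k, k < d + 1 → homogeneousComponent k (P i) = 0 := by
    intro k hk
    apply MvPolynomial.funext
    intro w
    rw [key w k hk, map_zero]
  rw [← ptr_eq_self hdi, ptr]
  exact Finset.sum_eq_zero fun k hk => h0 k (Finset.mem_range.mp hk)

/-- BRP-10: jets and `O`: equal `d`-jets iff the difference is `O(|z|^(d+1))`. -/
theorem jeq_iff_isBigO {d : ℕ} {P Q : PMap n} :
    JEq d P Q ↔ (fun z => ev P z - ev Q z) =O[𝓝 0] fun z : CE (Fin n) => ‖z‖ ^ (d + 1) := by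
  constructor
  · intro h
    have := isBigO_of_ordGe (P := P - Q) (jeq_iff.mp h)
    simpa only [ev_sub] using this
  · intro h
    -- split `P - Q` into its `d`-jet and the rest
    have hrest : ∀ i, OrdGe (d + 1) ((P - Q - ptrunc d (P - Q)) i) := by
      have : JEq d (P - Q) (ptrunc d (P - Q)) := (jeq_ptrunc d (P - Q)).symm
      exact jeq_iff.mp this
    have h1 := isBigO_of_ordGe hrest
    have h2 : (fun z => ev (ptrunc d (P - Q)) z) =O[𝓝 0] fun z : CE (Fin n) => ‖z‖ ^ (d + 1) := by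
      have h3 := h.sub h1
      refine h3.congr_left fun z => ?_
      rw [ev_sub, ev_sub]
      abel
    have hdeg : pdeg (ptrunc d (P - Q)) ≤ d :=
      Finset.sup_le fun i _ => totalDegree_ptr_le d _
    have h0 := eq_zero_of_isBigO hdeg h2
    rw [jeq_iff]
    intro i
    have := congrFun h0 i
    exact ptr_eq_zero_iff.mp this

/-- BRP-11: post-composition with a polynomial map preserves `O(|z|^(d+1))` closeness. -/
theorem isBigO_ev_comp {d : ℕ} (P : PMap n) {f g : CE (Fin n) → CE (Fin n)}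
    (hf : Tendsto f (𝓝 0) (𝓝 0)) (hg : Tendsto g (𝓝 0) (𝓝 0))
    (hfg : (fun z => f z - g z) =O[𝓝 0] fun z : CE (Fin n) => ‖z‖ ^ (d + 1)) :
    (fun z => ev P (f z) - ev P (g z)) =O[𝓝 0] fun z : CE (Fin n) => ‖z‖ ^ (d + 1) := by
  have hc : ContDiffAt ℂ 1 (ev P) 0 := ((brp_contDiff_ev P).of_le le_top).contDiffAt
  obtain ⟨K, t, ht, hK⟩ := hc.exists_lipschitzOnWith
  refine IsBigO.trans ?_ hfg
  refine IsBigO.of_bound K ?_
  filter_upwards [hf ht, hg ht] with z hz1 hz2
  have := hK.dist_le_mul _ hz1 _ hz2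
  rwa [dist_eq_norm, dist_eq_norm] at this

/-- BRP-12: pre-composition with a map `g = O(|z|)`. -/
theorem isBigO_comp_right {d : ℕ} {f₁ f₂ g : CE (Fin n) → CE (Fin n)}
    (hf : (fun z => f₁ z - f₂ z) =O[𝓝 0] fun z : CE (Fin n) => ‖z‖ ^ (d + 1))
    (hg0 : Tendsto g (𝓝 0) (𝓝 0)) (hg : g =O[𝓝 0] fun z : CE (Fin n) => ‖z‖) :
    (fun z => f₁ (g z) - f₂ (g z)) =O[𝓝 0] fun z : CE (Fin n) => ‖z‖ ^ (d + 1) :=
  (hf.comp_tendsto hg0).trans (hg.norm_left.pow (d + 1))

/-- BRP-13: the derivative at `0` only depends on the `1`-jet. -/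
theorem jac_eq_plin_of_isBigO {d : ℕ} (hd : 1 ≤ d) {f : CE (Fin n) → CE (Fin n)} {J : PMap n}
    (hfJ : (fun z => f z - ev J z) =O[𝓝 0] fun z : CE (Fin n) => ‖z‖ ^ (d + 1)) :
    HasFDerivAt f (fderiv ℂ (ev J) 0) 0 ∧ jac f 0 = plin J := by
  have h1 : HasFDerivAt (fun z => f z - ev J z) (0 : CE (Fin n) →L[ℂ] CE (Fin n)) 0 := by
    refine Asymptotics.IsBigO.hasFDerivAt (n := d + 1) ?_ (by omega)
    simpa only [sub_zero] using hfJ
  have h2 : HasFDerivAt (ev J) (fderiv ℂ (ev J) 0) 0 := (differentiable_ev J 0).hasFDerivAt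
  have h3 : HasFDerivAt f (fderiv ℂ (ev J) 0) 0 := by
    have := h1.add h2
    rw [zero_add] at this
    refine this.congr_of_eventuallyEq (Eventually.of_forall fun z => ?_)
    simp
  refine ⟨h3, ?_⟩
  rw [← jac_ev_zero J]
  funext j k
  rw [jac, jac, h3.fderiv]

/-- BRP-14: `ℓ²` operator bound by the `ℓ¹` norm of the entries. -/
theorem norm_toLp_mulVec_le (A : Mat n) (v : CE (Fin n)) :
    ‖(WithLp.toLp 2 (A.mulVec fun j => v j) : CE (Fin n))‖ ≤ mnorm A * ‖v‖ := by
  rw [EuclideanSpace.norm_eq, EuclideanSpace.norm_eq]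
  have h := al1_mulVec_sq_le A (fun j => v j)
  calc Real.sqrt (∑ i, ‖(WithLp.toLp 2 (A.mulVec fun j => v j) : CE (Fin n)) i‖ ^ 2)
      ≤ Real.sqrt (mnorm A ^ 2 * ∑ i, ‖v i‖ ^ 2) := Real.sqrt_le_sqrt h
    _ = mnorm A * Real.sqrt (∑ i, ‖v i‖ ^ 2) := by
        rw [Real.sqrt_mul (sq_nonneg _), Real.sqrt_sq (mnorm_nonneg A)]

end Claimed.Agent.R316.S9
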