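import Claimed.Agent.R316.S9.Align1

/-!
# Row 316, Section 9, package BRIDGE (2): singular value decomposition, trace bound

* `exists_svd`: spectral theorem for `Lᴴ L = W diag(λ) Wᴴ` (`Matrix.IsHermitian.spectral_theorem`), `λ_i > 0`,
  `σ_i = sqrt λ_i`, `V = L W diag(σ⁻¹)` is unitary, `μ_i = - 2 log σ_i / T`; sort with a permutation matrix
  (`Tuple.sort`).
* `loewner_le_trace`: `A = Bᴴ B` (or spectral theorem): `vᴴ A v ≤ tr A |v|²`.
-/

set_option autoImplicit false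
open scoped ComplexOrder Matrix

namespace Claimed.Agent.R316.S9

variable {n : ℕ}

/-! ### kit -/

/-- the spectral theorem in the notation of this section -/
theorem brs_spectral (A : Mat n) (hA : A.IsHermitian) :
    ∃ W : Mat n, W ∈ Matrix.unitaryGroup (Fin n) ℂ ∧ A = W * rdiag hA.eigenvalues * Wᴴ := by
  refine ⟨hA.eigenvectorUnitary, hA.eigenvectorUnitary.2, ?_⟩
  have := hA.spectral_theorem
  rw [Unitary.conjStarAlgAut_apply] at this
  exact this

/-- permuting the columns of a unitary diagonalisation -/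
theorem brs_perm (W : Mat n) (hW : W ∈ Matrix.unitaryGroup (Fin n) ℂ) (a : Fin n → ℝ)
    (π : Equiv.Perm (Fin n)) :
    W.submatrix id π ∈ Matrix.unitaryGroup (Fin n) ℂ ∧
      W.submatrix id π * rdiag (a ∘ π) * (W.submatrix id π)ᴴ = W * rdiag a * Wᴴ := by
  have h1 : ∀ D : Mat n, W.submatrix id π * D.submatrix π π * (W.submatrix id π)ᴴ = W * D * Wᴴ := by
    intro D
    rw [Matrix.conjTranspose_submatrix, Matrix.submatrix_mul_equiv, Matrix.submatrix_mul_equiv,
      Matrix.submatrix_id_id]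
  constructor
  · rw [Matrix.mem_unitaryGroup_iff]
    have := h1 1
    have hWW : W * Wᴴ = 1 := (Matrix.mem_unitaryGroup_iff).mp hW
    rw [Matrix.submatrix_one_equiv, Matrix.mul_one, Matrix.mul_one, hWW] at this
    exact this
  · rw [← h1, rdiag, rdiag, Matrix.submatrix_diagonal_equiv]
    rfl

/-- BRS-1: singular value decomposition with sorted rates. -/
theorem exists_svd (L : Mat n) (hL : L.det ≠ 0) (T : ℝ) (hT : 0 < T) :
    ∃ (W V : Mat n) (μ : Fin n → ℝ), W ∈ Matrix.unitaryGroup (Fin n) ℂ ∧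
      V ∈ Matrix.unitaryGroup (Fin n) ℂ ∧ Monotone μ ∧
      L = V * rdiag (fun i => Real.exp (-(μ i * T) / 2)) * Wᴴ := by
  have hinj : Function.Injective L.mulVec := by
    have hu : IsUnit L := (Matrix.isUnit_iff_isUnit_det L).mpr (isUnit_iff_ne_zero.mpr hL)
    exact Matrix.mulVec_injective_of_isUnit hu
  have hpd : (Lᴴ * L).PosDef := Matrix.PosDef.conjTranspose_mul_self L hinj
  obtain ⟨W0, hW0, hsp⟩ := brs_spectral (Lᴴ * L) hpd.1
  have hpos : ∀ i, 0 < hpd.1.eigenvalues i := hpd.eigenvalues_pos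
  obtain ⟨lam, hlam⟩ : ∃ lam : Fin n → ℝ, lam = hpd.1.eigenvalues := ⟨_, rfl⟩
  rw [← hlam] at hsp hpos
  obtain ⟨μ0, hμ0⟩ : ∃ μ0 : Fin n → ℝ, μ0 = fun i => -Real.log (lam i) / T := ⟨_, rfl⟩
  obtain ⟨π, hπ⟩ : ∃ π : Equiv.Perm (Fin n), π = Tuple.sort μ0 := ⟨_, rfl⟩
  obtain ⟨hW, hWd⟩ := brs_perm W0 hW0 lam π
  obtain ⟨W, hWdef⟩ : ∃ W : Mat n, W = W0.submatrix id π := ⟨_, rfl⟩
  rw [← hWdef] at hW hWd
  rw [← hWd] at hsp
  have hWW : W * Wᴴ = 1 := (Matrix.mem_unitaryGroup_iff).mp hW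
  have hWW' : Wᴴ * W = 1 := (Matrix.mem_unitaryGroup_iff').mp hW
  have hmono : Monotone (μ0 ∘ π) := by rw [hπ]; exact Tuple.monotone_sort μ0
  -- the singular values
  have hsq : ∀ i, Real.exp (((μ0 ∘ π) i * T) / 2) * (lam ∘ π) i * Real.exp (((μ0 ∘ π) i * T) / 2) = 1 := by
    intro i
    have e1 : (μ0 ∘ π) i * T = -Real.log (lam (π i)) := by
      simp only [Function.comp_apply, hμ0]
      field_simp
    have e2 : Real.exp (((μ0 ∘ π) i * T) / 2) * Real.exp (((μ0 ∘ π) i * T) / 2)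
        = (lam (π i))⁻¹ := by
      rw [← Real.exp_add, e1, ← Real.exp_log (hpos (π i)), ← Real.exp_neg, Real.log_exp]
      congr 1
      ring
    have e3 : lam (π i) ≠ 0 := (hpos (π i)).ne'
    calc _ = (Real.exp (((μ0 ∘ π) i * T) / 2) * Real.exp (((μ0 ∘ π) i * T) / 2)) * lam (π i) := by
          simp only [Function.comp_apply]; ring
      _ = 1 := by rw [e2]; exact inv_mul_cancel₀ e3
  have hinv : rdiag (fun i => Real.exp (((μ0 ∘ π) i * T) / 2)) *
      rdiag (fun i => Real.exp (-((μ0 ∘ π) i * T) / 2)) = 1 := by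
    rw [rdiag, rdiag, Matrix.diagonal_mul_diagonal, ← Matrix.diagonal_one]
    congr 1
    funext i
    rw [← Complex.ofReal_mul, ← Real.exp_add]
    have : (μ0 ∘ π) i * T / 2 + -((μ0 ∘ π) i * T) / 2 = 0 := by ring
    rw [this, Real.exp_zero, Complex.ofReal_one]
  have hdd : rdiag (fun i => Real.exp (((μ0 ∘ π) i * T) / 2)) * rdiag (lam ∘ π) *
      rdiag (fun i => Real.exp (((μ0 ∘ π) i * T) / 2)) = 1 := by
    rw [rdiag, rdiag, Matrix.diagonal_mul_diagonal, Matrix.diagonal_mul_diagonal,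
      ← Matrix.diagonal_one]
    congr 1
    funext i
    have := hsq i
    exact_mod_cast this
  have hherm : (rdiag (fun i => Real.exp (((μ0 ∘ π) i * T) / 2)))ᴴ
      = rdiag (fun i => Real.exp (((μ0 ∘ π) i * T) / 2)) := by
    rw [rdiag, Matrix.diagonal_conjTranspose]
    congr 1
    funext i
    rw [Pi.star_apply, RCLike.star_def, Complex.conj_ofReal]
  obtain ⟨E, hE⟩ : ∃ E : Mat n, E = rdiag (fun i => Real.exp (((μ0 ∘ π) i * T) / 2)) := ⟨_, rfl⟩
  rw [← hE] at hinv hdd hherm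
  refine ⟨W, L * W * E, μ0 ∘ π, hW, ?_, hmono, ?_⟩
  · rw [Matrix.mem_unitaryGroup_iff', Matrix.star_eq_conjTranspose, Matrix.conjTranspose_mul,
      Matrix.conjTranspose_mul, hherm]
    calc E * (Wᴴ * Lᴴ) * (L * W * E) = E * (Wᴴ * (Lᴴ * L) * W) * E := by
          simp only [Matrix.mul_assoc]
      _ = E * ((Wᴴ * W) * rdiag (lam ∘ π) * (Wᴴ * W)) * E := by
          rw [hsp]; simp only [Matrix.mul_assoc]
      _ = 1 := by rw [hWW', Matrix.one_mul, Matrix.mul_one, hdd]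
  · calc L = L * (W * Wᴴ) := by rw [hWW, Matrix.mul_one]
      _ = L * W * (E * rdiag (fun i => Real.exp (-((μ0 ∘ π) i * T) / 2))) * Wᴴ := by
          rw [hinv, Matrix.mul_one, Matrix.mul_assoc]
      _ = _ := by simp only [Matrix.mul_assoc]

/-- BRS-2: a positive semidefinite matrix is bounded by its trace. -/
theorem loewner_le_trace (A : Mat n) (hA : A.PosSemidef) (t : ℝ) (ht : A.trace = (t : ℂ)) :
    LoewnerLE A ((t : ℂ) • (1 : Mat n)) := by
  obtain ⟨W, hW, hsp⟩ := brs_spectral A hA.1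
  have hnn : ∀ i, 0 ≤ hA.1.eigenvalues i := hA.eigenvalues_nonneg
  have htr : ∑ i, hA.1.eigenvalues i = t := by
    have := hA.1.trace_eq_sum_eigenvalues
    rw [ht] at this
    have h2 : ((t : ℝ) : ℂ) = ((∑ i, hA.1.eigenvalues i : ℝ) : ℂ) := by
      rw [this]; push_cast; rfl
    exact (Complex.ofReal_injective h2).symm
  have hle : ∀ i, hA.1.eigenvalues i ≤ t := fun i => by
    rw [← htr]
    exact Finset.single_le_sum (f := fun i => hA.1.eigenvalues i) (fun j _ => hnn j)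
      (Finset.mem_univ i)
  have hherm : ((t : ℂ) • (1 : Mat n)).IsHermitian := by
    show ((t : ℂ) • (1 : Mat n))ᴴ = _
    rw [Matrix.conjTranspose_smul, Matrix.conjTranspose_one]
    simp
  refine Matrix.PosSemidef.of_dotProduct_mulVec_nonneg (hherm.sub hA.1) fun v => ?_
  rw [Matrix.sub_mulVec, dotProduct_sub, sub_nonneg, Matrix.smul_mulVec, Matrix.one_mulVec,
    dotProduct_smul, al1_dot_self, smul_eq_mul]
  conv_lhs => rw [hsp]
  rw [al1_qf_conj, al1_qf_rdiag, ← al1_norm_unitary W hW v, ← Complex.ofReal_mul, Finset.mul_sum]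
  have : ∑ j, hA.1.eigenvalues j * ‖(Wᴴ *ᵥ v) j‖ ^ 2 ≤ ∑ j, t * ‖(Wᴴ *ᵥ v) j‖ ^ 2 :=
    Finset.sum_le_sum fun j _ => mul_le_mul_of_nonneg_right (hle j) (by positivity)
  exact_mod_cast this

/-- BRS-3: conjugation by a unitary matrix preserves the Loewner order. -/
theorem loewner_conj (A B U : Mat n) (h : LoewnerLE A B) : LoewnerLE (Uᴴ * A * U) (Uᴴ * B * U) := by
  have := Matrix.PosSemidef.conjTranspose_mul_mul_same h U
  rwa [Matrix.mul_sub, Matrix.sub_mul] at this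

end Claimed.Agent.R316.S9
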