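import Claimed.Agent.R316.S9.BrPoly
import Claimed.Agent.R316.S9.BrSvd
import Claimed.Agent.R316.Pack030

/-!
# Row 316, Section 9, package BRIDGE (3): `St81 T` for every `T : TransSystem n`

* `exists_s9Input`: from a `TransSystem` to the formal input `S9Input n d`:
  `I.s0 = max T.s0 (max sd 1)`-like, `I.F s u` = the Taylor polynomial given by `T.F_jets d` (chosen), `pid`-normalised by
  uniqueness (`eq_zero_of_isBigO`): `self`, `cocycle` follow from `T.F_refl`, `T.F_comp`;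
  `q x := T.q (max x (T.a0 * T.s0))`, `b0 := min T.b0 1`, `Pm := T.Lam`;
  `svd` from `exists_svd` (`T.F_det` gives `det ≠ 0`) and `T.rate_order` with `T = τ u - τ s`.
* `polyModels_of_output`: from `S9Output` back to `PolyModels`.
-/

set_option autoImplicit false
open MvPolynomial Filter Topology Asymptotics
open scoped ComplexOrder Matrix

namespace Claimed.Agent.R316.S9

variable {n : ℕ}

/-! ### germs -/

theorem bri_zero_of_isBigO {d : ℕ} {f : CE (Fin n) → CE (Fin n)}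
    (h : f =O[𝓝 0] fun z : CE (Fin n) => ‖z‖ ^ (d + 1)) : f 0 = 0 := by
  obtain ⟨c, hc⟩ := h.bound
  have := hc.self_of_nhds
  simpa using this

theorem bri_F_diff (T : TransSystem n) {s u : ℝ} (hs : T.s0 ≤ s) (hu : s ≤ u) :
    DifferentiableAt ℂ (T.F s u) 0 :=
  (T.F_hol s u hs hu).differentiableAt (Metric.ball_mem_nhds 0 T.r1_pos)

theorem bri_F_tendsto (T : TransSystem n) {s u : ℝ} (hs : T.s0 ≤ s) (hu : s ≤ u) :
    Tendsto (T.F s u) (𝓝 0) (𝓝 0) := by
  have := (bri_F_diff T hs hu).continuousAt.tendsto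
  rwa [T.F_zero s u hs hu] at this

theorem bri_F_isBigO (T : TransSystem n) {s u : ℝ} (hs : T.s0 ≤ s) (hu : s ≤ u) :
    T.F s u =O[𝓝 0] fun z : CE (Fin n) => ‖z‖ := by
  have := (bri_F_diff T hs hu).hasFDerivAt.isBigO_sub
  simp only [T.F_zero s u hs hu, sub_zero] at this
  exact this.norm_right

theorem bri_ev_tendsto {P : PMap n} (hP : Fix0 P) : Tendsto (ev P) (𝓝 0) (𝓝 0) := by
  have := (differentiable_ev P).continuous.tendsto 0
  rwa [ev_zero hP] at this

/-- Taylor polynomials compose. -/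
theorem bri_comp_jet {d : ℕ} {f₁ f₂ : CE (Fin n) → CE (Fin n)} {P₁ P₂ : PMap n}
    (h1 : (fun z => f₁ z - ev P₁ z) =O[𝓝 0] fun z : CE (Fin n) => ‖z‖ ^ (d + 1))
    (h2 : (fun z => f₂ z - ev P₂ z) =O[𝓝 0] fun z : CE (Fin n) => ‖z‖ ^ (d + 1))
    (hf0 : Tendsto f₁ (𝓝 0) (𝓝 0)) (hfO : f₁ =O[𝓝 0] fun z : CE (Fin n) => ‖z‖) (hP : Fix0 P₁) :
    (fun z => f₂ (f₁ z) - ev (comp P₂ P₁) z) =O[𝓝 0] fun z : CE (Fin n) => ‖z‖ ^ (d + 1) := by
  have e1 := isBigO_comp_right h2 hf0 hfO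
  have e2 := isBigO_ev_comp P₂ hf0 (bri_ev_tendsto hP) h1
  refine (e1.add e2).congr_left fun z => ?_
  rw [ev_comp]
  abel

/-! ### the Loewner order -/

theorem bri_loewner_trans {A B C : Mat n} (h1 : LoewnerLE A B) (h2 : LoewnerLE B C) :
    LoewnerLE A C := by
  have := Matrix.PosSemidef.add h1 h2
  unfold LoewnerLE
  convert this using 1
  abel

theorem bri_loewner_smul {a b : ℝ} (h : a ≤ b) :
    LoewnerLE ((a : ℂ) • (1 : Mat n)) ((b : ℂ) • (1 : Mat n)) := by
  unfold LoewnerLE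
  rw [← sub_smul]
  have h0 : (0 : ℂ) ≤ (b : ℂ) - a := by exact_mod_cast sub_nonneg.mpr h
  exact Matrix.PosSemidef.one.smul h0

theorem bri_unconj (W D : Mat n) (hW : W ∈ Matrix.unitaryGroup (Fin n) ℂ) :
    Wᴴ * (W * D * Wᴴ) * W = D := by
  have hWW : Wᴴ * W = 1 := (Matrix.mem_unitaryGroup_iff').mp hW
  calc Wᴴ * (W * D * Wᴴ) * W = (Wᴴ * W) * D * (Wᴴ * W) := by simp only [Matrix.mul_assoc]
    _ = D := by rw [hWW, Matrix.one_mul, Matrix.mul_one]

/-- BRI: the formal input attached to a transition system. -/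
theorem exists_s9Input (T : TransSystem n) (d : ℕ) (hd : 2 ≤ d) :
    ∃ I : S9Input n d, T.s0 ≤ I.s0 ∧ ∀ s u, I.s0 ≤ s → s ≤ u →
      (fun z => T.F s u z - ev (I.F s u) z) =O[𝓝 0] fun z : CE (Fin n) => ‖z‖ ^ (d + 1) := by
  obtain ⟨Cd, sd, hJ⟩ := T.F_jets d
  choose! J hJ1 hJ2 hJ3 using hJ
  obtain ⟨S0, hS0⟩ : ∃ S0 : ℝ, S0 = max T.s0 (max sd 1) := ⟨_, rfl⟩
  have hS0T : T.s0 ≤ S0 := by rw [hS0]; exact le_max_left _ _
  have hS0d : sd ≤ S0 := by rw [hS0]; exact (le_max_left _ _).trans (le_max_right _ _)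
  have hS01 : 1 ≤ S0 := by rw [hS0]; exact (le_max_right _ _).trans (le_max_right _ _)
  have hdeg : ∀ s u, S0 ≤ s → s ≤ u → pdeg (J s u) ≤ d := fun s u hs hu =>
    hJ1 s u (hS0d.trans hs) hu
  have hO : ∀ s u, S0 ≤ s → s ≤ u →
      (fun z => T.F s u z - ev (J s u) z) =O[𝓝 0] fun z : CE (Fin n) => ‖z‖ ^ (d + 1) :=
    fun s u hs hu => hJ3 s u (hS0d.trans hs) hu
  have hfix : ∀ s u, S0 ≤ s → s ≤ u → Fix0 (J s u) := by
    intro s u hs hu
    apply fix0_of_ev_zero
    have h : T.F s u 0 - ev (J s u) 0 = 0 := bri_zero_of_isBigO (hO s u hs hu)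
    rw [T.F_zero s u (hS0T.trans hs) hu, zero_sub, neg_eq_zero] at h
    exact h
  have hself : ∀ s, S0 ≤ s → J s s = pid := by
    intro s hs
    have h1 := hO s s hs le_rfl
    have h2 : JEq d (J s s) pid := by
      rw [jeq_iff_isBigO]
      have h3 : (fun z => ev (J s s) z - ev pid z) =ᶠ[𝓝 0]
          fun z => -(T.F s s z - ev (J s s) z) := by
        filter_upwards [Metric.ball_mem_nhds (0 : CE (Fin n)) T.r1_pos] with z hz
        rw [ev_pid, T.F_refl s (hS0T.trans hs) hz]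
        simp
      exact h3.trans_isBigO h1.neg_left
    exact h2.eq_of_deg (hdeg s s hs le_rfl) (pdeg_pid_le.trans (by omega))
  have hcoc : ∀ s u v, S0 ≤ s → s ≤ u → u ≤ v → ptrunc d (comp (J u v) (J s u)) = J s v := by
    intro s u v hs hu hv
    have h1 := bri_comp_jet (hO s u hs hu) (hO u v (hs.trans hu) hv)
      (bri_F_tendsto T (hS0T.trans hs) hu) (bri_F_isBigO T (hS0T.trans hs) hu) (hfix s u hs hu)
    have h2 := hO s v hs (hu.trans hv)
    have h3 : JEq d (comp (J u v) (J s u)) (J s v) := by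
      rw [jeq_iff_isBigO]
      have h4 : (fun z => ev (comp (J u v) (J s u)) z - ev (J s v) z) =ᶠ[𝓝 0]
          fun z => (T.F s v z - ev (J s v) z) -
            (T.F u v (T.F s u z) - ev (comp (J u v) (J s u)) z) := by
        filter_upwards [T.F_comp s u v (hS0T.trans hs) hu hv] with z hz
        rw [hz]
        abel
      exact h4.trans_isBigO (h2.sub h1)
    have h5 : ptrunc d (comp (J u v) (J s u)) = ptrunc d (J s v) := h3
    rw [h5, ptrunc_eq_self (hdeg s v hs (hu.trans hv))]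
  have hbound : ∀ s u, S0 ≤ s → s ≤ u →
      nrm (J s u) ≤ max Cd 1 * min 1 (Real.exp (max Cd 1 * s - T.σ * u)) := by
    intro s u hs hu
    have h1 : nrm (J s u) ≤ Cd * min 1 (Real.exp (Cd * s - T.σ * u)) :=
      hJ2 s u (hS0d.trans hs) hu
    have hs0 : 0 ≤ s := by linarith
    have h2 : 0 ≤ min 1 (Real.exp (Cd * s - T.σ * u)) := le_min zero_le_one (Real.exp_pos _).le
    have h3 : min 1 (Real.exp (Cd * s - T.σ * u)) ≤ min 1 (Real.exp (max Cd 1 * s - T.σ * u)) := by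
      apply min_le_min le_rfl
      apply Real.exp_le_exp.mpr
      have := mul_le_mul_of_nonneg_right (le_max_left Cd 1) hs0
      linarith
    calc nrm (J s u) ≤ Cd * min 1 (Real.exp (Cd * s - T.σ * u)) := h1
      _ ≤ max Cd 1 * min 1 (Real.exp (Cd * s - T.σ * u)) :=
          mul_le_mul_of_nonneg_right (le_max_left _ _) h2
      _ ≤ _ := mul_le_mul_of_nonneg_left h3 (zero_le_one.trans (le_max_right _ _))
  have hjac : ∀ s u, S0 ≤ s → s ≤ u → R316.jac (T.F s u) 0 = plin (J s u) := fun s u hs hu =>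
    (jac_eq_plin_of_isBigO (by omega) (hO s u hs hu)).2
  have hdet : ∀ s u, S0 ≤ s → s ≤ u → ‖(plin (J s u)).det‖ = Real.exp (-(u - s) / 2) := by
    intro s u hs hu
    rw [← hjac s u hs hu, T.F_det s u (hS0T.trans hs) hu]
    congr 1
    ring
  obtain ⟨q, hq⟩ : ∃ q : ℝ → ℝ, q = fun x => T.q (max x (T.a0 * T.s0)) := ⟨_, rfl⟩
  have hTs0 : 0 < T.s0 := by linarith [T.s0_ge]
  have ha0s0 : 0 < T.a0 * T.s0 := mul_pos T.a0_pos hTs0
  have hq_of : ∀ x, T.a0 * T.s0 ≤ x → q x = T.q x := by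
    intro x hx
    rw [hq]
    simp only [max_eq_left hx]
  have hqmono : Monotone q := by
    intro x y hxy
    rw [hq]
    exact T.q_mono (ha0s0.le.trans (le_max_right _ _)) (ha0s0.le.trans (le_max_right _ _))
      (max_le_max hxy le_rfl)
  have hqlb : ∀ x, T.c0 ≤ q x := by
    intro x
    rw [hq]
    exact T.q_ge _ (le_max_right _ _)
  have hqlim : ∀ X : ℝ, ∃ x, X ≤ x ∧ q x ≤ 3 * x := by
    intro X
    obtain ⟨x, hx1, hx2⟩ := T.q_liminf (max X (T.a0 * T.s0))
    have hx3 : T.a0 * T.s0 ≤ x := (le_max_right _ _).trans hx1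
    refine ⟨x, (le_max_left _ _).trans hx1, ?_⟩
    rw [hq_of x hx3]
    linarith
  have hb0 : 0 < min T.b0 1 := lt_min T.b0_pos one_pos
  have hlb : ∀ s, S0 ≤ s →
      LoewnerLE (((min T.b0 1 * q (T.a0 * s) : ℝ) : ℂ) • (1 : Mat n)) (T.Lam s) := by
    intro s hs
    have hsT := hS0T.trans hs
    have h1 : T.a0 * T.s0 ≤ T.a0 * s := mul_le_mul_of_nonneg_left hsT T.a0_pos.le
    rw [hq_of _ h1]
    have h2 : 0 ≤ T.q (T.a0 * s) := T.c0_pos.le.trans (T.q_ge _ h1)
    exact bri_loewner_trans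
      (bri_loewner_smul (mul_le_mul_of_nonneg_right (min_le_left _ _) h2)) (T.Lam_lower s hsT)
  have hub : ∀ s, S0 ≤ s → LoewnerLE (T.Lam s) (((q s : ℝ) : ℂ) • (1 : Mat n)) := by
    intro s hs
    have hsT := hS0T.trans hs
    have h1 : T.a0 * T.s0 ≤ s := (mul_le_of_le_one_left hTs0.le T.a0_lt.le).trans hsT
    have hpsd : (T.Lam s).PosSemidef := by
      have hc : 0 ≤ min T.b0 1 * q (T.a0 * s) := mul_nonneg hb0.le (T.c0_pos.le.trans (hqlb _))
      have h00 := bri_loewner_trans (n := n) (bri_loewner_smul hc) (hlb s hs)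
      unfold LoewnerLE at h00
      simpa using h00
    rw [hq_of _ h1]
    exact loewner_le_trace _ hpsd _ (T.Lam_trace s hsT)
  have hsvd : ∀ s u, S0 ≤ s → s < u → ∃ (W V : Mat n) (μ : Fin n → ℝ) (T' : ℝ),
      W ∈ Matrix.unitaryGroup (Fin n) ℂ ∧ V ∈ Matrix.unitaryGroup (Fin n) ℂ ∧ Monotone μ ∧ 0 < T' ∧
      plin (J s u) = V * rdiag (fun i => Real.exp (-(μ i * T') / 2)) * W.conjTranspose ∧
      LoewnerLE (W.conjTranspose * T.Lam s * W) (rdiag μ) ∧
      LoewnerLE (rdiag μ) (V.conjTranspose * T.Lam u * V) := by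
    intro s u hs hu
    have hsT := hS0T.trans hs
    have hT : 0 < T.τ u - T.τ s := sub_pos.mpr (T.τ_mono hsT (hsT.trans hu.le) hu)
    have hdet0 : (plin (J s u)).det ≠ 0 := by
      intro h0
      have := hdet s u hs hu.le
      rw [h0, norm_zero] at this
      exact (Real.exp_pos _).ne this
    obtain ⟨W, V, μ, hW, hV, hμ, hL⟩ := exists_svd (plin (J s u)) hdet0 _ hT
    have he : (fun i => Real.exp (-(μ i * (T.τ u - T.τ s)) / 2))
        = fun i => Real.exp (-(μ i * (T.τ u - T.τ s) / 2)) := by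
      funext i
      rw [neg_div]
    have hL' := hL
    rw [he] at hL'
    obtain ⟨hr1, hr2⟩ := T.rate_order s u hsT hu W V μ hW hV ((hjac s u hs hu.le).trans hL')
    refine ⟨W, V, μ, _, hW, hV, hμ, hT, hL, ?_, ?_⟩
    · have := loewner_conj (T.Lam s) (W * rdiag μ * Wᴴ) W hr1
      rwa [bri_unconj W _ hW] at this
    · have := loewner_conj (V * rdiag μ * Vᴴ) (T.Lam u) V hr2
      rwa [bri_unconj V _ hV] at this
  exact ⟨{ s0 := S0, hs0 := hS01, F := J, fix0 := hfix, deg := hdeg, self := hself,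
           cocycle := hcoc, σ := T.σ, hσ := T.σ_pos, C1 := max Cd 1, hC1 := le_max_right _ _,
           bound := hbound, det := hdet, q := q, q_mono := hqmono, c0 := T.c0, hc0 := T.c0_pos,
           q_lb := hqlb, q_liminf := hqlim, a0 := T.a0, ha0 := T.a0_pos, ha0' := T.a0_lt,
           b0 := min T.b0 1, hb0 := hb0, hb0' := min_le_right _ _, Pm := T.Lam, Pm_lb := hlb,
           Pm_ub := hub, svd := hsvd }, hS0T, hO⟩

/-! ### back to `PolyModels` -/

theorem bro_lin_le (P : PMap n) (v : CE (Fin n)) :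
    ‖fderiv ℂ (ev P) 0 v‖ ≤ mnorm (plin P) * ‖v‖ := by
  rw [fderiv_ev_zero]
  exact norm_toLp_mulVec_le _ _

theorem bro_lin_inv (P : PMap n) (B : Mat n) (hB : B * plin P = 1) (v : CE (Fin n)) :
    ‖v‖ ≤ mnorm B * ‖fderiv ℂ (ev P) 0 v‖ := by
  have h1 := norm_toLp_mulVec_le B (fderiv ℂ (ev P) 0 v)
  have h2 : (WithLp.toLp 2 (B.mulVec fun j => (fderiv ℂ (ev P) 0 v) j) : CE (Fin n)) = v := by
    rw [fderiv_ev_zero]
    have h3 : (fun j => (WithLp.toLp 2 ((plin P).mulVec fun j => v j) : CE (Fin n)) j)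
        = (plin P).mulVec fun j => v j := rfl
    rw [h3, Matrix.mulVec_mulVec, hB, Matrix.one_mulVec]
  rwa [h2] at h1

theorem bro_ev_Gacc (G : ℕ → PMap n) (k : ℕ) (z : CE (Fin n)) :
    ev (Gacc G k) z = (List.range k).foldl (fun y i => ev (G i) y) z := by
  induction k with
  | zero => simp [Gacc, ev_pid]
  | succ k ih =>
    rw [List.range_succ, List.foldl_append, ← ih]
    simp [Gacc, ev_comp]

/-- BRO: from the formal output to `PolyModels`. -/
theorem polyModels_of_output (T : TransSystem n) {d : ℕ} (hd : 2 ≤ d) (I : S9Input n d)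
    (hs0 : T.s0 ≤ I.s0)
    (hjet : ∀ s u, I.s0 ≤ s → s ≤ u →
      (fun z => T.F s u z - ev (I.F s u) z) =O[𝓝 0] fun z : CE (Fin n) => ‖z‖ ^ (d + 1))
    {h Cd : ℝ} (O : S9Output I h Cd) : Nonempty (PolyModels T d h Cd) := by
  have hspos : ∀ k, 0 < O.s k := fun k => by linarith [I.hs0, O.s_ge k]
  have hstep : ∀ k, O.s k ≤ O.s (k + 1) := fun k => by
    have := O.step_lb k
    have h2 : 0 ≤ O.ch * Real.sqrt (O.s k) := mul_nonneg O.hch.le (Real.sqrt_nonneg _)
    linarith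
  have hη : ∀ k, O.C / Real.sqrt (O.s k) * O.s k = O.C * Real.sqrt (O.s k) := by
    intro k
    have h1 : 0 < Real.sqrt (O.s k) := Real.sqrt_pos.mpr (hspos k)
    have h2 : Real.sqrt (O.s k) * Real.sqrt (O.s k) = O.s k := Real.mul_self_sqrt (hspos k).le
    rw [div_mul_eq_mul_div, div_eq_iff h1.ne', mul_assoc, h2]
  have hpow : ∀ k, O.s k ^ ((O.Cp : ℕ) : ℝ) = O.s k ^ O.Cp := fun k => Real.rpow_natCast _ _
  have hjets : ∀ k, (fun z => ev (O.H (k + 1)) (T.F (O.s k) (O.s (k + 1)) z) -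
      ev (O.G k) (ev (O.H k) z)) =O[𝓝 0] fun z : CE (Fin n) => ‖z‖ ^ (d + 1) := by
    intro k
    have hsk := O.s_ge k
    have e1 := isBigO_ev_comp (O.H (k + 1)) (bri_F_tendsto T (hs0.trans hsk) (hstep k))
      (bri_ev_tendsto (I.fix0 _ _ hsk (hstep k))) (hjet _ _ hsk (hstep k))
    have e2 : JEq d (comp (O.H (k + 1)) (I.F (O.s k) (O.s (k + 1)))) (comp (O.G k) (O.H k)) :=
      O.conj k
    rw [jeq_iff_isBigO] at e2
    refine (e1.add e2).congr_left fun z => ?_
    rw [ev_comp, ev_comp]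
    abel
  have hGi : ∀ k, plin (O.Gi k) * plin (O.G k) = 1 := fun k => by
    rw [← plin_comp _ (O.fixG k), O.Gi_G k, plin_pid]
  exact ⟨{
    s := O.s
    s_ge := fun k => hs0.trans (O.s_ge k)
    s_tendsto := O.s_tendsto
    ch := O.ch
    ch_pos := O.hch
    step_lower := O.step_lb
    step_upper := O.step_ub
    H := O.H
    G := O.G
    Ginv := O.Gi
    H_zero := fun k => ev_zero (O.fixH k)
    G_zero := fun k => ev_zero (O.fixG k)
    G_left := fun k z => by
      have := ev_comp (O.Gi k) (O.G k) z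
      rw [O.Gi_G k, ev_pid] at this
      exact this.symm
    G_right := fun k z => by
      have := ev_comp (O.G k) (O.Gi k) z
      rw [O.G_Gi k, ev_pid] at this
      exact this.symm
    jets := hjets
    Dg := max d O.Dd
    deg_le := fun k => ⟨(O.degH k).trans (le_max_left _ _), (O.degG k).trans (le_max_right _ _),
      (O.degGi k).trans (le_max_right _ _)⟩
    η := fun k => O.C / Real.sqrt (O.s k)
    η_tendsto := (Real.tendsto_sqrt_atTop.comp O.s_tendsto).const_div_atTop _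
    Cp := (O.Cp : ℕ)
    H_coeff := fun k => by
      rw [hη k]
      exact O.nrmH k
    H_lin := fun k v => by
      rw [hpow k]
      exact (bro_lin_le _ v).trans (mul_le_mul_of_nonneg_right (O.linH k) (norm_nonneg _))
    H_lin_inv := fun k v => by
      rw [hpow k]
      obtain ⟨B, hB1, hB2⟩ := O.linHinv k
      exact (bro_lin_inv _ B hB1 v).trans (mul_le_mul_of_nonneg_right hB2 (norm_nonneg _))
    G_coeff := fun k => by
      rw [hη k]
      exact O.nrmG k
    G_lin_inv := fun k v => by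
      rw [hpow k]
      exact (bro_lin_inv _ _ (hGi k) v).trans
        (mul_le_mul_of_nonneg_right (O.linGi k) (norm_nonneg _))
    Dfw := O.D
    fw_deg := fun K => by
      obtain ⟨k, hk1, hk2⟩ := O.degacc K
      exact ⟨k, hk1, Gacc O.G k, hk2, fun z => bro_ev_Gacc O.G k z⟩ }⟩

/-- **Proposition 8.1 of `Top/S8.lean`** (= Proposition 9.1 of the paper's numbering used in `S9`). -/
theorem st81 (T : TransSystem n) : St81 T := by
  intro _ d hd
  obtain ⟨I, hs0, hjet⟩ := exists_s9Input T d hd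
  obtain ⟨Cd, hCd⟩ := s9_main hd I
  refine ⟨Cd, fun hw h0 h1 => ?_⟩
  obtain ⟨O⟩ := hCd hw h0 h1
  exact polyModels_of_output T hd I hs0 hjet O

end Claimed.Agent.R316.S9
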