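import Claimed.Agent.R316.S9.Par

/-!
# Row 316, Section 9, package CTX: the concrete grid, its rates and weights

`Ctx I h Dst p c Cv` = parameters + a late regular start `j0`.
-/

set_option autoImplicit false
open scoped ComplexOrder Matrix

namespace Claimed.Agent.R316.S9

variable {n d : ℕ}

/-- parameters together with a late regular start. -/
structure Ctx (I : S9Input n d) (h : ℝ) (Dst p c : ℕ) (Cv : ℝ) where
  hh : 0 < h
  hh1 : h < 1
  hn : 0 < n
  /-- the parameters -/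
  P : Par I h Dst
  /-- first macro index -/
  j0 : ℕ
  hreg0 : ¬ P.bad j0
  late : ∀ j, j0 ≤ j → Late P p c Cv j

namespace Ctx

variable {I : S9Input n d} {h : ℝ} {Dst p c : ℕ} {Cv : ℝ} (C : Ctx I h Dst p c Cv)

/-- the grid. -/
noncomputable def s (k : ℕ) : ℝ := gs h C.P.bad C.j0 k

/-- macro index of a step. -/
noncomputable def jj (k : ℕ) : ℕ := gj h C.P.bad C.j0 k

/-- regular steps. -/
def reg (k : ℕ) : Prop := ¬ C.P.bad (C.jj k)

theorem lateJ (k : ℕ) : Late C.P p c Cv (C.jj k) := C.late _ (le_gj k)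

/-- CTX-1 -/
theorem Sm_le_s (k : ℕ) : Sm h (C.jj k) ≤ C.s k := Sm_le_gs C.hh k

/-- CTX-2 -/
theorem s_succ_le (k : ℕ) : C.s (k + 1) ≤ Sm h (C.jj k + 1) := gs_succ_le C.hh k

theorem s_ge (k : ℕ) : I.s0 ≤ C.s k := (C.lateJ k).s0_le.trans (C.Sm_le_s k)

/-- CTX-3 -/
theorem step_reg {k : ℕ} (hk : C.reg k) :
    Real.sqrt (Sm h (C.jj k)) / 2 ≤ C.s (k + 1) - C.s k ∧
      C.s (k + 1) - C.s k ≤ Real.sqrt (Sm h (C.jj k)) := by
  have := glen_regular C.hh hk (C.lateJ k).sqrt_ge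
  rw [s, s, gs_succ_sub C.hh k]
  exact this

/-- CTX-4 -/
theorem step_bad {k : ℕ} (hk : ¬ C.reg k) :
    C.s k = Sm h (C.jj k) ∧ C.jj (k + 1) = C.jj k + 1 ∧
      C.s (k + 1) - C.s k = (Real.exp h - 1) * Sm h (C.jj k) := by
  have hb : C.P.bad (gj h C.P.bad C.j0 k) := not_not.mp hk
  obtain ⟨h1, h2, h3⟩ := gst_of_bad C.hh hb
  refine ⟨h1, h2, ?_⟩
  rw [s, s, gs_succ_sub C.hh k]
  exact h3

/-- CTX-5 -/
theorem s_lt (k : ℕ) : C.s k < C.s (k + 1) := by
  have h1 := gs_succ_sub (bad := C.P.bad) (j0 := C.j0) C.hh k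
  have h2 := glen_pos (bad := C.P.bad) C.hh (gj h C.P.bad C.j0 k)
  unfold s
  linarith

theorem ctx_one_le_Sm (k : ℕ) : 1 ≤ Sm h (C.jj k) := by
  have := (C.lateJ k).two_le
  linarith

theorem ctx_jj_pos (k : ℕ) : 1 ≤ C.jj k := by
  have := (C.lateJ k).N_le
  omega

theorem ctx_N_le (k : ℕ) : C.P.N ≤ C.jj k := by
  have := (C.lateJ k).N_le
  omega


/-- CTX-6: (9.2), lower bound. -/
theorem step_lb (k : ℕ) :
    min (1 / 4) (Real.exp h - 1) * Real.sqrt (C.s k) ≤ C.s (k + 1) - C.s k := by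
  have hS1 := C.ctx_one_le_Sm k
  have hS0 : 0 < Sm h (C.jj k) := Sm_pos _ _
  by_cases hk : C.reg k
  · have h1 := (C.step_reg hk).1
    have h2 : C.s k ≤ Sm h (C.jj k + 1) := (C.s_lt k).le.trans (C.s_succ_le k)
    have h3 : Sm h (C.jj k + 1) ≤ 4 * Sm h (C.jj k) := by
      rw [Sm_succ]
      have : Real.exp h ≤ 4 := by
        have e1 : Real.exp h ≤ Real.exp 1 := Real.exp_le_exp.mpr C.hh1.le
        have e2 := Real.exp_one_lt_d9
        linarith
      exact mul_le_mul_of_nonneg_right this hS0.le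
    have h4 : Real.sqrt (C.s k) ≤ 2 * Real.sqrt (Sm h (C.jj k)) := by
      have : Real.sqrt (4 * Sm h (C.jj k)) = 2 * Real.sqrt (Sm h (C.jj k)) := by
        rw [Real.sqrt_mul (by norm_num : (0 : ℝ) ≤ 4)]
        congr 1
        rw [show (4 : ℝ) = 2 ^ 2 by norm_num]
        exact Real.sqrt_sq (by norm_num)
      rw [← this]
      exact Real.sqrt_le_sqrt (h2.trans h3)
    have h5 : min (1 / 4) (Real.exp h - 1) * Real.sqrt (C.s k) ≤ 1 / 4 * Real.sqrt (C.s k) :=
      mul_le_mul_of_nonneg_right (min_le_left _ _) (Real.sqrt_nonneg _)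
    linarith
  · obtain ⟨h1, -, h3⟩ := C.step_bad hk
    rw [h3, h1]
    have h4 : Real.sqrt (Sm h (C.jj k)) ≤ Sm h (C.jj k) := by
      rw [Real.sqrt_le_left hS0.le]
      nlinarith
    calc min (1 / 4) (Real.exp h - 1) * Real.sqrt (Sm h (C.jj k))
        ≤ (Real.exp h - 1) * Real.sqrt (Sm h (C.jj k)) :=
          mul_le_mul_of_nonneg_right (min_le_right _ _) (Real.sqrt_nonneg _)
      _ ≤ _ := mul_le_mul_of_nonneg_left h4 (grid_delta_pos C.hh).le

/-- CTX-7: (9.2), upper bound. -/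
theorem step_ub (k : ℕ) : C.s (k + 1) - C.s k ≤ (Real.exp h - 1) * C.s k := by
  have hS0 : 0 < Sm h (C.jj k) := Sm_pos _ _
  by_cases hk : C.reg k
  · have h1 := (C.step_reg hk).2
    have h2 := (C.lateJ k).sqrt_ge
    have h3 : Real.sqrt (Sm h (C.jj k)) ≤ (Real.exp h - 1) * Sm h (C.jj k) := by
      have hq := Real.mul_self_sqrt hS0.le
      have hq0 := Real.sqrt_nonneg (Sm h (C.jj k))
      calc Real.sqrt (Sm h (C.jj k)) = 1 * Real.sqrt (Sm h (C.jj k)) := (one_mul _).symm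
        _ ≤ ((Real.exp h - 1) * Real.sqrt (Sm h (C.jj k))) * Real.sqrt (Sm h (C.jj k)) :=
          mul_le_mul_of_nonneg_right h2 hq0
        _ = _ := by rw [mul_assoc, hq]
    have h4 : (Real.exp h - 1) * Sm h (C.jj k) ≤ (Real.exp h - 1) * C.s k :=
      mul_le_mul_of_nonneg_left (C.Sm_le_s k) (grid_delta_pos C.hh).le
    linarith
  · obtain ⟨h1, -, h3⟩ := C.step_bad hk
    rw [h3, h1]

/-- CTX-8 -/
theorem s_tendsto : Filter.Tendsto C.s Filter.atTop Filter.atTop := by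
  set c : ℝ := min (1 / 4) (Real.exp h - 1) with hc
  have hc0 : 0 < c := lt_min (by norm_num) (grid_delta_pos C.hh)
  have hstep : ∀ k, c ≤ C.s (k + 1) - C.s k := by
    intro k
    have h1 := C.step_lb k
    have h2 : 1 ≤ Real.sqrt (C.s k) := by
      rw [Real.one_le_sqrt]
      exact (C.ctx_one_le_Sm k).trans (C.Sm_le_s k)
    calc c = c * 1 := (mul_one _).symm
      _ ≤ c * Real.sqrt (C.s k) := mul_le_mul_of_nonneg_left h2 hc0.le
      _ ≤ _ := h1
  have hlin : ∀ k : ℕ, C.s 0 + c * k ≤ C.s k := by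
    intro k
    induction k with
    | zero => simp
    | succ k ih =>
      have := hstep k
      push_cast
      linarith
  refine Filter.tendsto_atTop_mono hlin ?_
  refine Filter.tendsto_atTop_add_const_left _ _ ?_
  exact Filter.Tendsto.const_mul_atTop hc0 tendsto_natCast_atTop_atTop

/-- CTX-9 -/
theorem jj_succ (k : ℕ) : C.jj (k + 1) = C.jj k ∨
    (C.jj (k + 1) = C.jj k + 1 ∧ C.s (k + 1) = Sm h (C.jj k + 1)) := gj_succ k

variable (X : RateData I C.s)

/-- CTX-10: (9.13). -/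
theorem rate_reg {k : ℕ} (hk : C.reg k) (i : Fin n) :
    I.b0 * Qs I h (C.jj k - C.P.N) ≤ X.μ k i ∧ X.μ k i ≤ Qs I h (C.jj k + 1) ∧
      Qs I h (C.jj k + 1) ≤ Real.exp C.P.M * Qs I h (C.jj k - C.P.N) := by
  have hN := C.ctx_N_le k
  refine ⟨?_, ?_, ?_⟩
  · refine le_trans ?_ (X.rate_lb C.s_ge k i)
    refine mul_le_mul_of_nonneg_left ?_ I.hb0.le
    apply I.q_mono
    have h1 : Sm h (C.jj k - C.P.N) = Real.exp (-(h * C.P.N)) * Sm h (C.jj k) := by
      unfold Sm
      rw [← Real.exp_add]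
      congr 1
      rw [Nat.cast_sub hN]
      ring
    rw [h1]
    calc Real.exp (-(h * C.P.N)) * Sm h (C.jj k) ≤ I.a0 * Sm h (C.jj k) :=
          mul_le_mul_of_nonneg_right C.P.hNa (Sm_pos _ _).le
      _ ≤ I.a0 * C.s k := mul_le_mul_of_nonneg_left (C.Sm_le_s k) I.ha0.le
  · refine (X.rate_ub C.s_ge k i).trans ?_
    exact I.q_mono (C.s_succ_le k)
  · have h1 := log_le_of_not_bad hN hk
    have hp1 := Qs_pos I h (C.jj k + 1)
    have hp2 := Qs_pos I h (C.jj k - C.P.N)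
    have h2 : Real.log (Qs I h (C.jj k + 1)) ≤ Real.log (Real.exp C.P.M * Qs I h (C.jj k - C.P.N)) := by
      rw [Real.log_mul (Real.exp_pos _).ne' hp2.ne', Real.log_exp]
      linarith
    exact (Real.log_le_log_iff hp1 (mul_pos (Real.exp_pos _) hp2)).mp h2

/-- CTX-11 -/
theorem rate_pos (k : ℕ) (i : Fin n) : 0 < X.μ k i :=
  lt_of_lt_of_le (mul_pos I.hb0 (lt_of_lt_of_le I.hc0 (I.q_lb _))) (X.rate_lb C.s_ge k i)

/-- CTX-12: `μ_i T ≤ Δ s`. -/
theorem rateT_le (k : ℕ) (i : Fin n) : X.μ k i * X.T k ≤ C.s (k + 1) - C.s k := by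
  rw [← X.rate_sum C.s_ge C.s_lt k]
  exact Finset.single_le_sum (f := fun i => X.μ k i * X.T k)
    (fun l _ => (mul_pos (C.rate_pos X k l) (X.hT k)).le) (Finset.mem_univ i)

/-- CTX-13: `θ_j T_k ≥ sqrt S_j / (2 n e^M j^2)`. -/
theorem thetaT_ge {k : ℕ} (hk : C.reg k) : C.P.gg (C.jj k) ≤ θs I h (C.jj k) * X.T k := by
  have hj : (0 : ℝ) < (C.jj k : ℝ) := by exact_mod_cast C.ctx_jj_pos k
  have hn : (0 : ℝ) < (n : ℝ) := by exact_mod_cast C.hn
  have hT := X.hT k
  have hE := Real.exp_pos C.P.M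
  have hub : ∀ i, X.μ k i * X.T k ≤ Real.exp C.P.M * Qs I h (C.jj k) * X.T k := by
    intro i
    obtain ⟨-, h2, h3⟩ := C.rate_reg X hk i
    have h4 : Qs I h (C.jj k - C.P.N) ≤ Qs I h (C.jj k) := Qs_mono I C.hh (Nat.sub_le _ _)
    refine mul_le_mul_of_nonneg_right ?_ hT.le
    exact h2.trans (h3.trans (mul_le_mul_of_nonneg_left h4 hE.le))
  have hsum : C.s (k + 1) - C.s k ≤ n * (Real.exp C.P.M * Qs I h (C.jj k) * X.T k) := by
    rw [← X.rate_sum C.s_ge C.s_lt k]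
    calc ∑ i, X.μ k i * X.T k ≤ ∑ _i : Fin n, Real.exp C.P.M * Qs I h (C.jj k) * X.T k :=
          Finset.sum_le_sum fun i _ => hub i
      _ = _ := by simp
  have hlow := (C.step_reg hk).1
  unfold Par.gg θs
  rw [div_mul_eq_mul_div, div_le_div_iff₀ (by positivity) (by positivity)]
  have h5 : Real.sqrt (Sm h (C.jj k)) ≤ 2 * (n * (Real.exp C.P.M * Qs I h (C.jj k) * X.T k)) := by
    linarith
  calc Real.sqrt (Sm h (C.jj k)) * (C.jj k : ℝ) ^ 2
      ≤ 2 * (n * (Real.exp C.P.M * Qs I h (C.jj k) * X.T k)) * (C.jj k : ℝ) ^ 2 :=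
        mul_le_mul_of_nonneg_right h5 (by positivity)
    _ = _ := by ring

/-- the properties of the weights. -/
structure Weights (w : ℕ → Fin n → ℝ) : Prop where
  W1 : ∀ k i, C.P.lam (C.jj k) * (X.μ k i - θs I h (C.jj k)) ≤ w k i ∧
    w k i ≤ C.P.lam (C.jj k) * (X.μ k i - 9 / 10 * θs I h (C.jj k))
  W2 : ∀ k i l, X.μ k l - eps0 n * θs I h (C.jj k) ≤ X.μ k i → w k l ≤ w k i
  W3 : ∀ k, C.reg k → C.reg (k + 1) → ∀ i l,
    X.μ k l - eps0 n * θs I h (C.jj k) ≤ X.μ (k + 1) i → w k l ≤ w (k + 1) i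
  W4 : ∀ k, C.reg k → ∀ i, 1 ≤ w k i

/-- CTX-14: existence of the weights (`wt_main` + junction inequality + scaling of `lam`). -/
theorem exists_weights : ∃ w : ℕ → Fin n → ℝ, C.Weights X w := by
  have hn : (0 : ℝ) < (n : ℝ) := by exact_mod_cast C.hn
  have hn1 : (1 : ℝ) ≤ (n : ℝ) := by exact_mod_cast C.hn
  have hb := C.P.b_pos
  have hlamB := lamS_bounds (K0 := 2 / C.P.b) (L0 := 2 / (C.P.b * I.c0)) (by positivity)
    (by have := I.hc0; positivity)
  have hL0 : 0 < 2 / (C.P.b * I.c0) := by have := I.hc0; positivity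
  have hlam : ∀ j, 0 < C.P.lam j := fun j => lt_of_lt_of_le hL0 (hlamB.2 j).1
  have heps : 0 < eps0 n := by unfold eps0; positivity
  have hneps : n * eps0 n ≤ 1 / 10 := by
    unfold eps0
    rw [mul_one_div, div_le_div_iff₀ (by positivity) (by norm_num)]
    linarith
  have heps1 : eps0 n ≤ 1 / 10 := by
    unfold eps0
    rw [div_le_div_iff₀ (by positivity) (by norm_num)]
    linarith
  -- a positive version of `θ`
  set θ' : ℕ → ℝ := fun j => if j = 0 then 1 else θs I h j with hθ'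
  have hθpos : ∀ j, 0 < θ' j := by
    intro j
    by_cases hj : j = 0
    · simp [hθ', hj]
    · simp only [hθ', if_neg hj]
      have : (0 : ℝ) < (j : ℝ) := by exact_mod_cast Nat.pos_of_ne_zero hj
      have := Qs_pos I h j
      unfold θs
      positivity
  have hθeq : ∀ k, θ' (C.jj k) = θs I h (C.jj k) := by
    intro k
    have := C.ctx_jj_pos k
    simp only [hθ', if_neg (show C.jj k ≠ 0 by omega)]
  obtain ⟨w, hw1, hw2, hw3⟩ := wt_main X.μ C.jj θ' C.P.lam (eps0 n) X.rate_mono hθpos hlam heps hneps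
  simp only [hθeq] at hw1 hw2 hw3
  -- lower bound of the rates on regular steps
  have hlow : ∀ k, C.reg k → ∀ i, C.P.b * Qs I h (C.jj k + 1) ≤ X.μ k i := by
    intro k hk i
    obtain ⟨h1, -, h3⟩ := C.rate_reg X hk i
    refine le_trans ?_ h1
    unfold Par.b
    rw [mul_assoc]
    refine mul_le_mul_of_nonneg_left ?_ I.hb0.le
    rw [Real.exp_neg, inv_mul_le_iff₀ (Real.exp_pos _)]
    exact h3
  have hθle : ∀ k, θs I h (C.jj k) ≤ C.P.b / 2 * Qs I h (C.jj k) := by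
    intro k
    have hj : (0 : ℝ) < (C.jj k : ℝ) := by exact_mod_cast C.ctx_jj_pos k
    have h1 := (C.lateJ k).sq_ge
    have hQ := Qs_pos I h (C.jj k)
    unfold θs
    rw [div_le_iff₀ (by positivity)]
    rw [div_le_iff₀ hb] at h1
    nlinarith
  refine ⟨w, hw1, hw2, ?_, ?_⟩
  · intro k hk hk1 i l hil
    rcases C.jj_succ k with hj | ⟨hj, -⟩
    · exact hw3 k i l hj hil
    · -- junction inequality
      have hjpos : (0 : ℝ) < (C.jj k : ℝ) := by exact_mod_cast C.ctx_jj_pos k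
      have a1 := (hw1 k l).2
      have a2 := (hw1 (k + 1) i).1
      refine a1.trans (le_trans ?_ a2)
      rw [hj]
      have hlam1 : C.P.lam (C.jj k + 1) = C.P.lam (C.jj k) * (1 + 2 / C.P.b / (C.jj k : ℝ) ^ 2) := rfl
      rw [hlam1, mul_assoc]
      refine mul_le_mul_of_nonneg_left ?_ (hlam _).le
      have hθ0 : 0 < θs I h (C.jj k) := by rw [← hθeq]; exact hθpos _
      have hQ1 := Qs_pos I h (C.jj k + 1)
      have b1 : C.P.b * Qs I h (C.jj k + 1) ≤ X.μ (k + 1) i := by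
        have := hlow (k + 1) hk1 i
        rw [hj] at this
        refine le_trans ?_ this
        exact mul_le_mul_of_nonneg_left (Qs_mono I C.hh (Nat.le_succ _)) hb.le
      have b2 : θs I h (C.jj k + 1) ≤ C.P.b / 2 * Qs I h (C.jj k + 1) := by
        have := hθle (k + 1)
        rwa [hj] at this
      have b3 : θs I h (C.jj k + 1) ≤ Qs I h (C.jj k + 1) / (C.jj k : ℝ) ^ 2 := by
        unfold θs
        apply div_le_div_of_nonneg_left hQ1.le (by positivity)
        push_cast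
        nlinarith
      -- `(K0 / j^2) (m - θ') ≥ Q / j^2`
      have b4 : Qs I h (C.jj k + 1) / (C.jj k : ℝ) ^ 2
          ≤ 2 / C.P.b / (C.jj k : ℝ) ^ 2 * (X.μ (k + 1) i - θs I h (C.jj k + 1)) := by
        have c1 : C.P.b / 2 * Qs I h (C.jj k + 1) ≤ X.μ (k + 1) i - θs I h (C.jj k + 1) := by
          linarith
        have c2 : 2 / C.P.b / (C.jj k : ℝ) ^ 2 * (C.P.b / 2 * Qs I h (C.jj k + 1))
            = Qs I h (C.jj k + 1) / (C.jj k : ℝ) ^ 2 := by
          field_simp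
        rw [← c2]
        exact mul_le_mul_of_nonneg_left c1 (by positivity)
      have b5 : (9 / 10 - eps0 n) * θs I h (C.jj k) ≥ 0 := by
        apply mul_nonneg _ hθ0.le
        linarith
      nlinarith
  · intro k hk i
    have a1 := (hw1 k i).1
    refine le_trans ?_ a1
    have b1 : C.P.b * Qs I h (C.jj k) ≤ X.μ k i :=
      le_trans (mul_le_mul_of_nonneg_left (Qs_mono I C.hh (Nat.le_succ _)) hb.le) (hlow k hk i)
    have b2 := hθle k
    have b3 : C.P.b / 2 * I.c0 ≤ X.μ k i - θs I h (C.jj k) := by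
      have : I.c0 ≤ Qs I h (C.jj k) := I.q_lb _
      nlinarith
    have b4 : 2 / (C.P.b * I.c0) ≤ C.P.lam (C.jj k) := (hlamB.2 _).1
    have hc0 := I.hc0
    calc (1 : ℝ) = 2 / (C.P.b * I.c0) * (C.P.b / 2 * I.c0) := by field_simp
      _ ≤ C.P.lam (C.jj k) * (X.μ k i - θs I h (C.jj k)) :=
        mul_le_mul b4 b3 (by positivity) (hlam _).le

variable {X} {w : ℕ → Fin n → ℝ}

/-- CTX-15: the linear data for the alignment lemma. -/
theorem exists_linData (hw : C.Weights X w) : ∃ Y : LinData n, Y.reg = C.reg ∧ Y.μ = X.μ ∧ Y.T = X.T ∧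
    Y.U = X.U ∧ Y.w = w ∧ (∀ k, Y.ε k = eps0 n * θs I h (C.jj k)) ∧
    (∀ k, Y.R k = Real.exp C.P.M * Qs I h (C.jj k)) := by
  have hn : (0 : ℝ) < (n : ℝ) := by exact_mod_cast C.hn
  have hn1 : (1 : ℝ) ≤ (n : ℝ) := by exact_mod_cast C.hn
  have heps : 0 < eps0 n := by unfold eps0; positivity
  have hjpos : ∀ k, (0 : ℝ) < (C.jj k : ℝ) := fun k => by exact_mod_cast C.ctx_jj_pos k
  have hj1 : ∀ k, (1 : ℝ) ≤ (C.jj k : ℝ) := fun k => by exact_mod_cast C.ctx_jj_pos k
  have hθpos : ∀ k, 0 < θs I h (C.jj k) := by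
    intro k
    have := Qs_pos I h (C.jj k)
    have := hjpos k
    unfold θs
    positivity
  have hE1 : 1 ≤ Real.exp C.P.M := Real.one_le_exp C.P.hM0
  refine ⟨{ reg := C.reg, μ := X.μ, T := X.T, U := X.U, w := w,
            ε := fun k => eps0 n * θs I h (C.jj k),
            R := fun k => Real.exp C.P.M * Qs I h (C.jj k),
            hU := X.hU, hT := X.hT, hμ0 := fun k i => (C.rate_pos X k i).le, jump := X.jump,
            hε := fun k _ => mul_pos heps (hθpos k), hεR := ?_, hR := ?_,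
            W2 := fun k _ => hw.W2 k, W3 := hw.W3, close := ?_ },
    rfl, rfl, rfl, rfl, rfl, fun _ => rfl, fun _ => rfl⟩
  · intro k _
    have hQ := Qs_pos I h (C.jj k)
    have h1 : θs I h (C.jj k) ≤ Qs I h (C.jj k) := by
      unfold θs
      apply div_le_self hQ.le
      have := hj1 k
      nlinarith
    have h2 : eps0 n ≤ 1 := by
      unfold eps0
      rw [div_le_one (by positivity)]
      linarith
    calc eps0 n * θs I h (C.jj k) ≤ 1 * Qs I h (C.jj k) :=
          mul_le_mul h2 h1 (hθpos k).le (by norm_num)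
      _ ≤ _ := mul_le_mul_of_nonneg_right hE1 hQ.le
  · intro k _ hk1 i
    obtain ⟨-, h2, h3⟩ := C.rate_reg X hk1 i
    refine h2.trans (h3.trans ?_)
    refine mul_le_mul_of_nonneg_left ?_ (Real.exp_pos _).le
    apply Qs_mono I C.hh
    have hN := C.P.hN
    rcases C.jj_succ k with hj | ⟨hj, -⟩ <;> omega
  · intro k hk hk1
    show 12 * (Real.exp C.P.M * Qs I h (C.jj k)) *
      (Bd n (Real.exp C.P.M * Qs I h (C.jj (k + 1)) / (eps0 n * θs I h (C.jj (k + 1)))) *
        Real.exp (-(eps0 n * θs I h (C.jj (k + 1)) * X.T (k + 1)) / 2)) ≤ eps0 n * θs I h (C.jj k)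
    have hQ := Qs_pos I h (C.jj k)
    have hQ1 := Qs_pos I h (C.jj (k + 1))
    have hj := hjpos k
    have hj' := hjpos (k + 1)
    have e1 : Real.exp C.P.M * Qs I h (C.jj (k + 1)) / (eps0 n * θs I h (C.jj (k + 1)))
        = Real.exp C.P.M * (C.jj (k + 1) : ℝ) ^ 2 * (10 * n) := by
      unfold eps0 θs
      field_simp
    rw [e1]
    have hA : 12 * (Real.exp C.P.M * (C.jj k : ℝ) ^ 2 * (10 * n)) * C.P.BdJ (C.jj (k + 1))
        ≤ Real.exp (eps0 n * C.P.gg (C.jj (k + 1)) / 2) := by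
      rcases C.jj_succ k with hjj | ⟨hjj, -⟩
      · rw [hjj]; exact (C.lateJ k).close0
      · rw [hjj]; exact (C.lateJ k).close1
    have hB : 0 ≤ C.P.BdJ (C.jj (k + 1)) := by
      unfold Par.BdJ Bd
      positivity
    have hexp : Real.exp (-(eps0 n * θs I h (C.jj (k + 1)) * X.T (k + 1)) / 2)
        ≤ (Real.exp (eps0 n * C.P.gg (C.jj (k + 1)) / 2))⁻¹ := by
      rw [← Real.exp_neg]
      apply Real.exp_le_exp.mpr
      have := C.thetaT_ge X hk1
      have := mul_le_mul_of_nonneg_left this heps.le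
      linarith
    set E := Real.exp (eps0 n * C.P.gg (C.jj (k + 1)) / 2) with hE
    have hE0 : 0 < E := Real.exp_pos _
    change 12 * (Real.exp C.P.M * Qs I h (C.jj k)) * (C.P.BdJ (C.jj (k + 1)) *
      Real.exp (-(eps0 n * θs I h (C.jj (k + 1)) * X.T (k + 1)) / 2)) ≤ eps0 n * θs I h (C.jj k)
    have hM := Real.exp_pos C.P.M
    calc 12 * (Real.exp C.P.M * Qs I h (C.jj k)) * (C.P.BdJ (C.jj (k + 1)) *
          Real.exp (-(eps0 n * θs I h (C.jj (k + 1)) * X.T (k + 1)) / 2))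
        ≤ 12 * (Real.exp C.P.M * Qs I h (C.jj k)) * (C.P.BdJ (C.jj (k + 1)) * E⁻¹) := by
          apply mul_le_mul_of_nonneg_left _ (by positivity)
          exact mul_le_mul_of_nonneg_left hexp hB
      _ = (12 * (Real.exp C.P.M * (C.jj k : ℝ) ^ 2 * (10 * n)) * C.P.BdJ (C.jj (k + 1))) * E⁻¹ *
            (eps0 n * θs I h (C.jj k)) := by
          unfold eps0 θs
          field_simp
      _ ≤ 1 * (eps0 n * θs I h (C.jj k)) := by
          apply mul_le_mul_of_nonneg_right _ (mul_pos heps (hθpos k)).le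
          rw [mul_inv_le_iff₀ hE0, one_mul]
          exact hA
      _ = _ := one_mul _

end Ctx

end Claimed.Agent.R316.S9
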