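import Mathlib

/-!
# Row 316, Section 9, package FLAG: flagged macro indices and bad components

Pure combinatorics of a monotone positive sequence `Q : ℕ → ℝ` (`Q j = q (exp (h j))`).
Paper: dynamics.tex, (9.12) and Lemma 9.5 (first half), with the Vitali selection replaced by an
exact tiling by windows of length `3 N + 1`:

* local fact: `Bad p → M < log Q (p + N + 1) - log Q (p - 2 N)`;
* prefix   : tile `[u, j]` by the windows `[u + r W', u + (r+1) W']`, `W' = 3 N + 1`, centre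
  `p = u + r W' + 2 N`;
* full component `[u, v)`: the flag covering `u` is `f = u + N` exactly (as `u - 1` is regular), and a
  flag covering a point `< v` has `f + 1 ≤ v - N` (as `v` is regular).
-/

set_option autoImplicit false

namespace Claimed.Agent.R316.S9

/-- the macro index `f` is flagged (9.12). -/
def Flagged (Q : ℕ → ℝ) (N : ℕ) (M : ℝ) (f : ℕ) : Prop :=
  N ≤ f ∧ M < Real.log (Q (f + 1)) - Real.log (Q (f - N))

/-- `j` lies in an expanded flag interval `[f - N, f + N + 1)`. -/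
def Bad (Q : ℕ → ℝ) (N : ℕ) (M : ℝ) (j : ℕ) : Prop :=
  ∃ f, Flagged Q N M f ∧ f ≤ j + N ∧ j ≤ f + N

variable {Q : ℕ → ℝ} {N : ℕ} {M : ℝ}

/-- a regular index is not flagged. -/
theorem not_flagged_of_not_bad {j : ℕ} (h : ¬ Bad Q N M j) : ¬ Flagged Q N M j :=
  fun hf => h ⟨j, hf, Nat.le_add_right _ _, Nat.le_add_right _ _⟩

/-- a regular index `j ≥ N` satisfies the reverse of the flag test. -/
theorem log_le_of_not_bad {j : ℕ} (hj : N ≤ j) (h : ¬ Bad Q N M j) :
    Real.log (Q (j + 1)) - Real.log (Q (j - N)) ≤ M := by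
  by_contra hc
  exact not_flagged_of_not_bad h ⟨hj, not_le.mp hc⟩

/-- monotonicity of `log ∘ Q`. -/
theorem flag_log_mono (hQ : Monotone Q) (hpos : ∀ j, 0 < Q j) {a b : ℕ} (hab : a ≤ b) :
    Real.log (Q a) ≤ Real.log (Q b) :=
  Real.log_le_log (hpos a) (hQ hab)

/-- FLAG-1: local growth at a bad point. -/
theorem bad_local (hQ : Monotone Q) (hpos : ∀ j, 0 < Q j) {p : ℕ} (hp : Bad Q N M p) :
    M < Real.log (Q (p + N + 1)) - Real.log (Q (p - 2 * N)) := by
  obtain ⟨f, ⟨hNf, hf⟩, h1, h2⟩ := hp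
  have a1 : Real.log (Q (f + 1)) ≤ Real.log (Q (p + N + 1)) := flag_log_mono hQ hpos (by omega)
  have a2 : Real.log (Q (p - 2 * N)) ≤ Real.log (Q (f - N)) := flag_log_mono hQ hpos (by omega)
  linarith

/-- tiling of a bad prefix by windows of length `3 N + 1`. -/
theorem flag_prefix_aux (hQ : Monotone Q) (hpos : ∀ j, 0 < Q j) {u j : ℕ}
    (hbad : ∀ i, u ≤ i → i < j → Bad Q N M i) (r : ℕ) (hr : u + r * (3 * N + 1) ≤ j) :
    (r : ℝ) * M ≤ Real.log (Q (u + r * (3 * N + 1))) - Real.log (Q u) := by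
  induction r with
  | zero => simp
  | succ r ih =>
    have h1 := ih (by nlinarith)
    have hp : Bad Q N M (u + r * (3 * N + 1) + 2 * N) :=
      hbad _ (by omega) (by
        have : u + (r + 1) * (3 * N + 1) = u + r * (3 * N + 1) + (3 * N + 1) := by ring
        omega)
    have h2 := bad_local hQ hpos hp
    have e1 : u + r * (3 * N + 1) + 2 * N + N + 1 = u + (r + 1) * (3 * N + 1) := by ring
    have e2 : u + r * (3 * N + 1) + 2 * N - 2 * N = u + r * (3 * N + 1) := by omega
    rw [e1, e2] at h2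
    push_cast
    linarith

/-- FLAG-2: growth along a bad prefix (9.30). -/
theorem bad_prefix (hQ : Monotone Q) (hpos : ∀ j, 0 < Q j) (hM : 0 ≤ M) {u j : ℕ} (huj : u ≤ j)
    (hbad : ∀ i, u ≤ i → i < j → Bad Q N M i) :
    M / (3 * N + 1) * (((j : ℝ) - u) - (3 * N + 1)) ≤ Real.log (Q j) - Real.log (Q u) := by
  have hWpos : 0 < 3 * N + 1 := by omega
  obtain ⟨r, hr⟩ : ∃ r, r = (j - u) / (3 * N + 1) := ⟨_, rfl⟩
  have h1 : r * (3 * N + 1) ≤ j - u := hr ▸ Nat.div_mul_le_self _ _
  have h2 : j - u < (r + 1) * (3 * N + 1) := by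
    have := Nat.lt_div_mul_add (a := j - u) hWpos
    rw [← hr] at this
    nlinarith
  have h3 := flag_prefix_aux hQ hpos hbad r (by omega)
  have h4 : Real.log (Q (u + r * (3 * N + 1))) ≤ Real.log (Q j) :=
    flag_log_mono hQ hpos (by omega)
  have hWr : (0 : ℝ) < 3 * N + 1 := by positivity
  have h5 : ((j : ℝ) - u) - (3 * N + 1) ≤ r * (3 * N + 1) := by
    have : (j : ℝ) - u = ((j - u : ℕ) : ℝ) := by
      rw [Nat.cast_sub huj]
    rw [this]
    have h2' : ((j - u : ℕ) : ℝ) < (((r + 1) * (3 * N + 1) : ℕ) : ℝ) := by exact_mod_cast h2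
    push_cast at h2'
    linarith
  calc M / (3 * N + 1) * (((j : ℝ) - u) - (3 * N + 1))
      ≤ M / (3 * N + 1) * (r * (3 * N + 1)) :=
        mul_le_mul_of_nonneg_left h5 (div_nonneg hM hWr.le)
    _ = r * M := by field_simp
    _ ≤ _ := by linarith

/-- every flag covering a point of a full component `[u, v)` has its window inside `[u, v - N]`. -/
theorem flag_window {u v : ℕ} (hu : ¬ Bad Q N M (u - 1)) (hv : ¬ Bad Q N M v) {i f : ℕ}
    (hui : u ≤ i) (hiv : i < v) (hf : Flagged Q N M f) (h1 : f ≤ i + N) (h2 : i ≤ f + N) :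
    u + N ≤ f ∧ f + N + 1 ≤ v := by
  constructor
  · by_contra hc
    exact hu ⟨f, hf, by omega, by omega⟩
  · by_contra hc
    exact hv ⟨f, hf, by omega, by omega⟩

/-- tiling of a full component: first window `[u, u + N + 1]`, then windows of length `3 N + 1`. -/
theorem flag_full_aux (hQ : Monotone Q) (hpos : ∀ j, 0 < Q j) {u v : ℕ} (huv : u < v)
    (hbad : ∀ i, u ≤ i → i < v → Bad Q N M i) (hu : ¬ Bad Q N M (u - 1)) (hv : ¬ Bad Q N M v) (s : ℕ)
    (hs : s * (3 * N + 1) < v - u) :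
    ((s : ℝ) + 1) * M
      ≤ Real.log (Q (min (u + N + 1 + s * (3 * N + 1)) (v - N))) - Real.log (Q u) := by
  induction s with
  | zero =>
    obtain ⟨f, hf, h1, h2⟩ := hbad u le_rfl huv
    obtain ⟨a1, a2⟩ := flag_window hu hv le_rfl huv hf h1 h2
    have hfe : f = u + N := by omega
    subst hfe
    have h3 := hf.2
    have e1 : u + N - N = u := by omega
    rw [e1] at h3
    have e2 : min (u + N + 1 + 0 * (3 * N + 1)) (v - N) = u + N + 1 := by
      rw [zero_mul, add_zero]
      exact min_eq_left (by omega)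
    rw [e2]
    simp only [Nat.cast_zero, zero_add, one_mul]
    exact h3.le
  | succ s ih =>
    have e0 : (s + 1) * (3 * N + 1) = s * (3 * N + 1) + (3 * N + 1) := by ring
    rw [e0] at hs ⊢
    obtain ⟨a, ha⟩ : ∃ a, a = s * (3 * N + 1) := ⟨_, rfl⟩
    rw [← ha] at hs ih ⊢
    have h0 := ih (by omega)
    have hpv : u + (a + (3 * N + 1)) < v := by omega
    obtain ⟨f, hf, h1, h2⟩ := hbad (u + (a + (3 * N + 1))) (by omega) hpv
    obtain ⟨a1, a2⟩ := flag_window hu hv (by omega) hpv hf h1 h2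
    have b1 : Real.log (Q (f + 1))
        ≤ Real.log (Q (min (u + N + 1 + (a + (3 * N + 1))) (v - N))) :=
      flag_log_mono hQ hpos (le_min (by omega) (by omega))
    have b2 : Real.log (Q (min (u + N + 1 + a) (v - N))) ≤ Real.log (Q (f - N)) :=
      flag_log_mono hQ hpos ((min_le_left _ _).trans (by omega))
    have h3 := hf.2
    push_cast
    linarith

/-- FLAG-3: growth along a full bad component (9.28), and its length. -/
theorem bad_full (hQ : Monotone Q) (hpos : ∀ j, 0 < Q j) (hM : 0 ≤ M) {u v : ℕ} (hu1 : 1 ≤ u)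
    (huv : u < v) (hbad : ∀ i, u ≤ i → i < v → Bad Q N M i) (hu : ¬ Bad Q N M (u - 1))
    (hv : ¬ Bad Q N M v) :
    u + 2 * N + 1 ≤ v ∧
      M / (3 * N + 1) * ((v : ℝ) - u) ≤ Real.log (Q (v - N)) - Real.log (Q u) := by
  constructor
  · obtain ⟨f, hf, h1, h2⟩ := hbad u le_rfl huv
    obtain ⟨a1, a2⟩ := flag_window hu hv le_rfl huv hf h1 h2
    omega
  · have hWpos : 0 < 3 * N + 1 := by omega
    obtain ⟨s, hs⟩ : ∃ s, s = (v - u - 1) / (3 * N + 1) := ⟨_, rfl⟩
    have h1 : s * (3 * N + 1) ≤ v - u - 1 := hs ▸ Nat.div_mul_le_self _ _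
    have h2 : v - u - 1 < (s + 1) * (3 * N + 1) := by
      have := Nat.lt_div_mul_add (a := v - u - 1) hWpos
      rw [← hs] at this
      nlinarith
    have h3 := flag_full_aux hQ hpos huv hbad hu hv s (by omega)
    have h4 : Real.log (Q (min (u + N + 1 + s * (3 * N + 1)) (v - N))) ≤ Real.log (Q (v - N)) :=
      flag_log_mono hQ hpos (min_le_right _ _)
    have hWr : (0 : ℝ) < 3 * N + 1 := by positivity
    have h5 : (v : ℝ) - u ≤ (s + 1) * (3 * N + 1) := by
      have e : (v : ℝ) - u = ((v - u : ℕ) : ℝ) := by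
        rw [Nat.cast_sub huv.le]
      rw [e]
      have h2' : v - u ≤ (s + 1) * (3 * N + 1) := by omega
      have h2'' : ((v - u : ℕ) : ℝ) ≤ (((s + 1) * (3 * N + 1) : ℕ) : ℝ) := by exact_mod_cast h2'
      push_cast at h2''
      linarith
    calc M / (3 * N + 1) * ((v : ℝ) - u)
        ≤ M / (3 * N + 1) * ((s + 1) * (3 * N + 1)) :=
          mul_le_mul_of_nonneg_left h5 (div_nonneg hM hWr.le)
      _ = (s + 1) * M := by field_simp
      _ ≤ _ := by linarith

/-- FLAG-4: there is no infinite bad component: regular indices occur arbitrarily late. -/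
theorem exists_not_bad (hQ : Monotone Q) (hpos : ∀ j, 0 < Q j) (hM : 0 ≤ M) {h A : ℝ}
    (hsub : ∀ J : ℕ, ∃ j, J ≤ j ∧ Q j ≤ A * Real.exp (h * j)) (hα : h < M / (3 * N + 1)) (J : ℕ) :
    ∃ j, J ≤ j ∧ ¬ Bad Q N M j := by
  by_contra hcon
  push Not at hcon
  have hA : 0 < A := by
    obtain ⟨j, -, hj⟩ := hsub 0
    have h1 : 0 < A * Real.exp (h * j) := lt_of_lt_of_le (hpos j) hj
    exact (pos_iff_pos_of_mul_pos h1).2 (Real.exp_pos _)
  set a : ℝ := M / (3 * N + 1) with ha
  set C : ℝ := Real.log A - Real.log (Q J) + a * (J + (3 * N + 1)) with hC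
  obtain ⟨J', hJ'⟩ := exists_nat_gt (C / (a - h))
  obtain ⟨j, hj, hQj⟩ := hsub (max J J')
  have hJj : J ≤ j := (le_max_left _ _).trans hj
  have hJ'j : J' ≤ j := (le_max_right _ _).trans hj
  have h1 := bad_prefix hQ hpos hM hJj fun i hi _ => hcon i hi
  have h2 : Real.log (Q j) ≤ Real.log A + h * j := by
    have := Real.log_le_log (hpos j) hQj
    rwa [Real.log_mul hA.ne' (Real.exp_pos _).ne', Real.log_exp] at this
  have hah : 0 < a - h := sub_pos.2 hα
  have h3 : C < (a - h) * j := by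
    have : C / (a - h) < j := lt_of_lt_of_le hJ' (by exact_mod_cast hJ'j)
    rw [div_lt_iff₀ hah] at this
    linarith
  rw [← ha] at h1
  nlinarith

end Claimed.Agent.R316.S9
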