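import Mathlib

/-!
# Row 316, Section 9, package GRID: the macro grid

Macro endpoints `Sm h j = exp (h j)`.  A bad macro interval is one step; a regular macro interval is cut
into `⌈δ sqrt (S_j)⌉` equal steps (`δ = exp h - 1`), so that the step length lies in
`[sqrt S_j / 2, sqrt S_j]` as soon as `1 ≤ δ sqrt S_j`.
The grid is enumerated by the state `gst k = (macro index, index of the piece)`, starting at `(j0, 0)`.
-/

set_option autoImplicit false

namespace Claimed.Agent.R316.S9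

/-- macro endpoints. -/
noncomputable def Sm (h : ℝ) (j : ℕ) : ℝ := Real.exp (h * j)

open Classical in
/-- number of steps of the macro interval `j`. -/
noncomputable def pieces (h : ℝ) (bad : ℕ → Prop) (j : ℕ) : ℕ :=
  if bad j then 1 else ⌈(Real.exp h - 1) * Real.sqrt (Sm h j)⌉₊

/-- state of the enumeration: (macro index, index of the piece). -/
noncomputable def gst (h : ℝ) (bad : ℕ → Prop) (j0 : ℕ) : ℕ → ℕ × ℕ
  | 0 => (j0, 0)
  | k + 1 =>
    if (gst h bad j0 k).2 + 1 < pieces h bad (gst h bad j0 k).1 then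
      ((gst h bad j0 k).1, (gst h bad j0 k).2 + 1)
    else ((gst h bad j0 k).1 + 1, 0)

/-- macro index of the step `k`. -/
noncomputable def gj (h : ℝ) (bad : ℕ → Prop) (j0 : ℕ) (k : ℕ) : ℕ := (gst h bad j0 k).1

/-- length of the steps of the macro interval `j`. -/
noncomputable def glen (h : ℝ) (bad : ℕ → Prop) (j : ℕ) : ℝ :=
  (Real.exp h - 1) * Sm h j / pieces h bad j

/-- the grid. -/
noncomputable def gs (h : ℝ) (bad : ℕ → Prop) (j0 : ℕ) (k : ℕ) : ℝ :=
  Sm h (gst h bad j0 k).1 + (gst h bad j0 k).2 * glen h bad (gst h bad j0 k).1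

variable {h : ℝ} {bad : ℕ → Prop} {j0 : ℕ}

theorem Sm_pos (h : ℝ) (j : ℕ) : 0 < Sm h j := Real.exp_pos _

theorem Sm_succ (h : ℝ) (j : ℕ) : Sm h (j + 1) = Real.exp h * Sm h j := by
  rw [Sm, Sm, ← Real.exp_add]; congr 1; push_cast; ring

theorem grid_delta_pos (hh : 0 < h) : 0 < Real.exp h - 1 := sub_pos.2 (Real.one_lt_exp_iff.2 hh)

theorem gst_succ_eq (k : ℕ) : gst h bad j0 (k + 1) =
    if (gst h bad j0 k).2 + 1 < pieces h bad (gst h bad j0 k).1 then
      ((gst h bad j0 k).1, (gst h bad j0 k).2 + 1)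
    else ((gst h bad j0 k).1 + 1, 0) := by
  rw [gst]

/-- GRID-1 -/
theorem pieces_pos (hh : 0 < h) (j : ℕ) : 0 < pieces h bad j := by
  unfold pieces
  split_ifs
  · exact Nat.one_pos
  · exact Nat.ceil_pos.2 (mul_pos (grid_delta_pos hh) (Real.sqrt_pos.2 (Sm_pos h j)))

/-- GRID-2 -/
theorem gst_snd_lt (hh : 0 < h) (k : ℕ) : (gst h bad j0 k).2 < pieces h bad (gj h bad j0 k) := by
  unfold gj
  induction k with
  | zero => exact pieces_pos hh _
  | succ k ih =>
    rw [gst_succ_eq]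
    split_ifs with hc
    · exact hc
    · exact pieces_pos hh _

theorem glen_mul_pieces (hh : 0 < h) (j : ℕ) :
    (pieces h bad j : ℝ) * glen h bad j = (Real.exp h - 1) * Sm h j := by
  have hp : (pieces h bad j : ℝ) ≠ 0 := by exact_mod_cast (pieces_pos hh j).ne'
  unfold glen
  field_simp

theorem glen_pos (hh : 0 < h) (j : ℕ) : 0 < glen h bad j := by
  have hp : (0 : ℝ) < pieces h bad j := by exact_mod_cast pieces_pos hh j
  exact div_pos (mul_pos (grid_delta_pos hh) (Sm_pos h j)) hp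

/-- GRID-3: the step length. -/
theorem gs_succ_sub (hh : 0 < h) (k : ℕ) :
    gs h bad j0 (k + 1) - gs h bad j0 k = glen h bad (gj h bad j0 k) := by
  have hlt := gst_snd_lt (bad := bad) (j0 := j0) hh k
  unfold gs gj at *
  rw [gst_succ_eq]
  split_ifs with hc
  · push_cast
    ring
  · have he : (gst h bad j0 k).2 + 1 = pieces h bad (gst h bad j0 k).1 := by omega
    have h1 := glen_mul_pieces (bad := bad) hh (gst h bad j0 k).1
    rw [← he] at h1
    push_cast at h1
    simp only [Nat.cast_zero, zero_mul, add_zero]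
    rw [Sm_succ]
    linarith

/-- GRID-4 -/
theorem gj_succ (k : ℕ) :
    (gj h bad j0 (k + 1) = gj h bad j0 k) ∨
      (gj h bad j0 (k + 1) = gj h bad j0 k + 1 ∧ gs h bad j0 (k + 1) = Sm h (gj h bad j0 k + 1)) := by
  unfold gs gj
  rw [gst_succ_eq]
  split_ifs with hc
  · exact Or.inl rfl
  · exact Or.inr ⟨rfl, by simp⟩

/-- GRID-5 -/
theorem Sm_le_gs (hh : 0 < h) (k : ℕ) : Sm h (gj h bad j0 k) ≤ gs h bad j0 k := by
  unfold gs gj
  have := (glen_pos (bad := bad) hh (gst h bad j0 k).1).le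
  have h2 : (0 : ℝ) ≤ (gst h bad j0 k).2 := Nat.cast_nonneg _
  nlinarith

/-- GRID-6 -/
theorem gs_succ_le (hh : 0 < h) (k : ℕ) : gs h bad j0 (k + 1) ≤ Sm h (gj h bad j0 k + 1) := by
  have h1 := gs_succ_sub (bad := bad) (j0 := j0) hh k
  have hlt := gst_snd_lt (bad := bad) (j0 := j0) hh k
  have h2 := glen_mul_pieces (bad := bad) hh (gj h bad j0 k)
  have h3 := (glen_pos (bad := bad) hh (gj h bad j0 k)).le
  have h4 : ((gst h bad j0 k).2 : ℝ) + 1 ≤ pieces h bad (gj h bad j0 k) := by exact_mod_cast hlt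
  have h5 : gs h bad j0 k = Sm h (gj h bad j0 k) + (gst h bad j0 k).2 * glen h bad (gj h bad j0 k) := rfl
  rw [Sm_succ]
  nlinarith

/-- GRID-7: a bad macro interval is a single step. -/
theorem gst_of_bad (hh : 0 < h) {k : ℕ} (hb : bad (gj h bad j0 k)) :
    gs h bad j0 k = Sm h (gj h bad j0 k) ∧ gj h bad j0 (k + 1) = gj h bad j0 k + 1 ∧
      glen h bad (gj h bad j0 k) = (Real.exp h - 1) * Sm h (gj h bad j0 k) := by
  have hp : pieces h bad (gj h bad j0 k) = 1 := by
    unfold pieces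
    rw [if_pos hb]
  have hlt := gst_snd_lt (bad := bad) (j0 := j0) hh k
  rw [hp] at hlt
  have h0 : (gst h bad j0 k).2 = 0 := by omega
  refine ⟨?_, ?_, ?_⟩
  · unfold gs
    rw [h0]
    simp [gj]
  · have hp' : pieces h bad (gst h bad j0 k).1 = 1 := hp
    unfold gj
    rw [gst_succ_eq, h0, hp', if_neg (by omega)]
  · unfold glen
    rw [hp]
    simp

/-- GRID-8: length of regular steps. -/
theorem glen_regular (hh : 0 < h) {j : ℕ} (hb : ¬ bad j)
    (hj : 1 ≤ (Real.exp h - 1) * Real.sqrt (Sm h j)) :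
    Real.sqrt (Sm h j) / 2 ≤ glen h bad j ∧ glen h bad j ≤ Real.sqrt (Sm h j) := by
  have hp : pieces h bad j = ⌈(Real.exp h - 1) * Real.sqrt (Sm h j)⌉₊ := by
    unfold pieces
    rw [if_neg hb]
  obtain ⟨δ, hδ⟩ : ∃ δ, δ = Real.exp h - 1 := ⟨_, rfl⟩
  obtain ⟨r, hr⟩ : ∃ r, r = Real.sqrt (Sm h j) := ⟨_, rfl⟩
  have hδ0 : 0 < δ := hδ ▸ grid_delta_pos hh
  have hr0 : 0 < r := hr ▸ Real.sqrt_pos.2 (Sm_pos h j)
  have hS : Sm h j = r * r := by rw [hr, Real.mul_self_sqrt (Sm_pos h j).le]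
  have hj' : 1 ≤ δ * r := by rw [hδ, hr]; exact hj
  unfold glen
  rw [hp, ← hδ, ← hr, hS]
  have h1 : δ * r ≤ (⌈δ * r⌉₊ : ℝ) := Nat.le_ceil _
  have h2 : (⌈δ * r⌉₊ : ℝ) < δ * r + 1 := Nat.ceil_lt_add_one (by positivity)
  have hc : (0 : ℝ) < ⌈δ * r⌉₊ := lt_of_lt_of_le (by positivity) h1
  constructor
  · rw [le_div_iff₀ hc]
    nlinarith
  · rw [div_le_iff₀ hc]
    nlinarith

theorem gst_run {k j : ℕ} (hk : gst h bad j0 k = (j, 0)) (p : ℕ) (hp : p < pieces h bad j) :
    gst h bad j0 (k + p) = (j, p) := by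
  induction p with
  | zero => exact hk
  | succ p ih =>
    have h1 := ih (by omega)
    rw [← add_assoc, gst_succ_eq, h1]
    exact if_pos hp

theorem exists_macro_state (hh : 0 < h) (j : ℕ) (hj : j0 ≤ j) :
    ∃ k, j - j0 ≤ k ∧ gst h bad j0 k = (j, 0) := by
  induction j, hj using Nat.le_induction with
  | base => exact ⟨0, by omega, rfl⟩
  | succ j hj ih =>
    obtain ⟨k, hk1, hk2⟩ := ih
    have hpos := pieces_pos (bad := bad) hh j
    have h1 := gst_run hk2 (pieces h bad j - 1) (by omega)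
    refine ⟨k + (pieces h bad j - 1) + 1, by omega, ?_⟩
    rw [gst_succ_eq, h1]
    exact if_neg (by simp only; omega)

/-- GRID-9: every macro endpoint after the start is a grid point. -/
theorem exists_macro_start (hh : 0 < h) (j : ℕ) (hj : j0 ≤ j) :
    ∃ k, j - j0 ≤ k ∧ gj h bad j0 k = j ∧ gs h bad j0 k = Sm h j := by
  obtain ⟨k, hk1, hk2⟩ := exists_macro_state (bad := bad) hh j hj
  refine ⟨k, hk1, ?_, ?_⟩
  · unfold gj
    rw [hk2]
  · unfold gs
    rw [hk2]
    simp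

theorem gj_zero : gj h bad j0 0 = j0 := rfl

/-- GRID-10 -/
theorem le_gj (k : ℕ) : j0 ≤ gj h bad j0 k := by
  induction k with
  | zero => exact le_rfl
  | succ k ih =>
    rcases gj_succ (h := h) (bad := bad) (j0 := j0) k with h1 | ⟨h1, -⟩
    · rw [h1]; exact ih
    · rw [h1]; omega

end Claimed.Agent.R316.S9
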