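import Mathlib

/-!
# Row 316, Section 9: general numerical lemmas for `S9/Par.lean` (`eventually_late`)   (helper150)

Mathlib only.  "exp beats polynomials" in the forms needed by `Late`.
-/

set_option autoImplicit false
open Filter

namespace Claimed.Agent.R316.S9

/-- exp beats polynomials. -/
theorem num_pow_le_exp (A : ℝ) (k : ℕ) {b : ℝ} (hb : 0 < b) :
    ∀ᶠ x : ℝ in atTop, A * x ^ k ≤ Real.exp (b * x) := by
  have h := isLittleO_pow_exp_pos_mul_atTop (k := k) hb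
  have h2 := h.bound (show (0 : ℝ) < 1 / (|A| + 1) by positivity)
  filter_upwards [h2, eventually_ge_atTop 0] with x hx hx0
  rw [Real.norm_of_nonneg (pow_nonneg hx0 k), Real.norm_of_nonneg (Real.exp_pos _).le] at hx
  have hA : A ≤ |A| + 1 := by linarith [le_abs_self A]
  calc A * x ^ k ≤ (|A| + 1) * x ^ k := mul_le_mul_of_nonneg_right hA (pow_nonneg hx0 k)
    _ ≤ (|A| + 1) * (1 / (|A| + 1) * Real.exp (b * x)) :=
        mul_le_mul_of_nonneg_left hx (by positivity)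
    _ = Real.exp (b * x) := by field_simp

theorem num_pow_le_exp_nat (A : ℝ) (k : ℕ) {b : ℝ} (hb : 0 < b) :
    ∀ᶠ j : ℕ in atTop, A * (j : ℝ) ^ k ≤ Real.exp (b * j) :=
  tendsto_natCast_atTop_atTop.eventually (num_pow_le_exp A k hb)

theorem num_const_le_exp (C : ℝ) {h : ℝ} (hh : 0 < h) : ∀ᶠ j : ℕ in atTop, C ≤ Real.exp (h * j) := by
  simpa using num_pow_le_exp_nat C 0 hh

theorem num_sqrt_exp (h : ℝ) (j : ℕ) : Real.sqrt (Real.exp (h * j)) = Real.exp (h / 2 * j) := by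
  rw [Real.sqrt_eq_iff_mul_self_eq (Real.exp_pos _).le (Real.exp_pos _).le, ← Real.exp_add]
  congr 1
  ring

/-- `gg` beats polynomials. -/
theorem num_pow_le_gg (A : ℝ) (k : ℕ) {h D : ℝ} (hh : 0 < h) (hD : 0 < D) :
    ∀ᶠ j : ℕ in atTop, A * (j : ℝ) ^ k ≤ Real.sqrt (Real.exp (h * j)) / (D * (j : ℝ) ^ 2) := by
  filter_upwards [num_pow_le_exp_nat (A * D) (k + 2) (half_pos hh), eventually_ge_atTop 1] with j hj hj1
  have hj0 : (0 : ℝ) < j := by exact_mod_cast hj1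
  rw [num_sqrt_exp, le_div_iff₀ (by positivity)]
  calc A * (j : ℝ) ^ k * (D * (j : ℝ) ^ 2) = A * D * (j : ℝ) ^ (k + 2) := by ring
    _ ≤ _ := hj

/-- the alignment bound is polynomial in `j`. -/
theorem num_Bd_le (n : ℕ) {E : ℝ} (hE : 0 ≤ E) : ∃ B : ℝ, 0 ≤ B ∧ ∀ j : ℕ, 1 ≤ j →
    (1 + 4 * (n : ℝ) ^ 2 * Real.sqrt (E * (j : ℝ) ^ 2 * (10 * n))) ^ n ≤ B * (j : ℝ) ^ n := by
  refine ⟨(1 + 4 * (n : ℝ) ^ 2 * Real.sqrt (E * (10 * n))) ^ n, by positivity, ?_⟩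
  intro j hj
  have hj1 : (1 : ℝ) ≤ j := by exact_mod_cast hj
  have hs : Real.sqrt (E * (j : ℝ) ^ 2 * (10 * n)) = Real.sqrt (E * (10 * n)) * j := by
    have : E * (j : ℝ) ^ 2 * (10 * n) = E * (10 * n) * (j : ℝ) ^ 2 := by ring
    rw [this, Real.sqrt_mul (by positivity), Real.sqrt_sq (by positivity)]
  rw [hs, ← mul_pow]
  apply pow_le_pow_left₀ (by positivity)
  have hk : 0 ≤ 4 * (n : ℝ) ^ 2 * Real.sqrt (E * (10 * n)) := by positivity
  nlinarith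

/-- `mat_le`. -/
theorem num_mat (n : ℕ) {E h : ℝ} (hE : 0 ≤ E) (hh : 0 < h) : ∀ᶠ j : ℕ in atTop,
    (n + (1 + 4 * (n : ℝ) ^ 2 * Real.sqrt (E * (j : ℝ) ^ 2 * (10 * n))) ^ n) *
      (n + (1 + 4 * (n : ℝ) ^ 2 * Real.sqrt (E * ((j + 1 : ℕ) : ℝ) ^ 2 * (10 * n))) ^ n) * (n : ℝ) ^ 4
      ≤ Real.exp (h * j) := by
  obtain ⟨B, hB0, hB⟩ := num_Bd_le n hE
  filter_upwards [num_pow_le_exp_nat ((n + B) * (n + B * 2 ^ n) * (n : ℝ) ^ 4) (2 * n) hh,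
    eventually_ge_atTop 1] with j hj hj1
  have hj1' : (1 : ℝ) ≤ j := by exact_mod_cast hj1
  have hpow : (1 : ℝ) ≤ (j : ℝ) ^ n := one_le_pow₀ hj1'
  have h1 := hB j hj1
  have h2 := hB (j + 1) (by omega)
  have h3 : (((j + 1 : ℕ) : ℝ)) ^ n ≤ 2 ^ n * (j : ℝ) ^ n := by
    rw [← mul_pow]
    apply pow_le_pow_left₀ (by positivity)
    push_cast
    linarith
  have a1 : (n : ℝ) + (1 + 4 * (n : ℝ) ^ 2 * Real.sqrt (E * (j : ℝ) ^ 2 * (10 * n))) ^ n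
      ≤ (n + B) * (j : ℝ) ^ n := by
    have : (n : ℝ) ≤ n * (j : ℝ) ^ n := le_mul_of_one_le_right (by positivity) hpow
    linarith
  have a2 : (n : ℝ) + (1 + 4 * (n : ℝ) ^ 2 * Real.sqrt (E * ((j + 1 : ℕ) : ℝ) ^ 2 * (10 * n))) ^ n
      ≤ (n + B * 2 ^ n) * (j : ℝ) ^ n := by
    have h4 : (n : ℝ) ≤ n * (j : ℝ) ^ n := le_mul_of_one_le_right (by positivity) hpow
    have h5 : B * (((j + 1 : ℕ) : ℝ)) ^ n ≤ B * (2 ^ n * (j : ℝ) ^ n) := mul_le_mul_of_nonneg_left h3 hB0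
    linarith
  calc _ ≤ ((n + B) * (j : ℝ) ^ n) * ((n + B * 2 ^ n) * (j : ℝ) ^ n) * (n : ℝ) ^ 4 := by
        apply mul_le_mul_of_nonneg_right _ (by positivity)
        exact mul_le_mul a1 a2 (by positivity) (by positivity)
    _ = (n + B) * (n + B * 2 ^ n) * (n : ℝ) ^ 4 * (j : ℝ) ^ (2 * n) := by ring
    _ ≤ _ := hj

/-- `env`. -/
theorem num_env (p c : ℕ) : ∃ s₁ : ℝ, ∀ s : ℝ, s₁ ≤ s → (s ^ p * 2) ^ c ≤ Real.exp (Real.sqrt s) := by
  have h1 := Real.tendsto_sqrt_atTop.eventually (num_pow_le_exp ((2 : ℝ) ^ c) (2 * p * c) one_pos)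
  obtain ⟨s₁, hs₁⟩ := Filter.eventually_atTop.1 (h1.and (eventually_ge_atTop 0))
  refine ⟨s₁, fun s hs => ?_⟩
  obtain ⟨h2, h0⟩ := hs₁ s hs
  rw [one_mul] at h2
  calc (s ^ p * 2) ^ c = 2 ^ c * (Real.sqrt s ^ 2) ^ (p * c) := by
        rw [Real.sq_sqrt h0, mul_pow, ← pow_mul]; ring
    _ = 2 ^ c * Real.sqrt s ^ (2 * p * c) := by rw [← pow_mul, mul_assoc]
    _ ≤ _ := h2

/-- `kap`. -/
theorem num_kap (p c : ℕ) {h D : ℝ} (hh : 0 < h) (hD : 0 < D) : ∀ᶠ j : ℕ in atTop,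
    (Real.exp (h * ((j + 1 : ℕ) : ℝ)) ^ p * 2) ^ c
      ≤ Real.exp (2 / 5 * (Real.sqrt (Real.exp (h * j)) / (D * (j : ℝ) ^ 2))) := by
  filter_upwards [num_pow_le_gg (5 / 2 * ((2 * h * p + 1) * c)) 1 hh hD, eventually_ge_atTop 1] with j hj hj1
  have hj1' : (1 : ℝ) ≤ j := by exact_mod_cast hj1
  have h2 : (2 : ℝ) ≤ Real.exp 1 := by
    have := Real.add_one_le_exp (1 : ℝ)
    linarith
  calc (Real.exp (h * ((j + 1 : ℕ) : ℝ)) ^ p * 2) ^ c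
      ≤ (Real.exp (h * ((j + 1 : ℕ) : ℝ)) ^ p * Real.exp 1) ^ c := by
        apply pow_le_pow_left₀ (by positivity)
        exact mul_le_mul_of_nonneg_left h2 (by positivity)
    _ = Real.exp ((h * ((j + 1 : ℕ) : ℝ) * p + 1) * c) := by
        rw [← Real.exp_nat_mul, ← Real.exp_add, ← Real.exp_nat_mul]
        congr 1
        ring
    _ ≤ _ := by
        apply Real.exp_le_exp.2
        have h3 : (h * ((j + 1 : ℕ) : ℝ) * p + 1) * c ≤ (2 * h * p + 1) * c * j := by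
          have hc : (0 : ℝ) ≤ c := by positivity
          have hp : (0 : ℝ) ≤ h * p := by positivity
          push_cast
          have h4 : h * ((j : ℝ) + 1) * p + 1 ≤ (2 * h * p + 1) * j := by nlinarith
          calc (h * ((j : ℝ) + 1) * p + 1) * c ≤ ((2 * h * p + 1) * j) * c :=
                mul_le_mul_of_nonneg_right h4 hc
            _ = _ := by ring
        rw [pow_one] at hj
        linarith

/-- `close0`, `close1` (first half): polynomial `≤ exp j`. -/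
theorem num_close (n : ℕ) {E : ℝ} (hE : 0 ≤ E) : ∀ᶠ j : ℕ in atTop,
    12 * (E * (j : ℝ) ^ 2 * (10 * n)) * (1 + 4 * (n : ℝ) ^ 2 * Real.sqrt (E * (j : ℝ) ^ 2 * (10 * n))) ^ n
      ≤ Real.exp j ∧
    12 * (E * (j : ℝ) ^ 2 * (10 * n)) *
      (1 + 4 * (n : ℝ) ^ 2 * Real.sqrt (E * ((j + 1 : ℕ) : ℝ) ^ 2 * (10 * n))) ^ n ≤ Real.exp j := by
  obtain ⟨B, hB0, hB⟩ := num_Bd_le n hE
  filter_upwards [num_pow_le_exp_nat (12 * (E * (10 * n)) * B) (n + 2) one_pos,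
    num_pow_le_exp_nat (12 * (E * (10 * n)) * (B * 2 ^ n)) (n + 2) one_pos,
    eventually_ge_atTop 1] with j hj hj' hj1
  have hj1' : (1 : ℝ) ≤ j := by exact_mod_cast hj1
  rw [one_mul] at hj hj'
  have h1 := hB j hj1
  have h2 := hB (j + 1) (by omega)
  have h3 : (((j + 1 : ℕ) : ℝ)) ^ n ≤ 2 ^ n * (j : ℝ) ^ n := by
    rw [← mul_pow]
    apply pow_le_pow_left₀ (by positivity)
    push_cast
    linarith
  constructor
  · calc _ ≤ 12 * (E * (j : ℝ) ^ 2 * (10 * n)) * (B * (j : ℝ) ^ n) :=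
          mul_le_mul_of_nonneg_left h1 (by positivity)
      _ = 12 * (E * (10 * n)) * B * (j : ℝ) ^ (n + 2) := by ring
      _ ≤ _ := hj
  · calc _ ≤ 12 * (E * (j : ℝ) ^ 2 * (10 * n)) * (B * (2 ^ n * (j : ℝ) ^ n)) :=
          mul_le_mul_of_nonneg_left (h2.trans (mul_le_mul_of_nonneg_left h3 hB0)) (by positivity)
      _ = 12 * (E * (10 * n)) * (B * 2 ^ n) * (j : ℝ) ^ (n + 2) := by ring
      _ ≤ _ := hj'

end Claimed.Agent.R316.S9
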