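import Claimed.Agent.R316.S9.Align

/-!
# Row 316, Section 9, package RATES: rates of the steps of a grid

For a strictly increasing grid `s k ≥ I.s0` choose, by `I.svd`, singular value decompositions of the
centre derivatives of the steps.  Consequences: (9.8) `∑ μ_i T = Δ s`, (9.10) Loewner jump,
monotonicity of the sorted rates, `b0 q (a0 s_k) ≤ μ_i ≤ q (s_{k+1})`.
-/

set_option autoImplicit false
open scoped ComplexOrder Matrix

namespace Claimed.Agent.R316.S9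

variable {n d : ℕ}

/-! ### kit -/

theorem rates_star_mem {W : Mat n} (hW : W ∈ Matrix.unitaryGroup (Fin n) ℂ) :
    Wᴴ ∈ Matrix.unitaryGroup (Fin n) ℂ := by
  rw [← Matrix.star_eq_conjTranspose]
  exact Unitary.star_mem hW

theorem rates_loewner_trans {A B C : Mat n} (h1 : LoewnerLE A B) (h2 : LoewnerLE B C) :
    LoewnerLE A C := by
  have := Matrix.PosSemidef.add h2 h1
  rwa [sub_add_sub_cancel] at this

theorem rates_loewner_conj (A B U : Mat n) (h : LoewnerLE A B) :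
    LoewnerLE (U * A * Uᴴ) (U * B * Uᴴ) := by
  have := Matrix.PosSemidef.mul_mul_conjTranspose_same h U
  rwa [Matrix.mul_sub, Matrix.sub_mul] at this

theorem rates_qf_smul_one (c : ℝ) (v : Fin n → ℂ) :
    star v ⬝ᵥ ((((c : ℝ) : ℂ) • (1 : Mat n)) *ᵥ v) = ((c * ∑ j, ‖v j‖ ^ 2 : ℝ) : ℂ) := by
  rw [Matrix.smul_mulVec, Matrix.one_mulVec, dotProduct_smul, al1_dot_self, smul_eq_mul]
  push_cast
  rfl

theorem rates_qf_conj' (W P : Mat n) (v : Fin n → ℂ) :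
    star v ⬝ᵥ ((Wᴴ * P * W) *ᵥ v) = star (W *ᵥ v) ⬝ᵥ (P *ᵥ (W *ᵥ v)) := by
  have := al1_qf_conj Wᴴ P v
  rwa [Matrix.conjTranspose_conjTranspose] at this

theorem rates_norm_unitary' (W : Mat n) (hW : W ∈ Matrix.unitaryGroup (Fin n) ℂ) (v : Fin n → ℂ) :
    ∑ l, ‖(W *ᵥ v) l‖ ^ 2 = ∑ j, ‖v j‖ ^ 2 := by
  have := al1_norm_unitary Wᴴ (rates_star_mem hW) v
  rwa [Matrix.conjTranspose_conjTranspose] at this

theorem rates_sum_single (i : Fin n) :
    ∑ j, ‖(Pi.single i (1 : ℂ) : Fin n → ℂ) j‖ ^ 2 = 1 := by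
  rw [Finset.sum_eq_single i]
  · simp
  · intro j _ hj
    rw [Pi.single_eq_of_ne hj]; simp
  · intro h; exact absurd (Finset.mem_univ i) h

theorem rates_sum_single' (μ : Fin n → ℝ) (i : Fin n) :
    ∑ j, μ j * ‖(Pi.single i (1 : ℂ) : Fin n → ℂ) j‖ ^ 2 = μ i := by
  rw [Finset.sum_eq_single i]
  · simp
  · intro j _ hj
    rw [Pi.single_eq_of_ne hj]; simp
  · intro h; exact absurd (Finset.mem_univ i) h

theorem rates_conj_lb (W P : Mat n) (hW : W ∈ Matrix.unitaryGroup (Fin n) ℂ) (c : ℝ)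
    (μ : Fin n → ℝ) (h1 : LoewnerLE (((c : ℝ) : ℂ) • (1 : Mat n)) P)
    (h2 : LoewnerLE (Wᴴ * P * W) (rdiag μ)) (i : Fin n) : c ≤ μ i := by
  have e1 := al1_loewner_apply h2 (Pi.single i 1)
  have e2 := al1_loewner_apply h1 (W *ᵥ (Pi.single i 1))
  rw [rates_qf_conj', al1_qf_rdiag, rates_sum_single'] at e1
  rw [rates_qf_smul_one, rates_norm_unitary' W hW, rates_sum_single, mul_one] at e2
  exact_mod_cast e2.trans e1

theorem rates_conj_ub (W P : Mat n) (hW : W ∈ Matrix.unitaryGroup (Fin n) ℂ) (c : ℝ)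
    (μ : Fin n → ℝ) (h1 : LoewnerLE P (((c : ℝ) : ℂ) • (1 : Mat n)))
    (h2 : LoewnerLE (rdiag μ) (Wᴴ * P * W)) (i : Fin n) : μ i ≤ c := by
  have e1 := al1_loewner_apply h2 (Pi.single i 1)
  have e2 := al1_loewner_apply h1 (W *ᵥ (Pi.single i 1))
  rw [rates_qf_conj', al1_qf_rdiag, rates_sum_single'] at e1
  rw [rates_qf_smul_one, rates_norm_unitary' W hW, rates_sum_single, mul_one] at e2
  exact_mod_cast e1.trans e2

theorem rates_norm_det {W : Mat n} (hW : W ∈ Matrix.unitaryGroup (Fin n) ℂ) : ‖W.det‖ = 1 :=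
  CStarRing.norm_of_mem_unitary (Matrix.det_of_mem_unitary hW)

/-- singular value decompositions along a grid. -/
structure RateData (I : S9Input n d) (s : ℕ → ℝ) where
  /-- start frames -/
  W : ℕ → Mat n
  /-- end frames -/
  V : ℕ → Mat n
  /-- sorted rates -/
  μ : ℕ → Fin n → ℝ
  /-- logarithmic time lengths -/
  T : ℕ → ℝ
  hW : ∀ k, W k ∈ Matrix.unitaryGroup (Fin n) ℂ
  hV : ∀ k, V k ∈ Matrix.unitaryGroup (Fin n) ℂ
  sorted : ∀ k, Monotone (μ k)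
  hT : ∀ k, 0 < T k
  lin : ∀ k, plin (I.F (s k) (s (k + 1))) = V k * Dm (μ k) (T k) * (W k)ᴴ
  lo : ∀ k, LoewnerLE ((W k)ᴴ * I.Pm (s k) * W k) (rdiag (μ k))
  hi : ∀ k, LoewnerLE (rdiag (μ k)) ((V k)ᴴ * I.Pm (s (k + 1)) * V k)

/-- RATES-0 -/
theorem exists_rateData (I : S9Input n d) (s : ℕ → ℝ) (hs : ∀ k, I.s0 ≤ s k)
    (hmono : ∀ k, s k < s (k + 1)) : Nonempty (RateData I s) := by
  have h := fun k => I.svd (s k) (s (k + 1)) (hs k) (hmono k)
  choose W V μ T hW hV hμ hT hlin hlo hhi using h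
  exact ⟨⟨W, V, μ, T, hW, hV, hμ, hT, hlin, hlo, hhi⟩⟩

namespace RateData

variable {I : S9Input n d} {s : ℕ → ℝ} (X : RateData I s)

/-- the jump at the grid point `k + 1`. -/
noncomputable def U (k : ℕ) : Mat n := (X.W (k + 1))ᴴ * X.V k

/-- RATES-1 -/
theorem hU (k : ℕ) : X.U k ∈ Matrix.unitaryGroup (Fin n) ℂ :=
  mul_mem (rates_star_mem (X.hW (k + 1))) (X.hV k)

/-- RATES-2: lower bound of the rates. -/
theorem rate_lb (hs : ∀ k, I.s0 ≤ s k) (k : ℕ) (i : Fin n) : I.b0 * I.q (I.a0 * s k) ≤ X.μ k i :=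
  rates_conj_lb (X.W k) (I.Pm (s k)) (X.hW k) _ _ (I.Pm_lb (s k) (hs k)) (X.lo k) i

/-- RATES-3: upper bound of the rates. -/
theorem rate_ub (hs : ∀ k, I.s0 ≤ s k) (k : ℕ) (i : Fin n) : X.μ k i ≤ I.q (s (k + 1)) :=
  rates_conj_ub (X.V k) (I.Pm (s (k + 1))) (X.hV k) _ _ (I.Pm_ub (s (k + 1)) (hs (k + 1))) (X.hi k) i

/-- RATES-4: (9.8). -/
theorem rate_sum (hs : ∀ k, I.s0 ≤ s k) (hmono : ∀ k, s k < s (k + 1)) (k : ℕ) :
    ∑ i, X.μ k i * X.T k = s (k + 1) - s k := by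
  have h1 := I.det (s k) (s (k + 1)) (hs k) (hmono k).le
  rw [X.lin k, Matrix.det_mul, Matrix.det_mul, norm_mul, norm_mul, rates_norm_det (X.hV k),
    rates_norm_det (rates_star_mem (X.hW k)), one_mul, mul_one, Dm, rdiag, Matrix.det_diagonal,
    norm_prod] at h1
  have h2 : ∀ i, ‖((Real.exp (-(X.μ k i * X.T k) / 2) : ℝ) : ℂ)‖
      = Real.exp (-(X.μ k i * X.T k) / 2) := fun i => by
    rw [Complex.norm_real, Real.norm_of_nonneg (Real.exp_pos _).le]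
  rw [Finset.prod_congr rfl fun i _ => h2 i, ← Real.exp_sum, Real.exp_eq_exp,
    ← Finset.sum_div, Finset.sum_neg_distrib] at h1
  linarith

/-- RATES-5: (9.10). -/
theorem jump (k : ℕ) : LoewnerLE (X.U k * rdiag (X.μ k) * (X.U k)ᴴ) (rdiag (X.μ (k + 1))) := by
  refine rates_loewner_trans (rates_loewner_conj _ _ (X.U k) (X.hi k)) ?_
  have hV : X.V k * (X.V k)ᴴ = 1 := (Matrix.mem_unitaryGroup_iff).mp (X.hV k)
  have : X.U k * ((X.V k)ᴴ * I.Pm (s (k + 1)) * X.V k) * (X.U k)ᴴ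
      = (X.W (k + 1))ᴴ * I.Pm (s (k + 1)) * X.W (k + 1) := by
    rw [U, Matrix.conjTranspose_mul, Matrix.conjTranspose_conjTranspose]
    calc (X.W (k + 1))ᴴ * X.V k * ((X.V k)ᴴ * I.Pm (s (k + 1)) * X.V k) * ((X.V k)ᴴ * X.W (k + 1))
        = (X.W (k + 1))ᴴ * (X.V k * (X.V k)ᴴ) * I.Pm (s (k + 1)) * (X.V k * (X.V k)ᴴ) * X.W (k + 1) := by
          simp only [Matrix.mul_assoc]
      _ = _ := by rw [hV, Matrix.mul_one, Matrix.mul_one]
  rw [this]
  exact X.lo (k + 1)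

/-- RATES-6: the sorted rates are nondecreasing. -/
theorem rate_mono (k : ℕ) (i : Fin n) : X.μ k i ≤ X.μ (k + 1) i :=
  weyl_sorted (X.U k) (X.hU k) _ _ (X.sorted k) (X.sorted (k + 1)) (X.jump k) i

end RateData

/-- RATES-7: entries of a unitary matrix. -/
theorem mnorm_unitary_le (U : Mat n) (hU : U ∈ Matrix.unitaryGroup (Fin n) ℂ) :
    mnorm U ≤ (n : ℝ) ^ 2 := by
  have h : ∀ i j, ‖U i j‖ ≤ 1 := entry_norm_bound_of_unitary hU
  calc mnorm U ≤ ∑ _i : Fin n, ∑ _j : Fin n, (1 : ℝ) :=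
        Finset.sum_le_sum fun i _ => Finset.sum_le_sum fun j _ => h i j
    _ = (n : ℝ) ^ 2 := by simp [sq]

/-- RATES-8 -/
theorem Dm_mul_Dmi (μ : Fin n → ℝ) (T : ℝ) : Dm μ T * Dmi μ T = 1 ∧ Dmi μ T * Dm μ T = 1 := by
  have h : ∀ i, ((Real.exp (-(μ i * T) / 2) : ℝ) : ℂ) * ((Real.exp (μ i * T / 2) : ℝ) : ℂ) = 1 := by
    intro i
    rw [← Complex.ofReal_mul, ← Real.exp_add]
    have : -(μ i * T) / 2 + μ i * T / 2 = 0 := by ring
    rw [this, Real.exp_zero, Complex.ofReal_one]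
  constructor
  · rw [Dm, Dmi, rdiag, rdiag, Matrix.diagonal_mul_diagonal, ← Matrix.diagonal_one]
    congr 1
    funext i
    exact h i
  · rw [Dm, Dmi, rdiag, rdiag, Matrix.diagonal_mul_diagonal, ← Matrix.diagonal_one]
    congr 1
    funext i
    rw [mul_comm]
    exact h i

/-- RATES-9 -/
theorem mnorm_Dmi_le (μ : Fin n → ℝ) (T Δ : ℝ) (h : ∀ i, μ i * T ≤ Δ) :
    mnorm (Dmi μ T) ≤ n * Real.exp (Δ / 2) := by
  have h1 : ∀ i : Fin n, ∑ j, ‖Dmi μ T i j‖ = Real.exp (μ i * T / 2) := by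
    intro i
    rw [Finset.sum_eq_single i]
    · rw [Dmi, rdiag, Matrix.diagonal_apply_eq, Complex.norm_real,
        Real.norm_of_nonneg (Real.exp_pos _).le]
    · intro j _ hj
      rw [Dmi, rdiag, Matrix.diagonal_apply_ne _ (Ne.symm hj), norm_zero]
    · intro h; exact absurd (Finset.mem_univ i) h
  calc mnorm (Dmi μ T) = ∑ i, Real.exp (μ i * T / 2) := Finset.sum_congr rfl fun i _ => h1 i
    _ ≤ ∑ _i : Fin n, Real.exp (Δ / 2) := by
        refine Finset.sum_le_sum fun i _ => ?_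
        rw [Real.exp_le_exp]
        have := h i
        linarith
    _ = n * Real.exp (Δ / 2) := by simp

end Claimed.Agent.R316.S9
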