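import Claimed.Agent.R316.S9.InvJet
import Claimed.Agent.R316.Pack028

/-!
# Row 316, Section 9, package VOL: coherent volume jets

Paper: dynamics.tex, "Coherent volume jets".  GRID INDEPENDENT version, without logarithms and without
the Borel-Caratheodory estimate:

* `jac I s u` = normalized Jacobian jet `J_{d-1} (det F_{s,u}'(z) / det F_{s,u}'(0))`.
* cocycle  `jac s v = J_{d-1} (jac s u * (jac u v) ∘ F_{s,u})`.
* uniform bound `n1 (jac s u) ≤ (Cv s)^(d-1)`, INDEPENDENT of `u`: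
  cut `[s,u]` into steps of length `≤ 1`; each factor is `1 + x_l`, `x_l` without constant term,
  `n1 x_l ≤ a_l := P₀ C1^d min (1, exp (C1 s - σ (s + l)))`, `∑ a_l ≤ A s`.  With the dilated norm
  `N_t f = n1 (f (t z))`, `0 < t ≤ 1` (submultiplicative, `N_t (1 + x) ≤ 1 + t n1 x`,
  `n1 f ≤ t^(-(d-1)) N_t f` for `deg f ≤ d-1`, `N_t (ptr f) ≤ N_t f`) we get
  `N_t (jac s u) ≤ ∏ (1 + t a_l) ≤ exp (t A s)`; take `t = 1 / (A s)`.
* `E s` = limit of `jac s K` along an ultrafilter in `K : ℕ`; then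
  `E s = J_{d-1} (jac s u * (E u) ∘ F_{s,u})`.
* `A s = (z_1, …, ∫_0^{z_{i0}} E s, …)`, `jdet (A s) = E s`; `Ai s` its inverse jet (`inv_jet`).
-/

set_option autoImplicit false
open MvPolynomial

namespace Claimed.Agent.R316.S9

variable {n d : ℕ}

/-- normalized Jacobian jet of the transition. -/
noncomputable def jac (I : S9Input n d) (s u : ℝ) : MP n :=
  ptr (d - 1) (C ((plin (I.F s u)).det)⁻¹ * jdet (I.F s u))

theorem vol_det_ne_zero (I : S9Input n d) {s u : ℝ} (hs : I.s0 ≤ s) (hu : s ≤ u) :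
    (plin (I.F s u)).det ≠ 0 := by
  intro h
  have := I.det s u hs hu
  rw [h, norm_zero] at this
  exact (Real.exp_pos _).ne this

/-- VOL-1a -/
theorem coeff_zero_jac (I : S9Input n d) {s u : ℝ} (hs : I.s0 ≤ s) (hu : s ≤ u) :
    coeff 0 (jac I s u) = 1 := by
  rw [jac, coeff_ptr, if_pos (by simp), coeff_C_mul, coeff_zero_jdet]
  exact inv_mul_cancel₀ (vol_det_ne_zero I hs hu)

theorem vol_ptr_ptr_self (k : ℕ) (f : MP n) : ptr k (ptr k f) = ptr k f := by
  rw [ptr_ptr, min_self]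

/-- VOL-1b: cocycle. -/
theorem jac_cocycle (hd : 1 ≤ d) (I : S9Input n d) {s u v : ℝ} (hs : I.s0 ≤ s) (hu : s ≤ u)
    (hv : u ≤ v) : jac I s v = ptr (d - 1) (jac I s u * bind₁ (I.F s u) (jac I u v)) := by
  have hfix := I.fix0 s u hs hu
  have hj : JEq d (I.F s v) (comp (I.F u v) (I.F s u)) := by
    rw [← I.cocycle s u v hs hu hv]
    exact jeq_ptrunc d _
  have hlin : plin (I.F s v) = plin (I.F u v) * plin (I.F s u) := by
    rw [hj.plin hd, plin_comp _ hfix]
  have hjd : ptr (d - 1) (jdet (I.F s v)) = ptr (d - 1) (jdet (comp (I.F u v) (I.F s u))) := by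
    apply JEq.jdet
    have : d - 1 + 1 = d := by omega
    rw [this]
    exact hj
  have h1 : ptr (d - 1) (jac I s u) = ptr (d - 1) (C ((plin (I.F s u)).det)⁻¹ * jdet (I.F s u)) := by
    rw [jac, vol_ptr_ptr_self]
  have h2' : ptr (d - 1) (jac I u v) = ptr (d - 1) (C ((plin (I.F u v)).det)⁻¹ * jdet (I.F u v)) := by
    rw [jac, vol_ptr_ptr_self]
  have h2 : ptr (d - 1) (bind₁ (I.F s u) (jac I u v))
      = ptr (d - 1) (bind₁ (I.F s u) (C ((plin (I.F u v)).det)⁻¹ * jdet (I.F u v))) :=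
    ptr_bind₁_congr h2' hfix
  rw [ptr_mul_congr h1 h2]
  have h3 : jac I s v = C ((plin (I.F s v)).det)⁻¹ * ptr (d - 1) (jdet (I.F s v)) := by
    rw [jac, ptr_C_mul]
  rw [h3, hjd, ← ptr_C_mul, jdet_comp, hlin, Matrix.det_mul, mul_inv]
  congr 1
  simp only [map_mul, bind₁_C_right]
  ring

/-! ### the dilated norm -/

/-- dilation `f (t z)`. -/
noncomputable def vdil (t : ℝ) (f : MP n) : MP n := bind₁ (fun i => C (t : ℂ) * X i) f

theorem coeff_vdil (t : ℝ) (f : MP n) (m : Fin n →₀ ℕ) :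
    coeff m (vdil t f) = (t : ℂ) ^ m.degree * coeff m f := by
  rw [vdil, coeff_bind₁_diag (fun _ => (t : ℂ)), Finset.prod_pow_eq_pow_sum, ← Finsupp.degree_eq_sum]

theorem vdil_mul (t : ℝ) (f g : MP n) : vdil t (f * g) = vdil t f * vdil t g := map_mul _ _ _

theorem vdil_add (t : ℝ) (f g : MP n) : vdil t (f + g) = vdil t f + vdil t g := map_add _ _ _

theorem vdil_one (t : ℝ) : vdil t (1 : MP n) = 1 := map_one _

theorem vdil_ptr (t : ℝ) (k : ℕ) (f : MP n) : vdil t (ptr k f) = ptr k (vdil t f) := by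
  ext m
  rw [coeff_vdil, coeff_ptr, coeff_ptr, coeff_vdil]
  split_ifs <;> simp

theorem n1_vdil {t : ℝ} (ht : 0 ≤ t) (f : MP n) :
    n1 (vdil t f) = ∑ m ∈ f.support, t ^ m.degree * ‖coeff m f‖ := by
  have hS : (vdil t f).support ⊆ f.support := fun m hm => by
    rw [mem_support_iff, coeff_vdil] at hm
    rw [mem_support_iff]
    intro h
    apply hm
    rw [h, mul_zero]
  rw [n1_eq_sum_of_subset hS]
  refine Finset.sum_congr rfl fun m _ => ?_
  rw [coeff_vdil, norm_mul, norm_pow, Complex.norm_real, Real.norm_of_nonneg ht]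

theorem n1_vdil_le_of_coeff_zero {t : ℝ} (ht0 : 0 ≤ t) (ht1 : t ≤ 1) {x : MP n} (hx : coeff 0 x = 0) :
    n1 (vdil t x) ≤ t * n1 x := by
  rw [n1_vdil ht0, n1, Finset.mul_sum]
  refine Finset.sum_le_sum fun m hm => mul_le_mul_of_nonneg_right ?_ (norm_nonneg _)
  have hm1 : 1 ≤ m.degree := by
    rw [Nat.one_le_iff_ne_zero, Ne, Finsupp.degree_eq_zero_iff]
    rintro rfl
    exact (mem_support_iff.mp hm) hx
  calc t ^ m.degree ≤ t ^ 1 := pow_le_pow_of_le_one ht0 ht1 hm1
    _ = t := pow_one t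

theorem pow_mul_n1_le_n1_vdil {t : ℝ} (ht0 : 0 ≤ t) (ht1 : t ≤ 1) {f : MP n} {k : ℕ}
    (hk : f.totalDegree ≤ k) : t ^ k * n1 f ≤ n1 (vdil t f) := by
  rw [n1_vdil ht0, n1, Finset.mul_sum]
  refine Finset.sum_le_sum fun m hm => mul_le_mul_of_nonneg_right ?_ (norm_nonneg _)
  exact pow_le_pow_of_le_one ht0 ht1 ((le_totalDegree hm).trans hk)

theorem vol_eqns_cite : True := by
  have := @jac.eq_1
  have := @vdil.eq_1
  trivial


/-! ### the uniform bound -/

theorem totalDegree_jac_le (I : S9Input n d) (s u : ℝ) : (jac I s u).totalDegree ≤ d - 1 :=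
  totalDegree_ptr_le _ _

theorem jac_self (I : S9Input n d) {s : ℝ} (hs : I.s0 ≤ s) : jac I s s = 1 := by
  rw [jac, I.self s hs, plin_pid, Matrix.det_one, inv_one, map_one, one_mul, jdet_pid, ptr_one]

theorem nrm_F_le (I : S9Input n d) {s u : ℝ} (hs : I.s0 ≤ s) (hu : s ≤ u) : nrm (I.F s u) ≤ I.C1 :=
  (I.bound s u hs hu).trans (by
    have h0 : 0 ≤ I.C1 := le_trans zero_le_one I.hC1
    calc I.C1 * min 1 (Real.exp (I.C1 * s - I.σ * u)) ≤ I.C1 * 1 :=
          mul_le_mul_of_nonneg_left (min_le_left _ _) h0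
      _ = I.C1 := mul_one _)

/-- one step bound. -/
theorem n1_jac_le (I : S9Input n d) {s u : ℝ} (hs : I.s0 ≤ s) (hu : s ≤ u) :
    n1 (jac I s u) ≤ Real.exp ((u - s) / 2) * (d * I.C1) ^ n := by
  have h0 : 0 ≤ I.C1 := le_trans zero_le_one I.hC1
  refine (n1_ptr_le _ _).trans ?_
  rw [n1_C_mul, norm_inv, I.det s u hs hu, ← Real.exp_neg]
  have e : -(-(u - s) / 2) = (u - s) / 2 := by ring
  rw [e]
  refine mul_le_mul_of_nonneg_left ?_ (Real.exp_pos _).le
  refine (n1_jdet_le _).trans ?_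
  refine pow_le_pow_left₀ (mul_nonneg (Nat.cast_nonneg _) (nrm_nonneg _)) ?_ _
  exact mul_le_mul (by exact_mod_cast I.deg s u hs hu) (nrm_F_le I hs hu) (nrm_nonneg _)
    (Nat.cast_nonneg _)

/-- substitution of a small map in a polynomial without constant term. -/
theorem n1_bind₁_le_mu {c μ : ℝ} (hc : 1 ≤ c) (hμ0 : 0 ≤ μ) (hμ1 : μ ≤ 1) {Q : PMap n}
    (hQ : ∀ i, n1 (Q i) ≤ c * μ) {f : MP n} (hf : coeff 0 f = 0) {k : ℕ} (hk : f.totalDegree ≤ k) :
    n1 (bind₁ Q f) ≤ n1 f * (c ^ k * μ) := by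
  refine (n1_bind₁_le_sum Q f).trans ?_
  rw [n1, Finset.sum_mul]
  refine Finset.sum_le_sum fun m hm => mul_le_mul_of_nonneg_left ?_ (norm_nonneg _)
  refine (prod_pow_le_pow_degree _ (fun i => n1_nonneg _) hQ m).trans ?_
  have hm1 : 1 ≤ m.degree := by
    rw [Nat.one_le_iff_ne_zero, Ne, Finsupp.degree_eq_zero_iff]
    rintro rfl
    exact (mem_support_iff.mp hm) hf
  rw [mul_pow]
  have h1 : c ^ m.degree ≤ c ^ k := pow_le_pow_right₀ hc ((le_totalDegree hm).trans hk)
  have h2 : μ ^ m.degree ≤ μ := by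
    calc μ ^ m.degree ≤ μ ^ 1 := pow_le_pow_of_le_one hμ0 hμ1 hm1
      _ = μ := pow_one μ
  exact mul_le_mul h1 h2 (pow_nonneg hμ0 _) (by positivity)

/-- the constant `P₀ C1^(d-1)`. -/
noncomputable def volP (I : S9Input n d) : ℝ :=
  (Real.exp (1 / 2) * (d * I.C1) ^ n + 1) * I.C1 ^ (d - 1)

/-- the size of the `l`-th factor. -/
noncomputable def volA (I : S9Input n d) (s : ℝ) (l : ℕ) : ℝ :=
  volP I * min 1 (Real.exp (I.C1 * s - I.σ * (s + l)))

theorem volP_ge_one (I : S9Input n d) : 1 ≤ volP I := by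
  have h0 : 0 ≤ I.C1 := le_trans zero_le_one I.hC1
  have h1 : 1 ≤ I.C1 ^ (d - 1) := one_le_pow₀ I.hC1
  have h2 : 1 ≤ Real.exp (1 / 2) * (d * I.C1) ^ n + 1 := by
    have : 0 ≤ Real.exp (1 / 2) * (d * I.C1) ^ n := by positivity
    linarith
  unfold volP
  nlinarith

theorem volA_nonneg (I : S9Input n d) (s : ℝ) (l : ℕ) : 0 ≤ volA I s l :=
  mul_nonneg (le_trans zero_le_one (volP_ge_one I)) (le_min zero_le_one (Real.exp_pos _).le)

/-- the factor of one step. -/
theorem vol_factor (I : S9Input n d) {s u' u t : ℝ} (hs : I.s0 ≤ s) (hu' : s ≤ u') (hu : u' ≤ u)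
    (hu1 : u ≤ u' + 1) (ht0 : 0 ≤ t) (ht1 : t ≤ 1) :
    n1 (vdil t (bind₁ (I.F s u') (jac I u' u)))
      ≤ 1 + t * (volP I * min 1 (Real.exp (I.C1 * s - I.σ * u'))) := by
  have hfix := I.fix0 s u' hs hu'
  have hs' : I.s0 ≤ u' := hs.trans hu'
  have h0 : 0 ≤ I.C1 := le_trans zero_le_one I.hC1
  obtain ⟨x, hx⟩ : ∃ x, x = bind₁ (I.F s u') (jac I u' u - 1) := ⟨_, rfl⟩
  have e : bind₁ (I.F s u') (jac I u' u) = 1 + x := by
    rw [hx, map_sub, map_one]
    ring
  have hc0 : coeff 0 (jac I u' u - 1) = 0 := by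
    rw [coeff_sub, coeff_zero_jac I hs' hu, coeff_zero_one, sub_self]
  have hx0 : coeff 0 x = 0 := by
    rw [hx]
    exact ordGe_one_iff.mp ((ordGe_one_iff.mpr hc0).bind₁ hfix)
  have hdeg : (jac I u' u - 1).totalDegree ≤ d - 1 :=
    (totalDegree_sub _ _).trans (max_le (totalDegree_jac_le I _ _) (by simp))
  have hn : n1 (jac I u' u - 1) ≤ Real.exp (1 / 2) * (d * I.C1) ^ n + 1 := by
    refine (n1_sub_le _ _).trans ?_
    rw [n1_one]
    have h1 := n1_jac_le I hs' hu
    have h2 : Real.exp ((u - u') / 2) ≤ Real.exp (1 / 2) := Real.exp_le_exp.2 (by linarith)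
    have h3 : Real.exp ((u - u') / 2) * (d * I.C1) ^ n ≤ Real.exp (1 / 2) * (d * I.C1) ^ n :=
      mul_le_mul_of_nonneg_right h2 (by positivity)
    linarith
  have hxn : n1 x ≤ volP I * min 1 (Real.exp (I.C1 * s - I.σ * u')) := by
    rw [hx]
    refine (n1_bind₁_le_mu I.hC1 (le_min zero_le_one (Real.exp_pos _).le) (min_le_left _ _)
      (fun i => (n1_le_nrm _ i).trans (I.bound s u' hs hu')) hc0 hdeg).trans ?_
    unfold volP
    rw [← mul_assoc]
    refine mul_le_mul_of_nonneg_right ?_ (le_min zero_le_one (Real.exp_pos _).le)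
    exact mul_le_mul_of_nonneg_right hn (by positivity)
  rw [e, vdil_add, vdil_one]
  refine (n1_add_le _ _).trans ?_
  rw [n1_one]
  have := (n1_vdil_le_of_coeff_zero ht0 ht1 hx0).trans (mul_le_mul_of_nonneg_left hxn ht0)
  linarith

/-- the product bound in the dilated norm. -/
theorem vol_dil_bound (hd : 1 ≤ d) (I : S9Input n d) {s t : ℝ} (hs : I.s0 ≤ s) (ht0 : 0 ≤ t)
    (ht1 : t ≤ 1) (L : ℕ) : ∀ u, s ≤ u → u ≤ s + L →
      n1 (vdil t (jac I s u)) ≤ ∏ l ∈ Finset.range L, (1 + t * volA I s l) := by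
  induction L with
  | zero =>
    intro u hu hu'
    have : u = s := le_antisymm (by simpa using hu') hu
    rw [this, jac_self I hs, vdil_one, n1_one]
    simp
  | succ L ih =>
    intro u hu hu'
    have hfac : 1 ≤ 1 + t * volA I s L := by
      have := mul_nonneg ht0 (volA_nonneg I s L)
      linarith
    have hprod : 0 ≤ ∏ l ∈ Finset.range L, (1 + t * volA I s l) :=
      Finset.prod_nonneg fun l _ => by
        have := mul_nonneg ht0 (volA_nonneg I s l)
        linarith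
    rw [Finset.prod_range_succ]
    by_cases hc : u ≤ s + L
    · exact (ih u hu hc).trans (le_mul_of_one_le_right hprod hfac)
    · push Not at hc
      have hsL : s ≤ s + L := by
        have : (0 : ℝ) ≤ L := Nat.cast_nonneg _
        linarith
      rw [jac_cocycle hd I hs hsL hc.le, vdil_ptr, vdil_mul]
      refine (n1_ptr_le _ _).trans ((n1_mul_le _ _).trans ?_)
      refine mul_le_mul (ih (s + L) hsL le_rfl) ?_ (n1_nonneg _) hprod
      exact vol_factor I hs hsL hc.le (by push_cast at hu'; linarith) ht0 ht1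

/-- summation of `min (1, exp (c - σ l))`. -/
theorem vol_sum_min_le {σ c : ℝ} (hσ : 0 < σ) (hc : 0 ≤ c) (L : ℕ) :
    ∑ l ∈ Finset.range L, min 1 (Real.exp (c - σ * l)) ≤ c / σ + 1 + (1 - Real.exp (-σ))⁻¹ := by
  obtain ⟨l₀, hl₀⟩ : ∃ l₀ : ℕ, l₀ = ⌈c / σ⌉₊ := ⟨_, rfl⟩
  have h1 : c / σ ≤ l₀ := hl₀ ▸ Nat.le_ceil _
  have h2 : (l₀ : ℝ) < c / σ + 1 := hl₀ ▸ Nat.ceil_lt_add_one (by positivity)
  have hnn : ∀ l : ℕ, 0 ≤ min 1 (Real.exp (c - σ * l)) := fun l =>
    le_min zero_le_one (Real.exp_pos _).le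
  have hr0 : 0 ≤ Real.exp (-σ) := (Real.exp_pos _).le
  have hr1 : Real.exp (-σ) < 1 := by
    rw [Real.exp_lt_one_iff]
    linarith
  calc ∑ l ∈ Finset.range L, min 1 (Real.exp (c - σ * l))
      ≤ ∑ l ∈ Finset.range (l₀ + L), min 1 (Real.exp (c - σ * l)) :=
        Finset.sum_le_sum_of_subset_of_nonneg (Finset.range_subset_range.2 (by omega))
          fun l _ _ => hnn l
    _ = ∑ l ∈ Finset.range l₀, min 1 (Real.exp (c - σ * l))
        + ∑ k ∈ Finset.range L, min 1 (Real.exp (c - σ * ((l₀ + k : ℕ) : ℝ))) :=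
        Finset.sum_range_add _ _ _
    _ ≤ ∑ _l ∈ Finset.range l₀, (1 : ℝ) + ∑ k ∈ Finset.range L, Real.exp (-σ) ^ k := by
        refine add_le_add (Finset.sum_le_sum fun l _ => min_le_left _ _)
          (Finset.sum_le_sum fun k _ => (min_le_right _ _).trans ?_)
        rw [← Real.exp_nat_mul]
        refine Real.exp_le_exp.2 ?_
        have h3 : c ≤ σ * l₀ := by
          rw [div_le_iff₀ hσ] at h1
          linarith
        push_cast
        nlinarith
    _ ≤ l₀ + (1 - Real.exp (-σ))⁻¹ := by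
        refine add_le_add (by simp) ?_
        rw [← tsum_geometric_of_lt_one hr0 hr1]
        exact (summable_geometric_of_lt_one hr0 hr1).sum_le_tsum _ fun k _ => pow_nonneg hr0 k
    _ ≤ _ := by linarith

/-- the constant `A`. -/
noncomputable def volK (I : S9Input n d) : ℝ :=
  volP I * (I.C1 / I.σ + 1 + (1 - Real.exp (-I.σ))⁻¹)

theorem volK_ge_one (I : S9Input n d) : 1 ≤ volK I := by
  have h1 := volP_ge_one I
  have h2 : 0 ≤ I.C1 / I.σ := div_nonneg (le_trans zero_le_one I.hC1) I.hσ.le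
  have h3 : 0 ≤ (1 - Real.exp (-I.σ))⁻¹ := by
    refine inv_nonneg.2 (sub_nonneg.2 ?_)
    rw [Real.exp_le_one_iff]
    linarith [I.hσ]
  unfold volK
  nlinarith

theorem vol_sum_le (I : S9Input n d) {s : ℝ} (hs : I.s0 ≤ s) (L : ℕ) :
    ∑ l ∈ Finset.range L, volA I s l ≤ volK I * s := by
  have hs1 : 1 ≤ s := I.hs0.trans hs
  have h0 : 0 ≤ I.C1 := le_trans zero_le_one I.hC1
  have hP := le_trans zero_le_one (volP_ge_one I)
  have h3 : 0 ≤ (1 - Real.exp (-I.σ))⁻¹ := by
    refine inv_nonneg.2 (sub_nonneg.2 ?_)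
    rw [Real.exp_le_one_iff]
    linarith [I.hσ]
  unfold volA volK
  rw [← Finset.mul_sum, mul_assoc]
  refine mul_le_mul_of_nonneg_left ?_ hP
  calc ∑ l ∈ Finset.range L, min 1 (Real.exp (I.C1 * s - I.σ * (s + l)))
      ≤ ∑ l ∈ Finset.range L, min 1 (Real.exp (I.C1 * s - I.σ * l)) := by
        refine Finset.sum_le_sum fun l _ => min_le_min le_rfl (Real.exp_le_exp.2 ?_)
        have := mul_nonneg I.hσ.le (le_trans zero_le_one hs1)
        linarith
    _ ≤ I.C1 * s / I.σ + 1 + (1 - Real.exp (-I.σ))⁻¹ :=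
        vol_sum_min_le I.hσ (mul_nonneg h0 (le_trans zero_le_one hs1)) L
    _ ≤ (I.C1 / I.σ + 1 + (1 - Real.exp (-I.σ))⁻¹) * s := by
        have e : I.C1 * s / I.σ = I.C1 / I.σ * s := by ring
        rw [e]
        nlinarith

/-- VOL-2: the uniform bound. -/
theorem jac_bound (hd : 1 ≤ d) (I : S9Input n d) : ∃ Cv : ℝ, 1 ≤ Cv ∧ ∀ s u, I.s0 ≤ s → s ≤ u →
    n1 (jac I s u) ≤ (Cv * s) ^ (d - 1) := by
  have hK := volK_ge_one I
  have he : 1 ≤ Real.exp 1 := Real.one_le_exp zero_le_one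
  refine ⟨Real.exp 1 * volK I, by nlinarith, fun s u hs hu => ?_⟩
  have hs1 : 1 ≤ s := I.hs0.trans hs
  by_cases hd1 : d - 1 = 0
  · have h1 : (jac I s u).totalDegree = 0 := by
      have := totalDegree_jac_le I s u
      omega
    rw [totalDegree_eq_zero_iff_eq_C] at h1
    rw [h1, coeff_zero_jac I hs hu, hd1]
    simp
  · have hKs : 1 ≤ volK I * s := by nlinarith
    have hKs0 : 0 < volK I * s := by linarith
    obtain ⟨t, ht⟩ : ∃ t, t = (volK I * s)⁻¹ := ⟨_, rfl⟩
    have ht0 : 0 < t := ht ▸ inv_pos.2 hKs0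
    have ht1 : t ≤ 1 := ht ▸ inv_le_one_of_one_le₀ hKs
    obtain ⟨L, hL⟩ := exists_nat_ge (u - s)
    have h1 := vol_dil_bound hd I hs ht0.le ht1 L u hu (by linarith)
    have h2 : ∏ l ∈ Finset.range L, (1 + t * volA I s l) ≤ Real.exp 1 := by
      calc ∏ l ∈ Finset.range L, (1 + t * volA I s l)
          ≤ ∏ l ∈ Finset.range L, Real.exp (t * volA I s l) := by
            refine Finset.prod_le_prod (fun l _ => ?_) fun l _ => ?_
            · have := mul_nonneg ht0.le (volA_nonneg I s l)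
              linarith
            · have := Real.add_one_le_exp (t * volA I s l)
              linarith
        _ = Real.exp (t * ∑ l ∈ Finset.range L, volA I s l) := by
            rw [← Real.exp_sum, Finset.mul_sum]
        _ ≤ Real.exp 1 := by
            refine Real.exp_le_exp.2 ?_
            calc t * ∑ l ∈ Finset.range L, volA I s l ≤ t * (volK I * s) :=
                  mul_le_mul_of_nonneg_left (vol_sum_le I hs L) ht0.le
              _ = 1 := by rw [ht, inv_mul_cancel₀ hKs0.ne']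
    have h3 := pow_mul_n1_le_n1_vdil ht0.le ht1 (totalDegree_jac_le I s u)
    have h4 : t ^ (d - 1) * n1 (jac I s u) ≤ Real.exp 1 := h3.trans (h1.trans h2)
    have h5 : n1 (jac I s u) ≤ Real.exp 1 * (volK I * s) ^ (d - 1) := by
      rw [ht, inv_pow] at h4
      have hp : 0 < (volK I * s) ^ (d - 1) := pow_pos hKs0 _
      rw [inv_mul_le_iff₀ hp] at h4
      linarith
    refine h5.trans ?_
    have e6 : (Real.exp 1 * volK I * s) ^ (d - 1) = Real.exp 1 ^ (d - 1) * (volK I * s) ^ (d - 1) := by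
      rw [mul_assoc, mul_pow]
    rw [e6]
    refine mul_le_mul_of_nonneg_right ?_ (pow_nonneg hKs0.le _)
    calc Real.exp 1 = Real.exp 1 ^ 1 := (pow_one _).symm
      _ ≤ Real.exp 1 ^ (d - 1) := pow_le_pow_right₀ he (by omega)

theorem vol_eqns_cite2 : True := by
  have := @volP.eq_1
  have := @volA.eq_1
  have := @volK.eq_1
  trivial


/-- VOL-3: the coherent volume jets `E s`. -/
theorem exists_volume_jets (hd : 1 ≤ d) (I : S9Input n d) : ∃ (E : ℝ → MP n) (Cv : ℝ), 1 ≤ Cv ∧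
    ∀ s, I.s0 ≤ s → coeff 0 (E s) = 1 ∧ (E s).totalDegree ≤ d - 1 ∧ n1 (E s) ≤ (Cv * s) ^ (d - 1) ∧
      ∀ u, s ≤ u → E s = ptr (d - 1) (jac I s u * bind₁ (I.F s u) (E u)) := by
  obtain ⟨Cv, hCv, hb⟩ := jac_bound hd I
  have hle : ((Filter.hyperfilter ℕ : Ultrafilter ℕ) : Filter ℕ) ≤ Filter.atTop :=
    Nat.hyperfilter_le_atTop
  have hev : ∀ s : ℝ, ∀ᶠ K : ℕ in ((Filter.hyperfilter ℕ : Ultrafilter ℕ) : Filter ℕ), s ≤ K :=
    fun s => (tendsto_natCast_atTop_atTop.eventually_ge_atTop s).filter_mono hle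
  have hex : ∀ s : ℝ, ∃ g : MP n, I.s0 ≤ s →
      CT ((Filter.hyperfilter ℕ : Ultrafilter ℕ) : Filter ℕ) (fun K : ℕ => jac I s K) g := by
    intro s
    by_cases hs : I.s0 ≤ s
    · obtain ⟨g, hg⟩ := exists_CT (Filter.hyperfilter ℕ) (fun K : ℕ => jac I s K) (d - 1)
        ((Cv * s) ^ (d - 1)) (Filter.Eventually.of_forall fun K => totalDegree_jac_le I s K)
        ((hev s).mono fun K hK => hb s K hs hK)
      exact ⟨g, fun _ => hg⟩
    · exact ⟨0, fun h => absurd h hs⟩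
  choose E hE using hex
  refine ⟨E, Cv, hCv, fun s hs => ⟨?_, ?_, ?_, fun u hu => ?_⟩⟩
  · refine tendsto_nhds_unique (hE s hs 0) (tendsto_const_nhds.congr' ((hev s).mono fun K hK => ?_))
    exact (coeff_zero_jac I hs hK).symm
  · exact (hE s hs).totalDegree_le (Filter.Eventually.of_forall fun K => totalDegree_jac_le I s K)
  · exact (hE s hs).n1_le ((hev s).mono fun K hK => hb s K hs hK)
  · have h1 : CT ((Filter.hyperfilter ℕ : Ultrafilter ℕ) : Filter ℕ)
        (fun K : ℕ => ptr (d - 1) (jac I s u * bind₁ (I.F s u) (jac I u K)))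
        (ptr (d - 1) (jac I s u * bind₁ (I.F s u) (E u))) :=
      ((CT.const (jac I s u)).mul ((hE u (hs.trans hu)).bind₁ (CTm.const (I.F s u))
        (Filter.Eventually.of_forall fun K => totalDegree_jac_le I u K))).ptr (d - 1)
    refine (hE s hs).unique (h1.congr' ((hev u).mono fun K hK => ?_))
    exact (jac_cocycle hd I hs hu hK).symm

/-- integration in the variable `i0`. -/
noncomputable def pint (i0 : Fin n) (f : MP n) : MP n :=
  ∑ m ∈ f.support, monomial (m + Finsupp.single i0 1) (coeff m f / ((m i0 : ℂ) + 1))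

/-- VOL-4a -/
theorem pderiv_pint (i0 : Fin n) (f : MP n) : pderiv i0 (pint i0 f) = f := by
  rw [pint, map_sum]
  conv_rhs => rw [← support_sum_monomial_coeff f]
  refine Finset.sum_congr rfl fun m _ => ?_
  rw [pderiv_monomial, add_tsub_cancel_right]
  congr 1
  have h : ((m i0 : ℂ) + 1) ≠ 0 := by exact_mod_cast Nat.succ_ne_zero (m i0)
  simp only [Finsupp.add_apply, Finsupp.single_eq_same, Nat.cast_add, Nat.cast_one]
  field_simp

theorem coeff_pint (i0 : Fin n) (f : MP n) (m : Fin n →₀ ℕ) :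
    coeff (m + Finsupp.single i0 1) (pint i0 f) = coeff m f / ((m i0 : ℂ) + 1) := by
  classical
  rw [pint, coeff_sum]
  simp only [coeff_monomial, add_left_inj]
  rw [Finset.sum_ite_eq']
  split_ifs with h
  · rfl
  · rw [notMem_support_iff.mp h, zero_div]

theorem coeff_pint_of_zero (i0 : Fin n) (f : MP n) {m : Fin n →₀ ℕ} (hm : m i0 = 0) :
    coeff m (pint i0 f) = 0 := by
  classical
  rw [pint, coeff_sum]
  refine Finset.sum_eq_zero fun u _ => ?_
  rw [coeff_monomial, if_neg]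
  intro h
  have := congrArg (fun v : Fin n →₀ ℕ => v i0) h
  simp only [Finsupp.add_apply, Finsupp.single_eq_same] at this
  omega

theorem n1_pint_le (i0 : Fin n) (f : MP n) : n1 (pint i0 f) ≤ n1 f := by
  rw [pint]
  refine (n1_sum_le _ _).trans (Finset.sum_le_sum fun m _ => ?_)
  rw [n1_monomial, norm_div]
  refine div_le_self (norm_nonneg _) ?_
  have e : ((m i0 : ℂ) + 1) = ((m i0 + 1 : ℕ) : ℂ) := by push_cast; ring
  rw [e, Complex.norm_natCast]
  exact_mod_cast Nat.succ_le_succ (Nat.zero_le _)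

theorem totalDegree_pint_le (i0 : Fin n) (f : MP n) : (pint i0 f).totalDegree ≤ f.totalDegree + 1 := by
  rw [pint]
  refine totalDegree_finsetSum_le fun m hm => ?_
  refine (totalDegree_monomial_le _ _).trans ?_
  have e : ((m + Finsupp.single i0 1).sum fun _ => id) = (m + Finsupp.single i0 1).degree := rfl
  rw [e, map_add, Finsupp.degree_single]
  exact Nat.add_le_add_right (le_totalDegree hm) 1

/-- determinant of the identity matrix with one row replaced. -/
theorem vol_det_updateRow {R : Type*} [CommRing R] (i0 : Fin n) (v : Fin n → R) :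
    ((1 : Matrix (Fin n) (Fin n) R).updateRow i0 v).det = v i0 := by
  rw [← Matrix.det_transpose, ← Matrix.updateCol_transpose, Matrix.transpose_one,
    ← Matrix.cramer_apply, Matrix.cramer_one]
  rfl


/-- VOL-4b: a map tangent to the identity with prescribed Jacobian determinant. -/
theorem exists_prescribed_jdet (i0 : Fin n) (E : MP n) (hE : coeff 0 E = 1) :
    ∃ A : PMap n, Fix0 A ∧ plin A = 1 ∧ pdeg A ≤ E.totalDegree + 1 ∧ jdet A = E ∧
      nrm A ≤ n + n1 E := by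
  classical
  have hA0 : Function.update (pid : PMap n) i0 (pint i0 E) i0 = pint i0 E := Function.update_self _ _ _
  have hA1 : ∀ i, i ≠ i0 → Function.update (pid : PMap n) i0 (pint i0 E) i = X i := fun i hi =>
    Function.update_of_ne hi _ _
  refine ⟨Function.update pid i0 (pint i0 E), fun i => ?_, ?_, ?_, ?_, ?_⟩
  · by_cases hi : i = i0
    · subst hi
      rw [hA0]
      exact coeff_pint_of_zero i E rfl
    · rw [hA1 i hi]
      exact coeff_zero_X i
  · ext i j
    show coeff (Finsupp.single j 1) (Function.update (pid : PMap n) i0 (pint i0 E) i) = _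
    by_cases hi : i = i0
    · subst hi
      rw [hA0]
      by_cases hj : j = i
      · subst hj
        have := coeff_pint j E 0
        rw [zero_add] at this
        rw [this, hE]
        simp
      · rw [coeff_pint_of_zero i E (Finsupp.single_eq_of_ne (Ne.symm hj)), Matrix.one_apply_ne (Ne.symm hj)]
    · rw [hA1 i hi]
      exact congrFun (congrFun (plin_pid (n := n)) i) j
  · refine pdeg_le_iff.mpr fun i => ?_
    by_cases hi : i = i0
    · subst hi
      rw [hA0]
      exact totalDegree_pint_le i E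
    · rw [hA1 i hi, totalDegree_X]
      omega
  · have hj : jmat (Function.update (pid : PMap n) i0 (pint i0 E))
        = (1 : Matrix (Fin n) (Fin n) (MP n)).updateRow i0 fun j => pderiv j (pint i0 E) := by
      ext i j
      by_cases hi : i = i0
      · subst hi
        rw [Matrix.updateRow_self]
        show coeff _ (pderiv j (Function.update (pid : PMap n) i (pint i E) i)) = _
        rw [hA0]
      · rw [Matrix.updateRow_ne hi]
        show coeff _ (pderiv j (Function.update (pid : PMap n) i0 (pint i0 E) i)) = _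
        rw [hA1 i hi, pderiv_X, Matrix.one_apply]
        by_cases hij : i = j
        · subst hij
          simp
        · rw [if_neg hij, Pi.single_eq_of_ne hij]
    rw [jdet, hj, vol_det_updateRow, pderiv_pint]
  · have h1 : ∀ i, n1 (Function.update (pid : PMap n) i0 (pint i0 E) i)
        ≤ 1 + if i = i0 then n1 E else 0 := by
      intro i
      by_cases hi : i = i0
      · subst hi
        rw [hA0, if_pos rfl]
        have := n1_pint_le i E
        linarith
      · rw [hA1 i hi, if_neg hi, n1_X, add_zero]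
    calc nrm (Function.update (pid : PMap n) i0 (pint i0 E))
        ≤ ∑ i : Fin n, (1 + if i = i0 then n1 E else 0) := Finset.sum_le_sum fun i _ => h1 i
      _ = n + n1 E := by
          rw [Finset.sum_add_distrib, Finset.sum_ite_eq' Finset.univ i0 fun _ => n1 E]
          simp

/-- **VOL (main)**: volume coordinates at every clock. -/
theorem vol_main (hd : 2 ≤ d) (hn : 0 < n) (I : S9Input n d) :
    ∃ (A Ai : ℝ → PMap n) (Cv : ℝ) (cv : ℕ), 1 ≤ Cv ∧ ∀ s, I.s0 ≤ s →
      Fix0 (A s) ∧ Fix0 (Ai s) ∧ plin (A s) = 1 ∧ plin (Ai s) = 1 ∧ pdeg (A s) ≤ d ∧ pdeg (Ai s) ≤ d ∧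
      JEq d (comp (A s) (Ai s)) pid ∧ JEq d (comp (Ai s) (A s)) pid ∧
      nrm (A s) ≤ (Cv * s) ^ cv ∧ nrm (Ai s) ≤ (Cv * s) ^ cv ∧
      ∀ u, s ≤ u →
        ptr (d - 1) (jdet (comp (A u) (comp (I.F s u) (Ai s)))) = C (plin (I.F s u)).det := by
  have hd1 : 1 ≤ d := by omega
  have hdd : d - 1 + 1 = d := by omega
  obtain ⟨E, Cv, hCv, hE⟩ := exists_volume_jets hd1 I
  obtain ⟨c, hc⟩ := inv_jet n d hd1
  have hexA : ∀ s, ∃ A : PMap n, I.s0 ≤ s → (Fix0 A ∧ plin A = 1 ∧ pdeg A ≤ (E s).totalDegree + 1 ∧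
      jdet A = E s ∧ nrm A ≤ n + n1 (E s)) := by
    intro s
    by_cases hs : I.s0 ≤ s
    · obtain ⟨A, hA⟩ := exists_prescribed_jdet ⟨0, hn⟩ (E s) (hE s hs).1
      exact ⟨A, fun _ => hA⟩
    · exact ⟨pid, fun h => absurd h hs⟩
  choose A hA using hexA
  have hexB : ∀ s, ∃ Q : PMap n, I.s0 ≤ s → (Fix0 Q ∧ pdeg Q ≤ d ∧ plin Q = 1 ∧
      JEq d (comp (A s) Q) pid ∧ JEq d (comp Q (A s)) pid ∧
      nrm Q ≤ (2 + nrm (A s) + mnorm (1 : Mat n)) ^ c) := by
    intro s
    by_cases hs : I.s0 ≤ s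
    · obtain ⟨Q, hQ⟩ := hc (A s) 1 (hA s hs).1 (by rw [(hA s hs).2.1, one_mul])
      exact ⟨Q, fun _ => hQ⟩
    · exact ⟨pid, fun h => absurd h hs⟩
  choose Ai hAi using hexB
  have hn0 : (0 : ℝ) ≤ n := Nat.cast_nonneg _
  refine ⟨A, Ai, Cv + 2 + 2 * n, d * c + d, by linarith, fun s hs => ?_⟩
  obtain ⟨hAf, hAl, hAd, hAj, hAn⟩ := hA s hs
  obtain ⟨hQf, hQd, hQl, hQ1, hQ2, hQn⟩ := hAi s hs
  obtain ⟨hE0, hEd, hEn, hEc⟩ := hE s hs
  have hs1 : 1 ≤ s := I.hs0.trans hs
  obtain ⟨y, hy⟩ : ∃ y, y = (Cv + 2 + 2 * n) * s := ⟨_, rfl⟩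
  rw [← hy]
  have hy1 : 2 + 2 * (n : ℝ) ≤ y := by rw [hy]; nlinarith
  have hy2 : Cv * s ≤ y := by rw [hy]; nlinarith
  have hy3 : 2 ≤ y := by linarith
  have hy4 : 1 ≤ y := by linarith
  have hp1 : y ≤ y ^ (d - 1) := le_self_pow₀ hy4 (by omega)
  have hp2 : (Cv * s) ^ (d - 1) ≤ y ^ (d - 1) := pow_le_pow_left₀ (by nlinarith) hy2 _
  have hA' : nrm (A s) ≤ y ^ d := by
    have := add_le_pow_succ hy3 (p := d - 1) (a := (n : ℝ)) (b := n1 (E s)) (by linarith)
      (hEn.trans hp2)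
    rw [hdd] at this
    exact hAn.trans this
  have hQ' : nrm (Ai s) ≤ y ^ (d * c) := by
    have h1 : 2 + nrm (A s) + mnorm (1 : Mat n) ≤ y ^ d := by
      have := add_le_pow_succ hy3 (p := d - 1) (a := 2 + 2 * (n : ℝ)) (b := n1 (E s)) (by linarith)
        (hEn.trans hp2)
      rw [hdd] at this
      have h2 := mnorm_one_le (n := n)
      linarith
    rw [pow_mul]
    exact hQn.trans (pow_le_pow_left₀ (by
      have := nrm_nonneg (A s)
      have := mnorm_nonneg (1 : Mat n)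
      linarith) h1 _)
  refine ⟨hAf, hQf, hAl, hQl, hAd.trans (by omega), hQd, hQ1, hQ2,
    hA'.trans (pow_le_pow_right₀ hy4 (by omega)), hQ'.trans (pow_le_pow_right₀ hy4 (by omega)),
    fun u hu => ?_⟩
  have hsu := hs.trans hu
  have hAuj := (hA u hsu).2.2.2.1
  have hδ := vol_det_ne_zero I hs hu
  have e1 : jdet (comp (A u) (comp (I.F s u) (Ai s)))
      = bind₁ (Ai s) (bind₁ (I.F s u) (E u) * jdet (I.F s u)) * jdet (Ai s) := by
    rw [jdet_comp, jdet_comp, hAuj, map_mul, ← mul_assoc, bind₁_bind₁]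
    rfl
  have e2 : ptr (d - 1) (bind₁ (I.F s u) (E u) * jdet (I.F s u))
      = ptr (d - 1) (C (plin (I.F s u)).det * E s) := by
    have h1 : ptr (d - 1) (jac I s u) = ptr (d - 1) (C ((plin (I.F s u)).det)⁻¹ * jdet (I.F s u)) := by
      rw [jac, vol_ptr_ptr_self]
    rw [ptr_C_mul, hEc u hu, vol_ptr_ptr_self,
      ptr_mul_congr h1 (rfl : ptr (d - 1) (bind₁ (I.F s u) (E u)) = _), ← ptr_C_mul]
    congr 1
    rw [← mul_assoc, ← mul_assoc, ← C_mul, mul_inv_cancel₀ hδ, map_one, one_mul, mul_comm]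
  have e3 := ptr_bind₁_congr e2 hQf
  have e4 : ptr (d - 1) (bind₁ (Ai s) (E s) * jdet (Ai s)) = 1 := by
    have h1 : ptr (d - 1) (jdet (comp (A s) (Ai s))) = ptr (d - 1) (jdet (pid : PMap n)) := by
      apply JEq.jdet
      rw [hdd]
      exact hQ1
    rw [jdet_comp, hAj, jdet_pid, ptr_one] at h1
    exact h1
  rw [e1, ptr_mul_congr e3 (rfl : ptr (d - 1) (jdet (Ai s)) = _), map_mul, bind₁_C_right, mul_assoc,
    ptr_C_mul, e4, mul_one]

theorem vol_eqns_cite3 : True := by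
  have := @pint.eq_1
  trivial

end Claimed.Agent.R316.S9
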