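import Mathlib

/-!
# Row 316, Section 9, package WT: propagated weights

Paper: dynamics.tex, "The macro grid and propagated weights", (9.14).
Abstract form.  `μ k i` = `i`-th sorted rate of step `k` (nondecreasing in `k`), `jj k` = macro index
of step `k`, `θ j`, `lam j` positive.  Vertices `(k, i)`; an edge `(k,i) → (k',i')` when
`k' ∈ {k, k+1}`, `jj k' = jj k` and `μ k' i' ≥ μ k i - ε₀ θ (jj k)`.
`w k i` := supremum of the raw weights `lam (μ - θ)` over all vertices from which `(k,i)` is reachable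
(`Relation.ReflTransGen`).

Records argument (upper bound): along a path keep a finite set `𝒱` of visited indices and a record
`m` with  `i(v) ∈ 𝒱`, `∀ i ∈ 𝒱, m ≤ μ k(v) i`, `μ(v₀) - (card 𝒱 - 1) ε₀ θ ≤ m`.  A step to a visited index
keeps `(𝒱, m)` (rates are nondecreasing in `k`), a step to a new index replaces `m` by `m - ε₀ θ`.
-/

set_option autoImplicit false

namespace Claimed.Agent.R316.S9

/-- the edge relation of the propagation graph. -/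
def wtEdge {n : ℕ} (μ : ℕ → Fin n → ℝ) (jj : ℕ → ℕ) (θ : ℕ → ℝ) (ε₀ : ℝ) (a b : ℕ × Fin n) : Prop :=
  (b.1 = a.1 ∨ b.1 = a.1 + 1) ∧ jj b.1 = jj a.1 ∧ μ a.1 a.2 - ε₀ * θ (jj a.1) ≤ μ b.1 b.2

/-- the records argument. -/
theorem wt_record {n : ℕ} {μ : ℕ → Fin n → ℝ} {jj : ℕ → ℕ} {θ : ℕ → ℝ} {ε₀ : ℝ}
    (hμ : ∀ k i, μ k i ≤ μ (k + 1) i) (hθ : ∀ j, 0 < θ j) (hε₀ : 0 < ε₀) {a b : ℕ × Fin n}
    (h : Relation.ReflTransGen (wtEdge μ jj θ ε₀) a b) :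
    jj b.1 = jj a.1 ∧ ∃ (𝒱 : Finset (Fin n)) (m : ℝ), b.2 ∈ 𝒱 ∧ (∀ i ∈ 𝒱, m ≤ μ b.1 i) ∧
      μ a.1 a.2 - ((𝒱.card : ℝ) - 1) * (ε₀ * θ (jj a.1)) ≤ m := by
  induction h with
  | refl =>
    refine ⟨rfl, {a.2}, μ a.1 a.2, Finset.mem_singleton_self _, fun i hi => ?_, ?_⟩
    · rw [Finset.mem_singleton.1 hi]
    · simp
  | @tail b c _ hbc ih =>
    obtain ⟨hj, 𝒱, m, hb, hm, hrec⟩ := ih
    obtain ⟨hk, hjc, hstep⟩ := hbc
    have hmono : ∀ i, μ b.1 i ≤ μ c.1 i := fun i => by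
      rcases hk with hk | hk
      · rw [hk]
      · rw [hk]; exact hμ _ _
    have hpos : 0 < ε₀ * θ (jj a.1) := mul_pos hε₀ (hθ _)
    refine ⟨hjc.trans hj, ?_⟩
    by_cases hc : c.2 ∈ 𝒱
    · exact ⟨𝒱, m, hc, fun i hi => (hm i hi).trans (hmono i), hrec⟩
    · refine ⟨insert c.2 𝒱, m - ε₀ * θ (jj a.1), Finset.mem_insert_self _ _, fun i hi => ?_, ?_⟩
      · rcases Finset.mem_insert.1 hi with rfl | hi
        · have := hm b.2 hb
          rw [hj] at hstep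
          linarith
        · have := (hm i hi).trans (hmono i)
          linarith
      · rw [Finset.card_insert_of_notMem hc]
        push_cast
        linarith

/-- consequence: an ancestor has a rate at most `μ + θ / 10`. -/
theorem wt_anc_le {n : ℕ} {μ : ℕ → Fin n → ℝ} {jj : ℕ → ℕ} {θ : ℕ → ℝ} {ε₀ : ℝ}
    (hμ : ∀ k i, μ k i ≤ μ (k + 1) i) (hθ : ∀ j, 0 < θ j) (hε₀ : 0 < ε₀) (hnε : n * ε₀ ≤ 1 / 10)
    {a b : ℕ × Fin n} (h : Relation.ReflTransGen (wtEdge μ jj θ ε₀) a b) :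
    jj b.1 = jj a.1 ∧ μ a.1 a.2 - 1 / 10 * θ (jj a.1) ≤ μ b.1 b.2 := by
  obtain ⟨hj, 𝒱, m, hb, hm, hrec⟩ := wt_record hμ hθ hε₀ h
  refine ⟨hj, ?_⟩
  have h1 := hm b.2 hb
  have hcard : (𝒱.card : ℝ) ≤ n := by
    have := Finset.card_le_univ 𝒱
    rw [Fintype.card_fin] at this
    exact_mod_cast this
  have hθa := hθ (jj a.1)
  have h2 : ((𝒱.card : ℝ) - 1) * (ε₀ * θ (jj a.1)) ≤ 1 / 10 * θ (jj a.1) := by
    have h3 : ((𝒱.card : ℝ) - 1) * ε₀ ≤ 1 / 10 := by nlinarith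
    calc ((𝒱.card : ℝ) - 1) * (ε₀ * θ (jj a.1)) = (((𝒱.card : ℝ) - 1) * ε₀) * θ (jj a.1) := by ring
      _ ≤ _ := mul_le_mul_of_nonneg_right h3 hθa.le
  linarith

/-- WT: existence of the propagated weights inside the macros. -/
theorem wt_main {n : ℕ} (μ : ℕ → Fin n → ℝ) (jj : ℕ → ℕ) (θ lam : ℕ → ℝ) (ε₀ : ℝ)
    (hμ : ∀ k i, μ k i ≤ μ (k + 1) i) (hθ : ∀ j, 0 < θ j) (hlam : ∀ j, 0 < lam j)
    (hε₀ : 0 < ε₀) (hnε : n * ε₀ ≤ 1 / 10) :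
    ∃ w : ℕ → Fin n → ℝ,
      (∀ k i, lam (jj k) * (μ k i - θ (jj k)) ≤ w k i ∧
        w k i ≤ lam (jj k) * (μ k i - 9 / 10 * θ (jj k))) ∧
      (∀ k i l, μ k l - ε₀ * θ (jj k) ≤ μ k i → w k l ≤ w k i) ∧
      (∀ k i l, jj (k + 1) = jj k → μ k l - ε₀ * θ (jj k) ≤ μ (k + 1) i → w k l ≤ w (k + 1) i) := by
  set raw : ℕ × Fin n → ℝ := fun a => lam (jj a.1) * (μ a.1 a.2 - θ (jj a.1)) with hraw
  set anc : ℕ × Fin n → Set (ℕ × Fin n) :=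
    fun b => {a | Relation.ReflTransGen (wtEdge μ jj θ ε₀) a b} with hanc
  have hub : ∀ b : ℕ × Fin n, ∀ x ∈ raw '' anc b,
      x ≤ lam (jj b.1) * (μ b.1 b.2 - 9 / 10 * θ (jj b.1)) := by
    rintro b x ⟨a, ha, rfl⟩
    obtain ⟨hj, h1⟩ := wt_anc_le hμ hθ hε₀ hnε ha
    show lam (jj a.1) * (μ a.1 a.2 - θ (jj a.1)) ≤ _
    rw [hj]
    refine mul_le_mul_of_nonneg_left ?_ (hlam _).le
    linarith
  have hbdd : ∀ b, BddAbove (raw '' anc b) := fun b => ⟨_, hub b⟩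
  have hne : ∀ b, (raw '' anc b).Nonempty := fun b => ⟨raw b, b, Relation.ReflTransGen.refl, rfl⟩
  have hmono : ∀ b c, wtEdge μ jj θ ε₀ b c → sSup (raw '' anc b) ≤ sSup (raw '' anc c) := by
    intro b c hbc
    refine csSup_le_csSup (hbdd c) (hne b) (Set.image_mono fun a ha => ?_)
    exact Relation.ReflTransGen.tail ha hbc
  refine ⟨fun k i => sSup (raw '' anc (k, i)), fun k i => ⟨?_, ?_⟩, fun k i l h => ?_,
    fun k i l hj h => ?_⟩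
  · exact le_csSup (hbdd (k, i)) ⟨(k, i), Relation.ReflTransGen.refl, rfl⟩
  · exact csSup_le (hne (k, i)) (hub (k, i))
  · exact hmono (k, l) (k, i) ⟨Or.inl rfl, rfl, h⟩
  · exact hmono (k, l) (k + 1, i) ⟨Or.inr rfl, hj, h⟩

/-- WT-GAP (9.15): forbidden monomials have a rate gap. -/
theorem forbidden_gap {n : ℕ} (μ w : Fin n → ℝ) (θ lam : ℝ) (hθ : 0 < θ) (hlam : 0 < lam)
    (hw : ∀ i, lam * (μ i - θ) ≤ w i ∧ w i ≤ lam * (μ i - 9 / 10 * θ))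
    (i : Fin n) (β : Fin n →₀ ℕ) (hβ : 2 ≤ β.degree) (hforb : w i < ∑ l, (β l : ℝ) * w l) :
    8 / 10 * θ < ∑ l, (β l : ℝ) * μ l - μ i := by
  have hdeg : (2 : ℝ) ≤ ∑ l, (β l : ℝ) := by
    rw [Finsupp.degree_eq_sum] at hβ
    exact_mod_cast hβ
  have h1 : ∑ l, (β l : ℝ) * w l ≤ ∑ l, (β l : ℝ) * (lam * (μ l - 9 / 10 * θ)) :=
    Finset.sum_le_sum fun l _ => mul_le_mul_of_nonneg_left (hw l).2 (Nat.cast_nonneg _)
  have h2 : ∑ l, (β l : ℝ) * (lam * (μ l - 9 / 10 * θ))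
      = lam * (∑ l, (β l : ℝ) * μ l - 9 / 10 * θ * ∑ l, (β l : ℝ)) := by
    rw [mul_sub, Finset.mul_sum, Finset.mul_sum, Finset.mul_sum, ← Finset.sum_sub_distrib]
    exact Finset.sum_congr rfl fun l _ => by ring
  have h3 : lam * (μ i - θ) < lam * (∑ l, (β l : ℝ) * μ l - 9 / 10 * θ * ∑ l, (β l : ℝ)) := by
    rw [← h2]
    exact lt_of_le_of_lt (hw i).1 (lt_of_lt_of_le hforb h1)
  have h4 := lt_of_mul_lt_mul_left h3 hlam.le
  nlinarith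

end Claimed.Agent.R316.S9
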