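import Claimed.Agent.R316.S9.Flag
import Claimed.Agent.R316.S9.Grid
import Claimed.Agent.R316.S9.Wt
import Claimed.Agent.R316.S9.Rates
import Claimed.Agent.R316.S9.Vol
import Claimed.Agent.R316.Pack029_2
import Claimed.Agent.R316.S9.Num

/-!
# Row 316, Section 9, package PAR: parameters, auxiliary sequences, numerical thresholds

Order of the choices (dynamics.tex / uniformization.tex):
`n, d` → (`cs, c, Dd` of `asm_main`, `Cv, cv` of `vol_main`) → `h` → `N` → `M` → `b, K0, lam` → late start `j0`.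
-/

set_option autoImplicit false
open Filter

namespace Claimed.Agent.R316.S9

variable {n d : ℕ}

/-- the parameters `N`, `M` of the flag test; `Dst` is the degree bound of the models. -/
structure Par (I : S9Input n d) (h : ℝ) (Dst : ℕ) where
  /-- `exp (- h N) ≤ a0` -/
  N : ℕ
  /-- flag threshold -/
  M : ℝ
  hN : 1 ≤ N
  hNa : Real.exp (-(h * N)) ≤ I.a0
  hM0 : 0 ≤ M
  hM1 : Real.log Dst + Real.log (2 / I.b0) / (2 * N + 1) ≤ M / (3 * N + 1)
  hM2 : h < M / (3 * N + 1)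

/-- PAR-1 -/
theorem exists_par (I : S9Input n d) {h : ℝ} (hh : 0 < h) (Dst : ℕ) : Nonempty (Par I h Dst) := by
  obtain ⟨N, hN2, hN1⟩ := ((num_const_le_exp (1 / I.a0) hh).and (eventually_ge_atTop 1)).exists
  have hNa : Real.exp (-(h * N)) ≤ I.a0 := by
    rw [Real.exp_neg, inv_le_comm₀ (Real.exp_pos _) I.ha0, ← one_div]
    exact hN2
  obtain ⟨t, ht⟩ : ∃ t, t = max (Real.log Dst + Real.log (2 / I.b0) / (2 * N + 1)) h + 1 := ⟨_, rfl⟩
  have ht1 : Real.log Dst + Real.log (2 / I.b0) / (2 * N + 1) ≤ t := by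
    rw [ht]; linarith [le_max_left (Real.log Dst + Real.log (2 / I.b0) / (2 * N + 1)) h]
  have ht2 : h < t := by
    rw [ht]; linarith [le_max_right (Real.log Dst + Real.log (2 / I.b0) / (2 * N + 1)) h]
  have hpos : (0 : ℝ) < 3 * N + 1 := by positivity
  have hdiv : (3 * (N : ℝ) + 1) * t / (3 * N + 1) = t := mul_div_cancel_left₀ _ hpos.ne'
  exact ⟨{ N := N, M := (3 * N + 1) * t, hN := hN1, hNa := hNa,
           hM0 := mul_nonneg hpos.le (hh.le.trans ht2.le),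
           hM1 := by rw [hdiv]; exact ht1,
           hM2 := by rw [hdiv]; exact ht2 }⟩

/-- `Q_j = q (S_j)`. -/
noncomputable def Qs (I : S9Input n d) (h : ℝ) (j : ℕ) : ℝ := I.q (Sm h j)

theorem Qs_mono (I : S9Input n d) {h : ℝ} (hh : 0 < h) : Monotone (Qs I h) := by
  intro a b hab
  apply I.q_mono
  apply Real.exp_le_exp.mpr
  exact mul_le_mul_of_nonneg_left (by exact_mod_cast hab) hh.le

theorem Qs_pos (I : S9Input n d) (h : ℝ) (j : ℕ) : 0 < Qs I h j := lt_of_lt_of_le I.hc0 (I.q_lb _)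

/-- `θ_j = Q_j / j^2`. -/
noncomputable def θs (I : S9Input n d) (h : ℝ) (j : ℕ) : ℝ := Qs I h j / (j : ℝ) ^ 2

/-- the multipliers `lam (j+1) = lam j * (1 + K0 / j^2)`. -/
noncomputable def lamS (K0 L0 : ℝ) : ℕ → ℝ
  | 0 => L0
  | j + 1 => lamS K0 L0 j * (1 + K0 / (j : ℝ) ^ 2)

/-- PAR-2: the multipliers are nondecreasing and bounded. -/
theorem lamS_bounds {K0 L0 : ℝ} (hK : 0 ≤ K0) (hL : 0 < L0) :
    Monotone (lamS K0 L0) ∧ ∀ j, L0 ≤ lamS K0 L0 j ∧ lamS K0 L0 j ≤ L0 * Real.exp (2 * K0) := by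
  have hpos : ∀ j, 0 < lamS K0 L0 j := by
    intro j
    induction j with
    | zero => exact hL
    | succ j ih =>
      show 0 < lamS K0 L0 j * (1 + K0 / (j : ℝ) ^ 2)
      positivity
  have hstep : ∀ j, lamS K0 L0 j ≤ lamS K0 L0 (j + 1) := by
    intro j
    show lamS K0 L0 j ≤ lamS K0 L0 j * (1 + K0 / (j : ℝ) ^ 2)
    have h1 : 0 ≤ K0 / (j : ℝ) ^ 2 := by positivity
    nlinarith [hpos j]
  have hmono : Monotone (lamS K0 L0) := monotone_nat_of_le_succ hstep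
  refine ⟨hmono, fun j => ⟨hmono (Nat.zero_le j), ?_⟩⟩
  have key : ∀ j : ℕ, lamS K0 L0 (j + 2) ≤ L0 * Real.exp (K0 * (2 - 1 / ((j : ℝ) + 1))) := by
    intro j
    induction j with
    | zero =>
      show lamS K0 L0 0 * (1 + K0 / ((0 : ℕ) : ℝ) ^ 2) * (1 + K0 / ((0 + 1 : ℕ) : ℝ) ^ 2) ≤ _
      have h1 : lamS K0 L0 0 = L0 := rfl
      have h2 := Real.add_one_le_exp K0
      rw [h1]
      norm_num
      exact mul_le_mul_of_nonneg_left (by linarith) hL.le
    | succ j ih =>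
      show lamS K0 L0 (j + 2) * (1 + K0 / ((j + 2 : ℕ) : ℝ) ^ 2) ≤ _
      have hx : (0 : ℝ) < (j : ℝ) + 1 := by positivity
      have h1 : 1 + K0 / ((j + 2 : ℕ) : ℝ) ^ 2 ≤ Real.exp (K0 / ((j + 2 : ℕ) : ℝ) ^ 2) := by
        linarith [Real.add_one_le_exp (K0 / ((j + 2 : ℕ) : ℝ) ^ 2)]
      have h2 : 1 / ((j : ℝ) + 1 + 1) ^ 2 ≤ 1 / ((j : ℝ) + 1) - 1 / ((j : ℝ) + 1 + 1) := by
        rw [div_sub_div _ _ hx.ne' (by positivity), div_le_div_iff₀ (by positivity) (by positivity)]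
        nlinarith
      calc lamS K0 L0 (j + 2) * (1 + K0 / ((j + 2 : ℕ) : ℝ) ^ 2)
          ≤ (L0 * Real.exp (K0 * (2 - 1 / ((j : ℝ) + 1)))) * Real.exp (K0 / ((j + 2 : ℕ) : ℝ) ^ 2) :=
            mul_le_mul ih h1 (by positivity) (by positivity)
        _ = L0 * Real.exp (K0 * (2 - 1 / ((j : ℝ) + 1)) + K0 / ((j + 2 : ℕ) : ℝ) ^ 2) := by
            rw [mul_assoc, ← Real.exp_add]
        _ ≤ L0 * Real.exp (K0 * (2 - 1 / (((j + 1 : ℕ) : ℝ) + 1))) := by
            apply mul_le_mul_of_nonneg_left _ hL.le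
            apply Real.exp_le_exp.2
            push_cast
            have e : ((j : ℝ) + 2) = (j : ℝ) + 1 + 1 := by ring
            rw [e]
            have h3 : K0 / ((j : ℝ) + 1 + 1) ^ 2 = K0 * (1 / ((j : ℝ) + 1 + 1) ^ 2) := by ring
            rw [h3]
            nlinarith [mul_le_mul_of_nonneg_left h2 hK]
  calc lamS K0 L0 j ≤ lamS K0 L0 (j + 2) := hmono (Nat.le_add_right _ _)
    _ ≤ L0 * Real.exp (K0 * (2 - 1 / ((j : ℝ) + 1))) := key j
    _ ≤ L0 * Real.exp (2 * K0) := by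
        apply mul_le_mul_of_nonneg_left _ hL.le
        apply Real.exp_le_exp.2
        have h1 : 0 ≤ 1 / ((j : ℝ) + 1) := by positivity
        nlinarith

namespace Par

variable {I : S9Input n d} {h : ℝ} {Dst : ℕ} (P : Par I h Dst)

/-- bad macro indices. -/
def bad : ℕ → Prop := Bad (Qs I h) P.N P.M

/-- pinching constant of the rates on regular macros. -/
noncomputable def b : ℝ := I.b0 * Real.exp (-P.M)

/-- the multipliers. -/
noncomputable def lam : ℕ → ℝ := lamS (2 / P.b) (2 / (P.b * I.c0))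

/-- lower bound of `θ_j T_k` on regular steps. -/
noncomputable def gg (j : ℕ) : ℝ := Real.sqrt (Sm h j) / (2 * n * Real.exp P.M * (j : ℝ) ^ 2)

/-- bound of the alignment matrices on macro `j`. -/
noncomputable def BdJ (j : ℕ) : ℝ := Bd n (Real.exp P.M * (j : ℝ) ^ 2 * (10 * n))

theorem b_pos : 0 < P.b := mul_pos I.hb0 (Real.exp_pos _)

end Par

/-- the passage constant `ε₀ = 1 / (10 n)`. -/
noncomputable def eps0 (n : ℕ) : ℝ := 1 / (10 * n)

/-- all numerical conditions on a macro index `j`; `p` = exponent of the polynomial envelope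
`y = s^p`, `c` = exponent of `asm_main`, `Cv` = constant of `vol_main`. -/
structure Late {I : S9Input n d} {h : ℝ} {Dst : ℕ} (P : Par I h Dst) (p c : ℕ) (Cv : ℝ) (j : ℕ) :
    Prop where
  N_le : P.N + 1 ≤ j
  s0_le : I.s0 ≤ Sm h j
  sqrt_ge : 1 ≤ (Real.exp h - 1) * Real.sqrt (Sm h j)
  sq_ge : 2 / P.b ≤ (j : ℝ) ^ 2
  two_le : 2 ≤ Sm h j
  n_le : (n : ℝ) ^ 5 ≤ Sm h j
  C1_le : I.C1 ≤ Sm h j
  Cv_le : Real.exp 1 * Cv ≤ Sm h j
  mat_le : (n + P.BdJ j) * (n + P.BdJ (j + 1)) * (n : ℝ) ^ 4 ≤ Sm h j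
  env : ∀ s : ℝ, Sm h j ≤ s → (s ^ p * 2) ^ c ≤ Real.exp (Real.sqrt s)
  kap : (Sm h (j + 1) ^ p * 2) ^ c ≤ Real.exp (2 / 5 * P.gg j)
  close0 : 12 * (Real.exp P.M * (j : ℝ) ^ 2 * (10 * n)) * P.BdJ j ≤ Real.exp (eps0 n * P.gg j / 2)
  close1 : 12 * (Real.exp P.M * (j : ℝ) ^ 2 * (10 * n)) * P.BdJ (j + 1)
    ≤ Real.exp (eps0 n * P.gg (j + 1) / 2)

/-- PAR-3 (numerics): all conditions hold eventually.  Everything reduces to
"`A j^a ≤ exp (c exp (h j / 2) / j^2)` eventually" and "`(A s)^a ≤ exp (sqrt s)` eventually". -/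
theorem eventually_late {I : S9Input n d} {h : ℝ} (hh : 0 < h) (hn : 0 < n) {Dst : ℕ}
    (P : Par I h Dst) (p c : ℕ) (Cv : ℝ) : ∀ᶠ j : ℕ in atTop, Late P p c Cv j := by
  have hn' : (0 : ℝ) < n := by exact_mod_cast hn
  have hE : 0 ≤ Real.exp P.M := (Real.exp_pos _).le
  have hD : 0 < 2 * (n : ℝ) * Real.exp P.M := by positivity
  have heps : 0 < eps0 n := by unfold eps0; positivity
  have heh : 0 < Real.exp h - 1 := by linarith [Real.add_one_lt_exp hh.ne']
  obtain ⟨s₁, hs₁⟩ := num_env p c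
  have hgg := num_pow_le_gg (2 / eps0 n) 1 hh hD
  filter_upwards [eventually_ge_atTop (P.N + 1), num_const_le_exp I.s0 hh,
    num_const_le_exp ((1 / (Real.exp h - 1)) ^ 2) hh,
    tendsto_natCast_atTop_atTop.eventually_ge_atTop (2 / P.b), num_const_le_exp 2 hh,
    num_const_le_exp ((n : ℝ) ^ 5) hh, num_const_le_exp I.C1 hh, num_const_le_exp (Real.exp 1 * Cv) hh,
    num_mat n hE hh, num_const_le_exp s₁ hh, num_kap p c hh hD, num_close n hE, hgg,
    (tendsto_add_atTop_nat 1).eventually hgg] with j h1 h2 h3 h4 h5 h6 h7 h8 h9 h10 h11 h12 h13 h14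
  have hj1 : (1 : ℝ) ≤ j := by
    have : 1 ≤ j := le_trans (Nat.le_add_left 1 P.N) h1
    exact_mod_cast this
  have e13 : (j : ℝ) ≤ eps0 n * P.gg j / 2 := by
    have h13' : 2 / eps0 n * (j : ℝ) ≤ P.gg j := by
      rw [pow_one] at h13
      exact h13
    rw [div_mul_eq_mul_div, div_le_iff₀ heps] at h13'
    linarith
  have e14 : ((j + 1 : ℕ) : ℝ) ≤ eps0 n * P.gg (j + 1) / 2 := by
    have h14' : 2 / eps0 n * ((j + 1 : ℕ) : ℝ) ≤ P.gg (j + 1) := by
      rw [pow_one] at h14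
      exact h14
    rw [div_mul_eq_mul_div, div_le_iff₀ heps] at h14'
    linarith
  exact
    { N_le := h1
      s0_le := h2
      sqrt_ge := by
        have h3' : 1 / (Real.exp h - 1) ≤ Real.sqrt (Sm h j) := Real.le_sqrt_of_sq_le h3
        rw [div_le_iff₀ heh] at h3'
        linarith
      sq_ge := by
        have : (j : ℝ) ≤ (j : ℝ) ^ 2 := by nlinarith
        linarith
      two_le := h5
      n_le := h6
      C1_le := h7
      Cv_le := h8
      mat_le := h9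
      env := fun s hs => hs₁ s (le_trans h10 hs)
      kap := h11
      close0 := h12.1.trans (Real.exp_le_exp.2 e13)
      close1 := h12.2.trans (Real.exp_le_exp.2 (le_trans (by push_cast; linarith) e14)) }

theorem par_good_macro (I : S9Input n d) {h : ℝ} (hh : 0 < h) (J : ℕ) :
    ∃ j, J ≤ j ∧ Qs I h j ≤ 3 * Real.exp h * Sm h j := by
  obtain ⟨x, hx1, hx2⟩ := I.q_liminf (Sm h J)
  have hx0 : 0 < x := lt_of_lt_of_le (Sm_pos h J) hx1
  have hlog : h * J ≤ Real.log x := by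
    rw [Real.le_log_iff_exp_le hx0]
    exact hx1
  have hq0 : 0 ≤ Real.log x / h := div_nonneg (le_trans (by positivity) hlog) hh.le
  refine ⟨⌊Real.log x / h⌋₊, ?_, ?_⟩
  · apply Nat.le_floor
    rw [le_div_iff₀ hh]
    linarith
  · have h1 : (⌊Real.log x / h⌋₊ : ℝ) ≤ Real.log x / h := Nat.floor_le hq0
    have h2 : Real.log x / h < (⌊Real.log x / h⌋₊ : ℝ) + 1 := Nat.lt_floor_add_one _
    rw [le_div_iff₀ hh] at h1
    rw [div_lt_iff₀ hh] at h2
    have h3 : Sm h ⌊Real.log x / h⌋₊ ≤ x := by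
      unfold Sm
      rw [← Real.le_log_iff_exp_le hx0]
      linarith
    have h4 : x ≤ Real.exp h * Sm h ⌊Real.log x / h⌋₊ := by
      unfold Sm
      rw [← Real.exp_add, ← Real.log_le_iff_le_exp hx0]
      nlinarith
    calc Qs I h ⌊Real.log x / h⌋₊ ≤ I.q x := I.q_mono h3
      _ ≤ 3 * x := hx2
      _ ≤ 3 * Real.exp h * Sm h ⌊Real.log x / h⌋₊ := by linarith

/-- PAR-4: late regular starts exist. -/
theorem exists_start {I : S9Input n d} {h : ℝ} (hh : 0 < h) (hn : 0 < n) {Dst : ℕ}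
    (P : Par I h Dst) (p c : ℕ) (Cv : ℝ) :
    ∃ j0 : ℕ, ¬ P.bad j0 ∧ ∀ j, j0 ≤ j → Late P p c Cv j := by
  obtain ⟨J, hJ⟩ := Filter.eventually_atTop.1 (eventually_late hh hn P p c Cv)
  obtain ⟨j0, hj0, hbad⟩ := exists_not_bad (Qs_mono I hh) (Qs_pos I h) P.hM0 (h := h)
    (A := 3 * Real.exp h) (fun J => par_good_macro I hh J) P.hM2 J
  exact ⟨j0, hbad, fun j hj => hJ j (hj0.trans hj)⟩

/-- PAR-5: the subsequence of macro endpoints with `Q_j ≤ 3 e^h S_j`. -/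
theorem exists_good_macro (I : S9Input n d) {h : ℝ} (hh : 0 < h) (J : ℕ) :
    ∃ j, J ≤ j ∧ Qs I h j ≤ 3 * Real.exp h * Sm h j := by
  exact par_good_macro I hh J

end Claimed.Agent.R316.S9
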